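import Vale.Agent.P197.Saxl.Char0.Defs

/-!
# P197, characteristic zero: Young symmetrizers as rational matrices

A function on permutations acts by left translation matrices; the symmetrizers of a tableau satisfy
`Cs z Rs = κ • E`, and `E * E` is a nonzero multiple of `E`.
-/

namespace Vale.Agent.P197.Saxl

open Finset Equiv Matrix

variable {α : Type} [Fintype α] [DecidableEq α]

/-- The matrix of a function on permutations. -/
def regMat : (Perm α → ℚ) →ₗ[ℚ] Matrix (Perm α) (Perm α) ℚ where
  toFun f := Matrix.of fun k h => f (k⁻¹ * h)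
  map_add' _ _ := rfl
  map_smul' _ _ := rfl

/-- The matrix of one permutation. -/
def regOne (g : Perm α) : Matrix (Perm α) (Perm α) ℚ := regMat (Pi.single g 1)

omit [Fintype α] [DecidableEq α] in
theorem regMat_apply (f : Perm α → ℚ) (k h : Perm α) : regMat f k h = f (k⁻¹ * h) := rfl

omit [Fintype α] [DecidableEq α] in
theorem regMat_eq_zero {f : Perm α → ℚ} (h : regMat f = 0) : f = 0 := by
  funext g
  have := congrFun (congrFun h 1) g
  rw [regMat_apply] at this
  simpa using this

theorem regOne_mul_regMat (g : Perm α) (f : Perm α → ℚ) :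
    regOne g * regMat f = regMat fun x => f (g⁻¹ * x) := by
  ext k h
  rw [Matrix.mul_apply, sum_eq_single (k * g)]
  · simp [regOne, regMat_apply, mul_assoc]
  · intro b _ hb
    rw [regOne, regMat_apply, Pi.single_apply, if_neg, zero_mul]
    exact fun e => hb (inv_mul_eq_iff_eq_mul.mp e)
  · exact fun hh => absurd (mem_univ _) hh

theorem regMat_mul_regOne (f : Perm α → ℚ) (g : Perm α) :
    regMat f * regOne g = regMat fun x => f (x * g⁻¹) := by
  ext k h
  rw [Matrix.mul_apply, sum_eq_single (h * g⁻¹)]
  · simp [regOne, regMat_apply, mul_assoc]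
  · intro b _ hb
    rw [regOne, regMat_apply, regMat_apply, Pi.single_apply, if_neg, mul_zero]
    exact fun e => hb (eq_mul_inv_of_mul_eq (inv_mul_eq_iff_eq_mul.mp e).symm)
  · exact fun hh => absurd (mem_univ _) hh

theorem regOne_mul (g h : Perm α) : regOne g * regOne h = regOne (g * h) := by
  conv_lhs => arg 2; rw [regOne]
  rw [regOne_mul_regMat, regOne]
  congr 1
  funext x
  rw [Pi.single_apply, Pi.single_apply]
  exact if_congr inv_mul_eq_iff_eq_mul rfl rfl

theorem regOne_one : regOne (1 : Perm α) = 1 := by
  ext k h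
  rw [regOne, regMat_apply, Pi.single_apply, Matrix.one_apply]
  exact if_congr inv_mul_eq_one rfl rfl

theorem regMat_expand (f : Perm α → ℚ) : regMat f = ∑ g, f g • regOne g := by
  conv_lhs => rw [pi_eq_sum_univ' f, map_sum]
  refine sum_congr rfl fun g _ => ?_
  rw [map_smul]
  rfl

omit [Fintype α] [DecidableEq α] in
theorem regMat_transpose (f : Perm α → ℚ) : (regMat f)ᵀ = regMat fun g => f g⁻¹ := by
  ext k h
  simp [regMat_apply]

theorem regOne_transpose (g : Perm α) : (regOne g)ᵀ = regOne g⁻¹ := by
  rw [regOne, regMat_transpose, regOne]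
  congr 1
  funext x
  rw [Pi.single_apply, Pi.single_apply]
  exact if_congr inv_eq_iff_eq_inv rfl rfl

theorem regMat_trace (f : Perm α → ℚ) :
    (regMat f).trace = (Fintype.card (Perm α) : ℚ) * f 1 := by
  simp [Matrix.trace, regMat_apply]

theorem regOne_trace (g : Perm α) :
    (regOne g).trace = if g = 1 then (Fintype.card (Perm α) : ℚ) else 0 := by
  rw [regOne, regMat_trace, Pi.single_apply]
  rcases eq_or_ne g 1 with h | h
  · simp [h]
  · simp [h, h.symm]

/-- The sum over the permutations preserving a labelling. -/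
def symMat (f : α → ℕ) : Matrix (Perm α) (Perm α) ℚ := ∑ r : stab f, regOne (r : Perm α)

/-- The signed sum over the permutations preserving a labelling. -/
def altMat (f : α → ℕ) : Matrix (Perm α) (Perm α) ℚ :=
  ∑ c : stab f, ((Perm.sign (c : Perm α) : ℤ) : ℚ) • regOne (c : Perm α)

/-- The Young symmetrizer. -/
def youngMat (row col : α → ℕ) : Matrix (Perm α) (Perm α) ℚ := altMat col * symMat row

variable {row col f : α → ℕ}

theorem regOne_mul_symMat (r : stab f) : regOne (r : Perm α) * symMat f = symMat f := by
  simp only [symMat, mul_sum, regOne_mul]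
  exact Equiv.sum_comp (Equiv.mulLeft r) fun x : stab f => regOne (x : Perm α)

theorem symMat_mul_regOne (r : stab f) : symMat f * regOne (r : Perm α) = symMat f := by
  simp only [symMat, sum_mul, regOne_mul]
  exact Equiv.sum_comp (Equiv.mulRight r) fun x : stab f => regOne (x : Perm α)

theorem sign_cast_sq (g : Perm α) :
    ((Perm.sign g : ℤ) : ℚ) * ((Perm.sign g : ℤ) : ℚ) = 1 := by
  rcases Int.units_eq_one_or (Perm.sign g) with e | e <;> simp [e]

theorem regOne_mul_altMat (c : stab col) :
    regOne (c : Perm α) * altMat col = ((Perm.sign (c : Perm α) : ℤ) : ℚ) • altMat col := by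
  simp only [altMat, mul_sum, smul_sum, mul_smul_comm, regOne_mul]
  refine Fintype.sum_equiv (Equiv.mulLeft c) _ _ fun x => ?_
  simp only [Equiv.coe_mulLeft, Subgroup.coe_mul, map_mul, Units.val_mul, Int.cast_mul, smul_smul]
  rw [← mul_assoc, sign_cast_sq, one_mul]

theorem altMat_mul_regOne (c : stab col) :
    altMat col * regOne (c : Perm α) = ((Perm.sign (c : Perm α) : ℤ) : ℚ) • altMat col := by
  simp only [altMat, sum_mul, smul_sum, smul_mul_assoc, regOne_mul]
  refine Fintype.sum_equiv (Equiv.mulRight c) _ _ fun x => ?_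
  simp only [Equiv.coe_mulRight, Subgroup.coe_mul, map_mul, Units.val_mul, Int.cast_mul, smul_smul]
  rw [mul_comm, mul_assoc, sign_cast_sq, mul_one]

theorem symMat_transpose (f : α → ℕ) : (symMat f)ᵀ = symMat f := by
  simp only [symMat, transpose_sum, regOne_transpose]
  exact Fintype.sum_equiv (Equiv.inv (stab f)) _ _ fun r => rfl

theorem altMat_transpose (f : α → ℕ) : (altMat f)ᵀ = altMat f := by
  simp only [altMat, transpose_sum, transpose_smul, regOne_transpose]
  refine Fintype.sum_equiv (Equiv.inv (stab f)) _ _ fun c => ?_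
  simp [Equiv.inv, Perm.sign_inv]

theorem symMat_eq (f : α → ℕ) : symMat f = regMat fun g => if g ∈ stab f then 1 else 0 := by
  rw [regMat_expand]
  simp only [ite_smul, one_smul, zero_smul, ← sum_filter]
  exact (sum_subtype _ (fun x => by simp) fun g : Perm α => regOne g).symm

theorem youngMat_eq (row col : α → ℕ) :
    youngMat row col = regMat fun g => (youngFun row col g : ℚ) := by
  rw [regMat_expand]
  simp only [youngMat, altMat, symMat, sum_mul_sum, smul_mul_assoc, regOne_mul, youngFun,
    Int.cast_sum, sum_smul]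
  rw [sum_comm (γ := Perm α)]
  refine sum_congr rfl fun c _ => ?_
  rw [sum_comm (γ := Perm α)]
  refine sum_congr rfl fun r _ => ?_
  rw [sum_eq_single ((c : Perm α) * r)]
  · rw [if_pos rfl]
  · exact fun g _ hne => by rw [if_neg hne.symm, Int.cast_zero, zero_smul]
  · exact fun h => absurd (mem_univ _) h

theorem eq_zero_of_eq_neg_self {V : Type} [AddCommGroup V] [Module ℚ V] {x : V} (h : x = -x) :
    x = 0 := by
  have : (2 : ℚ) • x = 0 := by rw [two_smul]; nth_rewrite 2 [h]; exact add_neg_cancel x
  exact (smul_eq_zero.mp this).resolve_left two_ne_zero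

/-- A labelling that repeats inside a column is killed. -/
theorem altMat_mul_symMat_of_repeat (g : Perm α)
    (h : ¬ Function.Injective fun x => (f (g⁻¹ x), col x)) :
    altMat col * regOne g * symMat f = 0 := by
  obtain ⟨p, q, hne, hc, hf⟩ := exists_col_swap h
  have h1 := altMat_mul_regOne (col := col) ⟨swap p q, swap_mem_stab hc⟩
  have h2 := regOne_mul_symMat (f := f) ⟨swap (g⁻¹ p) (g⁻¹ q), swap_mem_stab hf⟩
  simp only [Perm.sign_swap hne, Units.val_neg, Units.val_one, Int.cast_neg, Int.cast_one,
    neg_smul, one_smul] at h1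
  refine eq_zero_of_eq_neg_self ?_
  conv_lhs => rw [← h2]
  have h3 : regOne g * regOne (swap (g⁻¹ p) (g⁻¹ q)) = regOne (swap p q) * regOne g := by
    rw [regOne_mul, regOne_mul, Equiv.mul_swap_eq_swap_mul]
    simp
  simp only [← mul_assoc]
  rw [mul_assoc (altMat col), h3, ← mul_assoc, h1, neg_mul, neg_mul]

theorem symMat_mul_altMat_of_repeat (g : Perm α)
    (h : ¬ Function.Injective fun x => (f (g x), col x)) :
    symMat f * regOne g * altMat col = 0 := by
  have h0 := altMat_mul_symMat_of_repeat (f := f) (col := col) g⁻¹ (by simpa using h)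
  have := congrArg Matrix.transpose h0
  rwa [transpose_mul, transpose_mul, transpose_zero, symMat_transpose, altMat_transpose,
    regOne_transpose, inv_inv, ← mul_assoc] at this

/-- `Cs g Rs` is a multiple of the Young symmetrizer. -/
theorem IsTableau.altMat_mul_symMat (hT : IsTableau row col) (g : Perm α) :
    ∃ a : ℚ, altMat col * regOne g * symMat row = a • youngMat row col := by
  by_cases h : Function.Injective fun x => (row (g⁻¹ x), col x)
  · obtain ⟨r, hr, c, hc, e⟩ := hT.mem_rc h
    have hg : g = c⁻¹ * r⁻¹ := by rw [← _root_.mul_inv_rev, ← e, inv_inv]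
    refine ⟨((Perm.sign c⁻¹ : ℤ) : ℚ), ?_⟩
    rw [hg, ← regOne_mul, ← mul_assoc, altMat_mul_regOne ⟨c⁻¹, inv_mem hc⟩, smul_mul_assoc,
      smul_mul_assoc, mul_assoc, regOne_mul_symMat ⟨r⁻¹, inv_mem hr⟩]
    rfl
  · exact ⟨0, by rw [altMat_mul_symMat_of_repeat g h, zero_smul]⟩

theorem IsTableau.youngFun_one (hT : IsTableau row col) : youngFun row col 1 = 1 := by
  have huniq : ∀ (c : stab col) (r : stab row), (c : Perm α) * r = 1 → c = 1 ∧ r = 1 := by
    intro c r h
    have e : (c : Perm α) = 1 := Equiv.ext fun x => hT.inj (Prod.ext (by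
      show row ((c : Perm α) x) = row x
      rw [show (c : Perm α) = ((r⁻¹ : stab row) : Perm α) from eq_inv_of_mul_eq_one_left h]
      exact (r⁻¹ : stab row).2 x) (c.2 x))
    rw [e, one_mul] at h
    exact ⟨Subtype.ext e, Subtype.ext h⟩
  rw [youngFun, sum_eq_single 1, sum_eq_single 1]
  · simp
  · exact fun r _ hne => if_neg fun h => hne (huniq 1 r h).2
  · exact fun h => absurd (mem_univ _) h
  · exact fun c _ hne => sum_eq_zero fun r _ => if_neg fun h => hne (huniq c r h).1
  · exact fun h => absurd (mem_univ _) h

theorem IsTableau.youngMat_trace (hT : IsTableau row col) :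
    (youngMat row col).trace = (Fintype.card (Perm α) : ℚ) := by
  rw [youngMat_eq, regMat_trace, hT.youngFun_one]
  simp

/-- The square of the Young symmetrizer is a nonzero multiple of it. -/
theorem IsTableau.youngMat_sq (hT : IsTableau row col) :
    ∃ a : ℚ, a ≠ 0 ∧ youngMat row col * youngMat row col = a • youngMat row col := by
  classical
  choose a ha using hT.altMat_mul_symMat
  have hsq : youngMat row col * youngMat row col
      = (∑ r : stab row, ∑ c : stab col,
          ((Perm.sign (c : Perm α) : ℤ) : ℚ) * a ((r : Perm α) * (c : Perm α))) • youngMat row col := by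
    have hmid : symMat row * altMat col
        = ∑ r : stab row, ∑ c : stab col,
            ((Perm.sign (c : Perm α) : ℤ) : ℚ) • regOne ((r : Perm α) * (c : Perm α)) := by
      simp only [altMat, symMat, sum_mul_sum, mul_smul_comm, regOne_mul]
    rw [youngMat, show altMat col * symMat row * (altMat col * symMat row)
      = altMat col * (symMat row * altMat col) * symMat row by simp only [mul_assoc], hmid]
    simp only [mul_sum, sum_mul, mul_smul_comm, smul_mul_assoc, ha, smul_smul, sum_smul, youngMat]
  refine ⟨_, fun h0 => ?_, hsq⟩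
  rw [h0, zero_smul] at hsq
  have hnil : IsNilpotent (youngMat row col) := ⟨2, by rw [pow_two, hsq]⟩
  have h2 := (Matrix.isNilpotent_trace_of_isNilpotent hnil).eq_zero
  rw [hT.youngMat_trace] at h2
  exact Fintype.card_ne_zero (α := Perm α) (by exact_mod_cast h2)

/-- A two sided invariant space of matrices of functions which a Young symmetrizer does not kill
contains that symmetrizer. -/
theorem IsTableau.youngMat_mem (hT : IsTableau row col)
    (V : Submodule ℚ (Matrix (Perm α) (Perm α) ℚ))
    (hrange : V ≤ LinearMap.range (regMat (α := α)))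
    (hleft : ∀ g, ∀ y ∈ V, regOne g * y ∈ V) (hright : ∀ g, ∀ y ∈ V, y * regOne g ∈ V)
    {x : Matrix (Perm α) (Perm α) ℚ} (hx : x ∈ V) (hne : x * youngMat row col ≠ 0) :
    youngMat row col ∈ V := by
  by_contra hout
  have hkill : ∀ y ∈ V, altMat col * y * symMat row = 0 := by
    intro y hy
    have hmem : altMat col * y * symMat row ∈ V := by
      simp only [altMat, symMat, sum_mul, mul_sum, smul_mul_assoc]
      exact Submodule.sum_mem _ fun c _ => Submodule.sum_mem _ fun r _ =>
        V.smul_mem _ (hright _ _ (hleft _ _ hy))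
    obtain ⟨f, rfl⟩ := hrange hy
    choose a ha using hT.altMat_mul_symMat
    have he : altMat col * regMat f * symMat row = (∑ g, f g * a g) • youngMat row col := by
      rw [regMat_expand f]
      simp only [mul_sum, sum_mul, mul_smul_comm, smul_mul_assoc, ha, smul_smul, sum_smul]
    rw [he] at hmem ⊢
    rcases eq_or_ne (∑ g, f g * a g) 0 with h | h
    · rw [h, zero_smul]
    · exact absurd (by simpa [smul_smul, h] using V.smul_mem (∑ g, f g * a g)⁻¹ hmem) hout
  obtain ⟨f, rfl⟩ := hrange hx
  set y := (regMat f)ᵀ * regMat f * altMat col with hy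
  have hyV : y ∈ V := by
    rw [hy, regMat_transpose, regMat_expand (fun g => f g⁻¹)]
    simp only [altMat, sum_mul, mul_sum, smul_mul_assoc, mul_smul_comm]
    exact Submodule.sum_mem _ fun c _ => V.smul_mem _ (Submodule.sum_mem _ fun g _ =>
      V.smul_mem _ (hright _ _ (hleft _ _ hx)))
  refine hne (Matrix.conjTranspose_mul_self_eq_zero.mp ?_)
  rw [conjTranspose_eq_transpose_of_trivial, transpose_mul, youngMat, transpose_mul,
    symMat_transpose, altMat_transpose]
  calc symMat row * altMat col * (regMat f)ᵀ * (regMat f * (altMat col * symMat row))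
      = symMat row * (altMat col * y * symMat row) := by simp only [hy, mul_assoc]
    _ = 0 := by rw [hkill y hyV, mul_zero]

end Vale.Agent.P197.Saxl
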