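import Vale.Agent.P197.Saxl.Char0.GlueTerm

/-!
# P197, characteristic zero: block fillings above a base

If the inner cells carry a strong pairing for the staircase of size `m - 2 s` and the others split
into levels by the pairs of sizes above it, at most four cells of a level in a column, the shape
pairs nontrivially.  In particular this holds when the base is one column.
-/

namespace Vale.Agent.P197.Saxl

open Finset Equiv

variable {m : ℕ}

/-- Level `0` is one column with as many cells as the staircase of size `m - 2 s`; above it level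
`s - t` has `(m - 2 t) + (m - 2 t - 1)` cells, at most four in a column. -/
def BasedFilling {m : ℕ} (row col : Stair m → ℕ) : Prop :=
  ∃ (s : ℕ) (lev : Stair m → ℕ), Monotone2 row col lev ∧ (∀ x, lev x ≤ s) ∧
    (block lev 0).card = Fintype.card (Stair (m - 2 * s)) ∧
    (∀ x y, lev x = 0 → lev y = 0 → col x = col y) ∧
    (∀ t, t < s → (block lev (s - t)).card = (m - 2 * t) + (m - 2 * t - 1)) ∧
      ∀ t, t < s → ∀ j, ((block lev (s - t)).filter fun x => col x = j).card ≤ 4

/-- **B′**: pairs of levels on top of a strong pairing. -/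
theorem strongPair_of_step {rowμ colμ : Stair m → ℕ} (hT : IsTableau rowμ colμ) {s : ℕ}
    (lev : Stair m → ℕ) (e₀ : Stair (m - 2 * s) ≃ {x // lev x = 0}) (hle : ∀ x, lev x ≤ s)
    (hmono : Monotone2 rowμ colμ lev)
    (hcard : ∀ t, t < s → (block lev (s - t)).card = (m - 2 * t) + (m - 2 * t - 1))
    (hcol4 : ∀ t, t < s → ∀ j, ((block lev (s - t)).filter fun x => colμ x = j).card ≤ 4)
    (hbase : StrongPair (fun y => rowμ (e₀ y).1) (fun y => colμ (e₀ y).1)) :
    StrongPair rowμ colμ := by
  classical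
  obtain ⟨a, b, a₂, b₂, hab, hS⟩ := hbase
  have hrk : ∀ x y, lev x = lev y → colOrd colμ x < colOrd colμ y →
      rk lev (colOrd colμ) x < rk lev (colOrd colμ) y := by
    intro x y hxy hlt
    rw [rk, rk, hxy]
    refine card_lt_card ((ssubset_iff_of_subset ?_).mpr
      ⟨x, mem_filter.mpr ⟨mem_block.mpr hxy, hlt⟩, by simp⟩)
    exact fun z hz => mem_filter.mpr ⟨(mem_filter.mp hz).1, (mem_filter.mp hz).2.trans hlt⟩
  have hrkinj : ∀ x y, lev x = lev y → rk lev (colOrd colμ) x = rk lev (colOrd colμ) y → x = y := by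
    intro x y hxy he
    rcases Nat.lt_trichotomy (colOrd colμ x) (colOrd colμ y) with h1 | h1 | h1
    · exact absurd he (hrk x y hxy h1).ne
    · exact colOrd_injective _ h1
    · exact absurd he (hrk y x hxy.symm h1).ne'
  have hrklt : ∀ x, lev x ≠ 0 → rk lev (colOrd colμ) x
      < (m - 2 * (s - lev x)) + (m - 2 * (s - lev x) - 1) := fun x hx => by
    have := hle x
    rw [← hcard (s - lev x) (by omega), show s - (s - lev x) = lev x by omega]
    refine card_lt_card ((ssubset_iff_of_subset (filter_subset _ _)).mpr ⟨x, mem_block.mpr rfl, ?_⟩)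
    simp
  let kk : Stair (m - 2 * s) → ℕ := fun y => (stairCol (m - 2 * s) y : ℕ)
  let ii : Stair (m - 2 * s) → ℕ := fun y => (stairRow (m - 2 * s) y : ℕ)
  let L : Layout m :=
    { lev := fun x => if h : lev x = 0 then s + kk (e₀.symm ⟨x, h⟩) / 2 else s - lev x
      pos := fun x => if h : lev x = 0 then 2 * ii (e₀.symm ⟨x, h⟩) + kk (e₀.symm ⟨x, h⟩) % 2
        else rk lev (colOrd colμ) x
      lt := fun x => by
        by_cases h : lev x = 0
        · simp only [dif_pos h]
          have : ii (e₀.symm ⟨x, h⟩) + kk (e₀.symm ⟨x, h⟩) < m - 2 * s := (e₀.symm ⟨x, h⟩).2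
          omega
        · simp only [dif_neg h]
          exact hrklt x h
      inj := fun x y hl hp => by
        have := hle x
        have := hle y
        by_cases hx : lev x = 0 <;> by_cases hy : lev y = 0
        · simp only [dif_pos hx, dif_pos hy] at hl hp
          have h3 : e₀.symm ⟨x, hx⟩ = e₀.symm ⟨y, hy⟩ := stair_ext
            (show ii _ = ii _ by omega) (show kk _ = kk _ by omega)
          exact congrArg Subtype.val (e₀.symm.injective h3)
        · simp only [dif_pos hx, dif_neg hy] at hl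
          omega
        · simp only [dif_neg hx, dif_pos hy] at hl
          omega
        · simp only [dif_neg hx, dif_neg hy] at hl hp
          exact hrkinj x y (by omega) hp
      surj := fun t k hk => by
        rcases Nat.lt_or_ge t s with ht | ht
        · have himg : (block lev (s - t)).image (rk lev (colOrd colμ))
              = range ((m - 2 * t) + (m - 2 * t - 1)) := by
            refine eq_of_subset_of_card_le (fun j hj => ?_) ?_
            · obtain ⟨x, hx, rfl⟩ := mem_image.mp hj
              have hx' := mem_block.mp hx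
              have := hrklt x (by omega)
              rw [hx', show s - (s - t) = t by omega] at this
              exact mem_range.mpr this
            · rw [card_range, card_image_of_injOn, hcard t ht]
              intro x hx y hy e
              exact hrkinj x y ((mem_block.mp (mem_coe.mp hx)).trans (mem_block.mp (mem_coe.mp hy)).symm) e
          obtain ⟨x, hx, e⟩ := mem_image.mp (himg ▸ mem_range.mpr hk)
          have hx' := mem_block.mp hx
          exact ⟨x, by rw [dif_neg (by omega)]; omega, by rw [dif_neg (by omega)]; exact e⟩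
        · let y : Stair (m - 2 * s) := ⟨(⟨k / 2, by omega⟩, ⟨2 * (t - s) + k % 2, by omega⟩), by
            show k / 2 + (2 * (t - s) + k % 2) < m - 2 * s
            omega⟩
          refine ⟨(e₀ y).1, ?_, ?_⟩
          · rw [dif_pos (e₀ y).2, Subtype.coe_eta, symm_apply_apply]
            show s + (2 * (t - s) + k % 2) / 2 = t
            omega
          · rw [dif_pos (e₀ y).2, Subtype.coe_eta, symm_apply_apply]
            show 2 * (k / 2) + (2 * (t - s) + k % 2) % 2 = k
            omega }
  have hiff : ∀ x, lev x = 0 ↔ s ≤ L.lev x := fun x => by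
    show _ ↔ s ≤ dite (lev x = 0) _ _
    by_cases h : lev x = 0
    · rw [dif_pos h]
      exact iff_of_true h (Nat.le_add_right _ _)
    · rw [dif_neg h]
      have := hle x
      exact iff_of_false h (by omega)
  have hLlev : ∀ x, lev x ≠ 0 → L.lev x = s - lev x := fun x h => dif_neg h
  have hLpos : ∀ x, lev x ≠ 0 → L.pos x = rk lev (colOrd colμ) x := fun x h => dif_neg h
  let e : Stair (m - 2 * s) ≃ {x // s ≤ L.lev x} := e₀.trans (Equiv.subtypeEquivRight hiff)
  have he : ∀ y, (e y).1 = (e₀ y).1 := fun y => rfl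
  have hA : ∀ y, L.baseA (e y).1 = (upperEquiv m s y).1 := fun y => by
    have h1 : L.lev (e₀ y).1 = s + kk y / 2 := by
      show dite _ _ _ = _
      rw [dif_pos (e₀ y).2, Subtype.coe_eta, symm_apply_apply]
    have h2 : L.pos (e₀ y).1 = 2 * ii y + kk y % 2 := by
      show dite _ _ _ = _
      rw [dif_pos (e₀ y).2, Subtype.coe_eta, symm_apply_apply]
    refine stair_ext ?_ ?_
    · show L.pos (e₀ y).1 / 2 = ii y
      omega
    · show 2 * L.lev (e₀ y).1 + L.bitA Layout.zeroSeq (e₀ y).1 = 2 * s + kk y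
      rw [L.bitA_zero]
      omega
  -- the symbols
  let δ : ℕ → ℕ := fun u => (∑ x ∈ block lev u, rowμ x / 2 % 2) % 2
  let f : Stair m → ℕ × ℕ := fun x =>
    if lev x = 0 then (0, 0) else ((rowμ x / 2 % 2 + δ (lev x)) % 2, rowμ x % 2)
  have hf0 : ∀ x, s ≤ L.lev x → f x = (0, 0) := fun x hx => if_pos ((hiff x).mpr hx)
  have hf : L.EvenSum f := fun t => by
    rcases Nat.lt_or_ge t s with ht | ht
    · have hb : block L.lev t = block lev (s - t) := by
        ext x
        have := hle x
        rw [mem_block, mem_block]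
        constructor
        · intro h
          have hne : lev x ≠ 0 := fun h0 => by
            have := (hiff x).mp h0
            omega
          rw [hLlev x hne] at h
          omega
        · intro h
          rw [hLlev x (by omega)]
          omega
      rw [hb, sum_congr rfl (g := fun x => (rowμ x / 2 % 2 + δ (s - t)) % 2) fun x hx => by
        have hx' := mem_block.mp hx
        simp only [f, if_neg (show lev x ≠ 0 by omega), hx']]
      rw [← sum_nat_mod, sum_add_distrib, sum_const, smul_eq_mul, hcard t ht]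
      show (∑ x ∈ block lev (s - t), rowμ x / 2 % 2
        + _ * ((∑ x ∈ block lev (s - t), rowμ x / 2 % 2) % 2)) % 2 = 0
      by_cases h2 : 2 * t < m
      · rw [Nat.add_mod, Nat.mul_mod, show ((m - 2 * t) + (m - 2 * t - 1)) % 2 = 1 by omega]
        omega
      · rw [show block lev (s - t) = ∅ from card_eq_zero.mp (by rw [hcard t ht]; omega), sum_empty]
        simp
    · rw [sum_eq_zero fun x hx => by rw [hf0 x (by rw [mem_block.mp hx]; exact ht)], Nat.zero_mod]
  have hflt : ∀ x, (f x).1 < 2 ∧ (f x).2 < 2 := fun x => by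
    simp only [f]
    split_ifs <;> constructor <;> omega
  have hsame : ∀ x y, L.lev x = L.lev y → L.lev x < s →
      lev x = lev y ∧ lev x ≠ 0 ∧ lev y ≠ 0 := fun x y h1 h2 => by
    have hx : lev x ≠ 0 := fun h => by have := (hiff x).mp h; omega
    have hy : lev y ≠ 0 := fun h => by have := (hiff y).mp h; omega
    rw [hLlev x hx, hLlev y hy] at h1
    have := hle x
    have := hle y
    exact ⟨by omega, hx, hy⟩
  have hfinj : ∀ x y, L.lev x = L.lev y → L.lev x < s → colμ x = colμ y → f x = f y → x = y := by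
    have key : ∀ x y, lev x = lev y → lev x ≠ 0 → colμ x = colμ y → f x = f y →
        rowμ x ≤ rowμ y → x = y := by
      intro x y h1 h0 h2 h3 h4
      simp only [f, if_neg h0, if_neg (h1 ▸ h0 : lev y ≠ 0), Prod.mk.injEq, h1] at h3
      suffices h5 : rowμ y < rowμ x + 4 from hT.inj (Prod.ext (by
        show rowμ x = rowμ y
        omega) h2)
      by_contra h5
      have hy : ∀ k : Fin 5, ∃ z, rowμ z = rowμ x + k ∧ colμ z = colμ x := fun k =>
        hT.down y (rowμ x + k) (colμ x) (by omega) h2.le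
      choose z hz1 hz2 using hy
      have hmem : ∀ k, z k ∈ (block lev (lev x)).filter fun w => colμ w = colμ x := fun k =>
        mem_filter.mpr ⟨mem_block.mpr (le_antisymm
          ((hmono _ y (by rw [hz1]; omega) (by rw [hz2, h2])).trans h1.ge)
          (hmono x _ (by rw [hz1]; omega) (by rw [hz2]))), hz2 k⟩
      have hx := hle x
      have := (card_le_card_of_injOn z (s := (univ : Finset (Fin 5))) (fun k _ => mem_coe.mpr (hmem k))
        fun a _ b _ e => Fin.ext (by
          have := congrArg rowμ e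
          rw [hz1, hz1] at this
          omega)).trans (show _ ≤ 4 from by
            have := hcol4 (s - lev x) (by omega) (colμ x)
            rwa [show s - (s - lev x) = lev x by omega] at this)
      simp at this
    intro x y h1 h1' h2 h3
    obtain ⟨hl, hx, hy⟩ := hsame x y h1 h1'
    rcases le_total (rowμ x) (rowμ y) with h4 | h4
    · exact key x y hl hx h2 h3 h4
    · exact (key y x hl.symm hy h2.symm h3.symm h4).symm
  have hpos : ∀ x y, L.lev x = L.lev y → L.lev x < s → colμ x < colμ y → L.pos x < L.pos y :=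
    fun x y h1 h1' h2 => by
      obtain ⟨hl, hx, hy⟩ := hsame x y h1 h1'
      rw [hLpos x hx, hLpos y hy]
      exact hrk x y hl (Nat.not_le.mp fun hle => by
        rcases hle.lt_or_eq with h | h
        · have := col_lt_of_colOrd_lt h; omega
        · rw [colOrd_injective _ h] at h2; omega)
  have hkeep : ∀ g, L.Keeps s g → ∀ x, lev (g x) = lev x := fun g hg x => by
    have := hle x
    have := hle (g x)
    by_cases hx : lev x = 0
    · by_contra hne
      have h1 := hLlev (g x) (by omega)
      have := (hg _ (by omega : s - lev (g x) < s) x).mp h1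
      have := (hiff x).mp hx
      omega
    · have := (hg _ (by omega : s - lev x < s) x).mpr (hLlev x hx)
      have hgx : lev (g x) ≠ 0 := fun h => by have := (hiff (g x)).mp h; omega
      rw [hLlev _ hgx] at this
      omega
  -- the two parts of a level preserving permutation
  have hpairfix : ∀ (q : Perm (Stair (m - 2 * s))) x, lev x ≠ 0 → q.extendDomain e x = x :=
    fun q x hx => Perm.extendDomain_apply_not_subtype q e fun h => hx ((hiff x).mpr h)
  have hsmall : ∀ (g : Stair m → ℕ) (q : Perm (Stair (m - 2 * s))),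
      (∀ y, g (e₀ (q y)).1 = g (e₀ y).1) → ∀ x, g (q.extendDomain e x) = g x := fun g q hq x => by
    by_cases hx : lev x = 0
    · obtain ⟨y, rfl⟩ : ∃ y, x = (e₀ y).1 := ⟨e₀.symm ⟨x, hx⟩, by rw [apply_symm_apply]⟩
      rw [← he y, Perm.extendDomain_apply_image, he, he]
      exact hq y
    · rw [hpairfix q x hx]
  have hcomm : ∀ (p : Perm (Stair m)) (q : Perm (Stair (m - 2 * s))),
      (∀ x, lev (p x) = lev x) → (∀ x, lev x = 0 → p x = x) →
      q.extendDomain e * p = p * q.extendDomain e := fun p q hp hfix => Equiv.ext fun x => by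
    rw [Perm.mul_apply, Perm.mul_apply]
    by_cases hx : lev x = 0
    · rw [hfix x hx, hfix _ ((hsmall lev q (fun y => (e₀ (q y)).2.trans (e₀ y).2.symm) x).trans hx)]
    · rw [hpairfix q x hx, hpairfix q _ (by rw [hp]; exact hx)]
  let P := (univ : Finset (stab colμ × stab rowμ)).filter fun p =>
    (∀ x, lev ((p.1 : Perm (Stair m)) x) = lev x ∧ lev ((p.2 : Perm (Stair m)) x) = lev x) ∧
      ∀ x, lev x = 0 → (p.1 : Perm (Stair m)) x = x ∧ (p.2 : Perm (Stair m)) x = x
  -- the terms
  have hterm : ∀ p ∈ P, ∀ q : stab (fun y => colμ (e₀ y).1) × stab (fun y => rowμ (e₀ y).1),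
      ∑ τ, L.glueTerm e a b a₂ b₂ f τ
        (((p.1 : Perm (Stair m)) * (q.1 : Perm (Stair (m - 2 * s))).extendDomain e)
          * ((p.2 : Perm (Stair m)) * (q.2 : Perm (Stair (m - 2 * s))).extendDomain e))
      = (Perm.sign (p.1 : Perm (Stair m)) : ℤ) * ((Perm.sign (L.fixB s) : ℤ) * L.weight hf) *
          (tabInt (m - 2 * s) (a * ((q.1 : Perm (Stair (m - 2 * s))) * q.2) * b) *
            tabInt (m - 2 * s) (a₂ * ((q.1 : Perm (Stair (m - 2 * s))) * q.2) * b₂)) := by
    intro p hp q
    obtain ⟨hlev, hfix⟩ := (mem_filter.mp hp).2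
    have hinv : ∀ (r : Perm (Stair m)), (∀ x, lev (r x) = lev x) → (∀ x, lev x = 0 → r x = x) →
        ∀ x, L.lev (r⁻¹ x) = L.lev x ∧ (s ≤ L.lev x → r⁻¹ x = x) := fun r h1 h2 x => by
      have hx0 : r (r⁻¹ x) = x := r.apply_symm_apply x
      have h3 : lev (r⁻¹ x) = lev x := by
        have := h1 (r⁻¹ x)
        rw [hx0] at this
        exact this.symm
      have h4 : lev x = 0 → r⁻¹ x = x := fun h => (h2 _ (h3.trans h)).symm.trans hx0
      refine ⟨?_, fun h => h4 ((hiff x).mpr h)⟩
      by_cases hx : lev x = 0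
      · rw [h4 hx]
      · rw [hLlev x hx, hLlev _ (by rw [h3]; exact hx), h3]
    have hgl : ∀ x, lev (((p.1 : Perm (Stair m)) * p.2) x) = lev x := fun x => by
      rw [Perm.mul_apply, (hlev _).1, (hlev _).2]
    have hgf : ∀ x, lev x = 0 → ((p.1 : Perm (Stair m)) * p.2) x = x := fun x hx => by
      rw [Perm.mul_apply, (hfix x hx).2, (hfix x hx).1]
    rw [show ((p.1 : Perm (Stair m)) * (q.1 : Perm (Stair (m - 2 * s))).extendDomain e)
          * ((p.2 : Perm (Stair m)) * (q.2 : Perm (Stair (m - 2 * s))).extendDomain e)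
        = ((p.1 : Perm (Stair m)) * p.2) * ((q.1 : Perm (Stair (m - 2 * s))) * q.2).extendDomain e from by
      rw [← Perm.extendDomain_mul, mul_assoc, ← mul_assoc _ (p.2 : Perm (Stair m)),
        hcomm _ _ (fun x => (hlev x).2) (fun x hx => (hfix x hx).2)]
      simp only [mul_assoc],
      L.sum_glueTerm hA hab hf hf0 (fun x => (hinv _ hgl hgf x).1)
        (fun x hx => hgf x ((hiff x).mpr hx))]
    have hci := fun x => hinv _ (fun x => (hlev x).1) (fun x hx => (hfix x hx).1) x
    have ef : f ∘ ⇑((p.1 : Perm (Stair m)) * p.2)⁻¹ = f ∘ ⇑(p.1 : Perm (Stair m))⁻¹ := by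
      funext x
      rw [Function.comp_apply, Function.comp_apply, mul_inv_rev, Perm.mul_apply]
      set w := (p.1 : Perm (Stair m))⁻¹ x
      have hl : lev ((p.2 : Perm (Stair m))⁻¹ w) = lev w := by
        have := (hlev ((p.2 : Perm (Stair m))⁻¹ w)).2
        rw [show (p.2 : Perm (Stair m)) ((p.2 : Perm (Stair m))⁻¹ w) = w from
          (p.2 : Perm (Stair m)).apply_symm_apply w] at this
        exact this.symm
      simp only [f, hl, (inv_mem p.2.2 : (p.2 : Perm (Stair m))⁻¹ ∈ stab rowμ) w]
    rw [L.weight_congr ef (L.evenSum_comp hf fun x => (hci x).1),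
      L.weight_perm colμ s hpos hf hflt hfinj _ (fun x => (hci x).1) (inv_mem p.1.2)
        (fun x hx => (hci x).2 hx), Perm.sign_inv]
    ring
  let Φ : (stab colμ × stab rowμ) × (stab (fun y => colμ (e₀ y).1) × stab (fun y => rowμ (e₀ y).1))
      → stab colμ × stab rowμ := fun u =>
    (u.1.1 * ⟨(u.2.1 : Perm (Stair (m - 2 * s))).extendDomain e, hsmall colμ _ u.2.1.2⟩,
      u.1.2 * ⟨(u.2.2 : Perm (Stair (m - 2 * s))).extendDomain e, hsmall rowμ _ u.2.2.2⟩)
  let Q := (univ : Finset (stab (fun y => colμ (e₀ y).1) × stab (fun y => rowμ (e₀ y).1)))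
  have hΦinj : Set.InjOn Φ ↑(P ×ˢ Q) := fun u hu v hv huv => by
    obtain ⟨hu1, -⟩ := mem_product.mp (mem_coe.mp hu)
    obtain ⟨hv1, -⟩ := mem_product.mp (mem_coe.mp hv)
    have hcancel : ∀ (p p' : Perm (Stair m)) (q q' : Perm (Stair (m - 2 * s))),
        (∀ x, lev x = 0 → p x = x) → (∀ x, lev x = 0 → p' x = x) →
        p * q.extendDomain e = p' * q'.extendDomain e → p = p' ∧ q = q' := by
      intro p p' q q' h1 h2 h
      have hq : q = q' := Equiv.ext fun y => e₀.injective (Subtype.ext (by
        have := congrFun (congrArg DFunLike.coe h) (e y).1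
        rw [Perm.mul_apply, Perm.mul_apply, Perm.extendDomain_apply_image,
          Perm.extendDomain_apply_image, h1 _ ((hiff _).mpr (e _).2),
          h2 _ ((hiff _).mpr (e _).2)] at this
        exact this))
      subst hq
      exact ⟨mul_right_cancel h, rfl⟩
    obtain ⟨h1, h1'⟩ := hcancel _ _ _ _ (fun x hx => ((mem_filter.mp hu1).2.2 x hx).1)
      (fun x hx => ((mem_filter.mp hv1).2.2 x hx).1)
      (congrArg (fun w : stab colμ × stab rowμ => (w.1 : Perm (Stair m))) huv)
    obtain ⟨h2, h2'⟩ := hcancel _ _ _ _ (fun x hx => ((mem_filter.mp hu1).2.2 x hx).2)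
      (fun x hx => ((mem_filter.mp hv1).2.2 x hx).2)
      (congrArg (fun w : stab colμ × stab rowμ => (w.2 : Perm (Stair m))) huv)
    exact Prod.ext (Prod.ext (Subtype.ext h1) (Subtype.ext h2))
      (Prod.ext (Subtype.ext h1') (Subtype.ext h2'))
  have hΦsurj : ∀ p : stab colμ × stab rowμ,
      (∀ x, lev ((p.1 : Perm (Stair m)) x) = lev x ∧ lev ((p.2 : Perm (Stair m)) x) = lev x) →
      ∃ u ∈ P ×ˢ Q, Φ u = p := by
    intro p hp
    have hdec : ∀ (g : Stair m → ℕ) (r : Perm (Stair m)), r ∈ stab g → (∀ x, lev (r x) = lev x) →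
        ∃ (rP : Perm (Stair m)) (q : Perm (Stair (m - 2 * s))), rP ∈ stab g ∧
          q ∈ stab (fun y => g (e₀ y).1) ∧ (∀ x, lev (rP x) = lev x) ∧
          (∀ x, lev x = 0 → rP x = x) ∧ r = rP * q.extendDomain e := by
      intro g r hr hl
      let q : Perm (Stair (m - 2 * s)) := e₀.symm.permCongr
        (r.subtypePerm (p := fun x => lev x = 0) fun x => by rw [hl])
      have hqy : ∀ y, (e₀ (q y)).1 = r (e₀ y).1 := fun y => by simp [q, Equiv.permCongr_apply]
      have hqg : q ∈ stab (fun y => g (e₀ y).1) := fun y => by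
        show g (e₀ (q y)).1 = g (e₀ y).1
        rw [hqy, hr]
      have hqi : q⁻¹ ∈ stab (fun y => g (e₀ y).1) := inv_mem hqg
      refine ⟨r * q⁻¹.extendDomain e, q, fun x => ?_, hqg, fun x => ?_, fun x hx => ?_, ?_⟩
      · rw [Perm.mul_apply, hr, hsmall g _ hqi]
      · rw [Perm.mul_apply, hl, hsmall lev _ fun y => (e₀ _).2.trans (e₀ _).2.symm]
      · obtain ⟨y, rfl⟩ : ∃ y, x = (e₀ y).1 := ⟨e₀.symm ⟨x, hx⟩, by rw [apply_symm_apply]⟩
        rw [Perm.mul_apply, ← he y, Perm.extendDomain_apply_image, he, ← hqy, he,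
          show q (q⁻¹ y) = y from q.apply_symm_apply y]
      · rw [mul_assoc, Perm.extendDomain_mul, inv_mul_cancel, Perm.extendDomain_one, mul_one]
    obtain ⟨cP, cq, hc1, hc2, hc3, hc4, hc5⟩ := hdec colμ _ p.1.2 fun x => (hp x).1
    obtain ⟨rP, rq, hr1, hr2, hr3, hr4, hr5⟩ := hdec rowμ _ p.2.2 fun x => (hp x).2
    exact ⟨((⟨cP, hc1⟩, ⟨rP, hr1⟩), (⟨cq, hc2⟩, ⟨rq, hr2⟩)), mem_product.mpr
      ⟨mem_filter.mpr ⟨mem_univ _, fun x => ⟨hc3 x, hr3 x⟩, fun x hx => ⟨hc4 x hx, hr4 x hx⟩⟩,
        mem_univ _⟩, Prod.ext (Subtype.ext hc5.symm) (Subtype.ext hr5.symm)⟩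
  have hsum : ∑ τ, ∑ g, youngFun rowμ colμ g * L.glueTerm e a b a₂ b₂ f τ g
      = (P.card : ℤ) * ((Perm.sign (L.fixB s) : ℤ) * L.weight hf) *
          ∑ g, youngFun (fun y => rowμ (e₀ y).1) (fun y => colμ (e₀ y).1) g *
            (tabInt (m - 2 * s) (a * g * b) * tabInt (m - 2 * s) (a₂ * g * b₂)) := by
    have hY : ∀ {α : Type} [Fintype α] [DecidableEq α] (row col : α → ℕ) (G : Perm α → ℤ),
        ∑ g, youngFun row col g * G g = ∑ p : stab col × stab row,
          (Perm.sign (p.1 : Perm α) : ℤ) * G ((p.1 : Perm α) * p.2) := by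
      intro α _ _ row col G
      have e : ∀ g, youngFun row col g * G g = ∑ p : stab col × stab row,
          if (p.1 : Perm α) * p.2 = g then (Perm.sign (p.1 : Perm α) : ℤ) * G g else 0 := fun g => by
        rw [youngFun, ← Fintype.sum_prod_type', sum_mul]
        exact sum_congr rfl fun p _ => by rw [ite_zero_mul]
      rw [sum_congr rfl fun g _ => e g, sum_comm]
      exact sum_congr rfl fun p _ => by rw [sum_ite_eq univ, if_pos (mem_univ _)]
    rw [sum_comm, sum_congr rfl fun g _ => (mul_sum univ (fun τ => L.glueTerm e a b a₂ b₂ f τ g) _).symm,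
      hY, hY]
    rw [← sum_subset (subset_univ ((P ×ˢ Q).image Φ)) fun p _ hp => by
      rw [sum_eq_zero fun τ _ => ?_, mul_zero]
      by_contra hne
      have hlv := hkeep _ (L.glueTerm_ne_zero hA hab hne).1
      obtain ⟨hc, hr⟩ := split_lev hmono p.1.2 p.2.2 hlv
      obtain ⟨u, hu, hu'⟩ := hΦsurj p fun x => ⟨hc x, hr x⟩
      exact hp (mem_image.mpr ⟨u, hu, hu'⟩)]
    rw [sum_image hΦinj, sum_product, sum_congr rfl fun p hp => sum_congr rfl fun q _ => by
      show (Perm.sign ((p.1 : Perm (Stair m)) * (q.1 : Perm (Stair (m - 2 * s))).extendDomain e) : ℤ) *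
          ∑ τ, L.glueTerm e a b a₂ b₂ f τ
            (((p.1 : Perm (Stair m)) * (q.1 : Perm (Stair (m - 2 * s))).extendDomain e)
              * ((p.2 : Perm (Stair m)) * (q.2 : Perm (Stair (m - 2 * s))).extendDomain e)) = _
      rw [hterm p hp q, Perm.sign_mul, Perm.sign_extendDomain, Units.val_mul,
        show ∀ x y w T : ℤ, x * y * (x * w * T) = (x * x) * (w * (y * T)) by intros; ring,
        ← Units.val_mul, Int.units_mul_self, Units.val_one, one_mul]]
    rw [sum_const, nsmul_eq_mul, ← mul_sum]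
    simp only [Q, mul_assoc]
  have hP : P.card ≠ 0 := card_ne_zero.mpr ⟨(1, 1), mem_filter.mpr
    ⟨mem_univ _, fun x => by simp, fun x _ => by simp⟩⟩
  obtain ⟨τ, -, hτ⟩ := exists_ne_zero_of_sum_ne_zero (hsum.trans_ne (mul_ne_zero
    (mul_ne_zero (Nat.cast_ne_zero.mpr hP) (mul_ne_zero (Units.ne_zero _) (L.weight_ne_zero hf))) hS))
  by_cases hfit : ∃ p, L.GlueFits s τ p
  · refine ⟨L.baseA * a.extendDomain e, (hfit.choose.1 * (b.extendDomain e)⁻¹)⁻¹,
      L.baseB * L.fixB s * a₂.extendDomain e, (hfit.choose.2 * (b₂.extendDomain e)⁻¹)⁻¹,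
      fun z => ?_, fun h0 => hτ ?_⟩
    · rcases Nat.lt_or_ge (L.lev z) s with hz | hz
      · rw [L.leftA_pair a hz, L.leftB_pair a₂ hz]
        have := L.value_lt z
        omega
      · obtain ⟨w, rfl⟩ := L.exists_base hz e
        rw [L.leftA_base hA, L.leftB_base hA, upperEquiv_row, upperEquiv_row]
        have := hab w
        omega
    · simp only [Layout.glueTerm, dif_pos hfit]
      rw [sum_congr rfl fun g _ => mul_left_comm (youngFun rowμ colμ g) _ _, ← mul_sum, h0,
        mul_zero]
  · exact absurd (sum_eq_zero fun g _ => by simp only [Layout.glueTerm, dif_neg hfit, mul_zero]) hτ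

/-- **B′** with a column base. -/
theorem strongPair_of_based {rowμ colμ : Stair m → ℕ} (hT : IsTableau rowμ colμ)
    (h : BasedFilling rowμ colμ) : StrongPair rowμ colμ := by
  obtain ⟨s, lev, hmono, hle, hcard0, hcol, hcard, hcol4⟩ := h
  have e₀ : Stair (m - 2 * s) ≃ {x // lev x = 0} := Fintype.equivOfCardEq (by
    rw [← hcard0, Fintype.card_subtype]
    rfl)
  refine strongPair_of_step hT lev e₀ hle hmono hcard hcol4 (strongPair_column (fun x y h => ?_)
    fun x y => hcol _ _ (e₀ x).2 (e₀ y).2)
  exact e₀.injective (Subtype.ext (hT.inj (Prod.ext h (hcol _ _ (e₀ x).2 (e₀ y).2))))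

end Vale.Agent.P197.Saxl
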