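import Vale.Agent.P197.Saxl.Char0.Seq

/-!
# P197, characteristic zero: fillings by pairs of levels

For a block filling the Young symmetrizer pairs with one explicit combination of products of two
translated coefficients: only the terms `c r` preserving the levels survive and each of them gives
the same nonzero value.
-/

namespace Vale.Agent.P197.Saxl

open Finset Equiv

variable {m : ℕ}

theorem tabInt_eq_sign {h φ : Perm (Stair m)} (hr : ∀ x, stairRow m (φ x) = stairRow m (h x))
    (hc : ∀ x, stairCol m (φ x) = stairCol m x) : tabInt m h = Perm.sign φ := by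
  have hφ : φ⁻¹ ∈ stab (stairCol m) := inv_mem hc
  have hstab : h * φ⁻¹ ∈ stab (stairRow m) := fun x => by
    rw [Perm.mul_apply, ← hr]
    exact congrArg _ (φ.apply_symm_apply x)
  rw [tabInt, sum_eq_single (⟨φ⁻¹, hφ⟩ : stab (stairCol m))]
  · rw [if_pos hstab, Perm.sign_inv]
  · intro c _ hne
    refine if_neg fun hcm => hne ?_
    have e : φ * (c : Perm (Stair m)) = 1 := by
      refine stab_inter_eq_one (stair_injective m) (fun x => ?_) (mul_mem (show φ ∈ stab _ from hc) c.2)
      rw [Perm.mul_apply, hr]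
      exact hcm x
    exact Subtype.ext (eq_inv_of_mul_eq_one_right e)
  · exact fun h => absurd (mem_univ _) h

theorem exists_of_tabInt_ne {h : Perm (Stair m)} (hne : tabInt m h ≠ 0) :
    ∃ φ : Perm (Stair m), ∀ x, stairRow m (φ x) = stairRow m (h x) ∧
      stairCol m (φ x) = stairCol m x := by
  obtain ⟨c, -, hc⟩ := exists_ne_zero_of_sum_ne_zero hne
  have hstab : h * (c : Perm (Stair m)) ∈ stab (stairRow m) := by
    by_contra hn
    exact hc (if_neg hn)
  refine ⟨(c : Perm (Stair m))⁻¹, fun x => ⟨?_, (inv_mem c.2 : (c : Perm (Stair m))⁻¹ ∈ _) x⟩⟩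
  have e := hstab ((c : Perm (Stair m))⁻¹ x)
  rw [Perm.mul_apply, show (c : Perm (Stair m)) ((c : Perm (Stair m))⁻¹ x) = x from
    (c : Perm (Stair m)).apply_symm_apply x] at e
  exact e.symm

namespace Layout

variable (L : Layout m)

/-- The trivial sequence. -/
def zeroSeq : Stair m → ℕ × ℕ := fun _ => (0, 0)

theorem evenSum_zero : L.EvenSum zeroSeq := fun t => by simp [zeroSeq]

/-- The left translate of the first factor. -/
noncomputable def baseA : Perm (Stair m) := L.permA L.evenSum_zero

/-- The left translate of the second factor. -/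
noncomputable def baseB : Perm (Stair m) := L.permB zeroSeq

theorem baseA_row (y : Stair m) : (stairRow m (L.baseA y) : ℕ) = L.rlabel y := rfl

theorem baseB_row (y : Stair m) : (stairRow m (L.baseB y) : ℕ) = L.clabel y := rfl

theorem value_lt (x : Stair m) :
    L.rlabel x + L.clabel x < m - 2 * L.lev x ∧
      m - 2 * L.lev x ≤ L.rlabel x + L.clabel x + 2 := by
  have := L.lt x
  unfold rlabel clabel
  omega

theorem bit_parity (F : Stair m → ℕ × ℕ) (x : Stair m) :
    (L.bitA F x + L.bitB F x) % 2 = (F x).1 % 2 := by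
  unfold bitA bitB
  split_ifs <;> omega

/-- Only level preserving permutations have both labellings. -/
theorem lev_forced {g φA φB : Perm (Stair m)} {α β : Stair m → ℕ} (hα : ∀ y, α y < 2)
    (hβ : ∀ y, β y < 2) (hAr : ∀ y, (stairRow m (φA y) : ℕ) = L.rlabel (g y))
    (hAc : ∀ y, (stairCol m (φA y) : ℕ) = 2 * L.lev y + α y)
    (hBr : ∀ y, (stairRow m (φB y) : ℕ) = L.clabel (g y))
    (hBc : ∀ y, (stairCol m (φB y) : ℕ) = 2 * L.lev y + β y) (y : Stair m) :
    L.lev (g y) = L.lev y := by
  have key : ∀ (φ : Perm (Stair m)) (γ : Stair m → ℕ), (∀ y, γ y < 2) →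
      (∀ y, (stairCol m (φ y) : ℕ) = 2 * L.lev y + γ y) → ∀ t,
      ∑ y ∈ block L.lev t, (stairRow m (φ y) : ℕ)
        = ∑ w ∈ univ.filter (fun w => (stairCol m w : ℕ) / 2 = t), (stairRow m w : ℕ) :=
    fun φ γ hγ hc t => sum_equiv φ (fun y => by
      have := hγ y
      rw [mem_block, mem_filter, hc]
      simp only [mem_univ, true_and]
      omega) (fun y _ => rfl)
  suffices h : ∀ t y, L.lev (g y) = t ↔ L.lev y = t from (h (L.lev y) y).mpr rfl
  intro t
  induction t using Nat.strong_induction_on with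
  | _ t ih =>
    have hge : ∀ y, t ≤ L.lev y → t ≤ L.lev (g y) := fun y hy => by
      by_contra hlt
      have := (ih _ (Nat.not_le.mp hlt) y).mp rfl
      omega
    let S := (block L.lev t).map g.toEmbedding
    have hS : ∀ z, z ∈ S → t ≤ L.lev z := fun z hz => by
      obtain ⟨y, hy, rfl⟩ := mem_map.mp hz
      exact hge y (mem_block.mp hy).ge
    have hsum : ∑ z ∈ S, (L.rlabel z + L.clabel z)
        = ∑ z ∈ block L.lev t, (L.rlabel z + L.clabel z) := by
      rw [sum_map, sum_add_distrib, sum_add_distrib]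
      congr 1
      · calc _ = ∑ y ∈ block L.lev t, (stairRow m (φA y) : ℕ) :=
              sum_congr rfl fun y _ => (hAr y).symm
          _ = _ := key φA α hα hAc t
          _ = ∑ y ∈ block L.lev t, (stairRow m (L.baseA y) : ℕ) :=
              (key L.baseA (L.bitA zeroSeq) (L.bitA_lt zeroSeq) (fun y => rfl) t).symm
      · calc _ = ∑ y ∈ block L.lev t, (stairRow m (φB y) : ℕ) :=
              sum_congr rfl fun y _ => (hBr y).symm
          _ = _ := key φB β hβ hBc t
          _ = ∑ y ∈ block L.lev t, (stairRow m (L.baseB y) : ℕ) :=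
              (key L.baseB (L.bitB zeroSeq) (L.bitB_lt zeroSeq) (fun y => rfl) t).symm
    have hSeq : S = block L.lev t := by
      by_contra hne
      have hcard : S.card = (block L.lev t).card := card_map _
      have h1 : (S \ block L.lev t).card = (block L.lev t \ S).card := card_sdiff_comm hcard
      have h2 : (S \ block L.lev t).Nonempty := by
        rw [sdiff_nonempty]
        exact fun hsub => hne (eq_of_subset_of_card_le hsub hcard.ge)
      have h3 := sum_sdiff_eq_sum_sdiff_iff.mpr hsum
      have h4 : ∑ z ∈ S \ block L.lev t, (L.rlabel z + L.clabel z)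
          < ∑ z ∈ block L.lev t \ S, (L.rlabel z + L.clabel z) := by
        calc ∑ z ∈ S \ block L.lev t, (L.rlabel z + L.clabel z)
            < ∑ _z ∈ S \ block L.lev t, (m - 2 * t - 2) := sum_lt_sum_of_nonempty h2 fun z hz => by
              obtain ⟨hz1, hz2⟩ := mem_sdiff.mp hz
              have := hS z hz1
              have : L.lev z ≠ t := fun e => hz2 (mem_block.mpr e)
              have := L.value_lt z
              omega
          _ = ∑ _z ∈ block L.lev t \ S, (m - 2 * t - 2) := by
              rw [sum_const, sum_const, h1]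
          _ ≤ _ := sum_le_sum fun z hz => by
              have := L.value_lt z
              rw [mem_block.mp (mem_sdiff.mp hz).1] at this
              omega
      omega
    intro y
    constructor
    · intro h
      have hy : g y ∈ S := hSeq ▸ mem_block.mpr h
      obtain ⟨y', hy', e⟩ := mem_map.mp hy
      rw [← g.injective e]
      exact mem_block.mp hy'
    · intro h
      have : g y ∈ S := mem_map_of_mem _ (mem_block.mpr h)
      rw [hSeq] at this
      exact mem_block.mp this

/-- The bits are forced on each level. -/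
theorem bits_forced {F : Stair m → ℕ × ℕ} {α β : Stair m → ℕ} {t : ℕ} (hα : ∀ z, α z < 2)
    (hβ : ∀ z, β z < 2) (hσ : ∀ z, L.lev z = t → (α z + β z) % 2 = (F z).1 % 2)
    (hB : ∀ z, L.lev z = t → L.clabel z + (2 * L.lev z + β z) < m)
    (hAi : ∀ x y, L.lev x = t → L.lev y = t → L.rlabel x = L.rlabel y → α x = α y → x = y)
    (hBi : ∀ x y, L.lev x = t → L.lev y = t → L.clabel x = L.clabel y → β x = β y → x = y)
    (z : Stair m) (hzt : L.lev z = t) : α z = L.bitA F z ∧ β z = L.bitB F z := by
  suffices h : ∀ k z, L.lev z = t → L.pos z = k → α z = L.bitA F z ∧ β z = L.bitB F z from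
    h _ z hzt rfl
  intro k
  induction k with
  | zero =>
    intro z hzt hz
    have h1 := hB z hzt
    have h2 := L.lt z
    have h3 := hσ z hzt
    have h4 := L.bit_parity F z
    have h5 := L.bitA_lt F z
    have h6 := L.bitB_lt F z
    have h7 := hα z
    have h8 := L.boundB F z
    rw [clabel, hz] at h1 h8
    constructor <;> omega
  | succ k ih =>
    intro z hzt hz
    obtain ⟨p, hpl, hpp⟩ := L.surj (L.lev z) k (by have := L.lt z; omega)
    obtain ⟨ea, eb⟩ := ih p (hpl.trans hzt) hpp
    have hne : p ≠ z := fun e => by rw [e] at hpp; omega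
    have hsucc : L.pos z = L.pos p + 1 := by omega
    have h3 := hσ z hzt
    have h4 := L.bit_parity F z
    have h5 := L.bitA_lt F z
    have h6 := L.bitB_lt F z
    have h7 := L.bitA_lt F p
    have h9 := L.bitB_lt F p
    have h10 := hα z
    have h11 := hβ z
    rcases Nat.mod_two_eq_zero_or_one k with hk | hk
    · have h8 : α p ≠ α z := fun e => hne (hAi p z (hpl.trans hzt) hzt
        (by rw [rlabel, rlabel]; omega) e)
      have h12 := L.bitA_ne F hpl.symm hsucc (by omega)
      constructor <;> omega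
    · have h8 : β p ≠ β z := fun e => hne (hBi p z (hpl.trans hzt) hzt
        (by rw [clabel, clabel, hpl]; omega) e)
      have h12 := L.bitB_ne F hpl.symm hsucc (by omega)
      constructor <;> omega

/-- A permutation inside the columns of each level changes the weight by its sign. -/
theorem weight_perm (col : Stair m → ℕ) (s : ℕ)
    (hmono : ∀ x y, L.lev x = L.lev y → L.lev x < s → col x < col y → L.pos x < L.pos y)
    {F : Stair m → ℕ × ℕ} (hF : L.EvenSum F) (hlt : ∀ x, (F x).1 < 2 ∧ (F x).2 < 2)
    (hinj : ∀ x y, L.lev x = L.lev y → L.lev x < s → col x = col y → F x = F y → x = y)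
    (c : Perm (Stair m)) (hcl : ∀ x, L.lev (c x) = L.lev x) (hcc : ∀ x, col (c x) = col x)
    (hfix : ∀ x, s ≤ L.lev x → c x = x) :
    L.weight (L.evenSum_comp hF hcl) = (Perm.sign c : ℤ) * L.weight hF := by
  suffices h : ∀ d (c : Perm (Stair m)) (hcl : ∀ x, L.lev (c x) = L.lev x),
      (∀ x, col (c x) = col x) → (∀ x, s ≤ L.lev x → c x = x) →
      Fintype.card (Stair m) * ((2 * m) * (2 * m)) ≤ d + ∑ y, L.pos y * L.pos (c y) →
      L.weight (L.evenSum_comp hF hcl) = (Perm.sign c : ℤ) * L.weight hF from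
    h _ c hcl hcc hfix le_self_add
  intro d
  induction d using Nat.strong_induction_on with
  | _ d ih =>
    intro c hcl hcc hfix hd
    by_cases hdesc : ∃ y z, L.lev z = L.lev y ∧ L.pos z = L.pos y + 1 ∧ L.pos (c z) < L.pos (c y)
    · obtain ⟨y, z, hl, hp, hlt'⟩ := hdesc
      have hyz : y ≠ z := fun h => by rw [h] at hp; omega
      have hs : L.lev y < s := by
        by_contra hs
        rw [hfix y (Nat.not_lt.mp hs), hfix z (hl.symm ▸ Nat.not_lt.mp hs)] at hlt'
        omega
      have hcol : col y = col z := by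
        refine le_antisymm ?_ ?_
        · by_contra hlt2
          have := hmono z y hl (hl.symm ▸ hs) (Nat.not_le.mp hlt2)
          omega
        · by_contra hlt2
          have := hmono (c y) (c z) (by rw [hcl, hcl, hl]) (by rw [hcl]; exact hs)
            (by rw [hcc, hcc]; omega)
          omega
      have hls : ∀ x, L.lev (swap y z x) = L.lev x := fun x => by
        rcases eq_or_ne x y with rfl | h1
        · rw [swap_apply_left, hl]
        rcases eq_or_ne x z with rfl | h2
        · rw [swap_apply_right, hl]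
        · rw [swap_apply_of_ne_of_ne h1 h2]
      have hcs : ∀ x, col (swap y z x) = col x := fun x => by
        rcases eq_or_ne x y with rfl | h1
        · rw [swap_apply_left, hcol]
        rcases eq_or_ne x z with rfl | h2
        · rw [swap_apply_right, hcol]
        · rw [swap_apply_of_ne_of_ne h1 h2]
      have hl' : ∀ x, L.lev ((c * swap y z) x) = L.lev x := fun x => by
        rw [Perm.mul_apply, hcl, hls]
      have hc' : ∀ x, col ((c * swap y z) x) = col x := fun x => by rw [Perm.mul_apply, hcc, hcs]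
      have hS : ∑ x, L.pos x * L.pos (c x) < ∑ x, L.pos x * L.pos ((c * swap y z) x) := by
        rw [← add_sum_erase univ _ (mem_univ y),
          ← add_sum_erase (univ.erase y) _ (mem_erase.mpr ⟨hyz.symm, mem_univ z⟩),
          ← add_sum_erase (s := univ) (fun x => L.pos x * L.pos ((c * swap y z) x)) (mem_univ y),
          ← add_sum_erase (s := univ.erase y) (fun x => L.pos x * L.pos ((c * swap y z) x))
            (mem_erase.mpr ⟨hyz.symm, mem_univ z⟩)]
        have e : ∑ x ∈ (univ.erase y).erase z, L.pos x * L.pos ((c * swap y z) x)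
            = ∑ x ∈ (univ.erase y).erase z, L.pos x * L.pos (c x) := sum_congr rfl fun x hx => by
          rw [Perm.mul_apply, swap_apply_of_ne_of_ne (mem_erase.mp (mem_erase.mp hx).2).1
            (mem_erase.mp hx).1]
        rw [e, Perm.mul_apply, Perm.mul_apply, swap_apply_left, swap_apply_right, hp]
        simp only [Nat.succ_mul]
        omega
      have hbound : ∑ x, L.pos x * L.pos (c x) < Fintype.card (Stair m) * ((2 * m) * (2 * m)) := by
        have : Nonempty (Stair m) := ⟨y⟩
        refine lt_of_lt_of_le (sum_lt_sum_of_nonempty univ_nonempty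
          (g := fun _ => (2 * m) * (2 * m)) fun x _ => ?_) (by simp)
        refine Nat.mul_lt_mul'' ?_ ?_
        · have := L.lt x; omega
        · have := L.lt (c x); omega
      have hfix' : ∀ x, s ≤ L.lev x → (c * swap y z) x = x := fun x hx => by
        rw [Perm.mul_apply, swap_apply_of_ne_of_ne (fun e => by rw [e] at hx; omega)
          (fun e => by rw [e, hl] at hx; omega), hfix x hx]
      have ih' := ih (Fintype.card (Stair m) * ((2 * m) * (2 * m))
          - ∑ x, L.pos x * L.pos ((c * swap y z) x)) (by omega) (c * swap y z) hl' hc' hfix' (by omega)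
      have hne : (F ∘ ⇑(c * swap y z)) y ≠ (F ∘ ⇑(c * swap y z)) z := fun e => hyz
        ((c * swap y z).injective (hinj _ _ (by rw [hl', hl', hl]) (by rw [hl']; exact hs)
          (by rw [hc', hc', hcol]) e))
      have hsw := L.weight_swap (L.evenSum_comp hF hl') hl hp hne (hlt _) (hlt _)
        (L.evenSum_comp (L.evenSum_comp hF hl') hls)
      have e : (F ∘ ⇑(c * swap y z)) ∘ ⇑(swap y z) = F ∘ ⇑c := funext fun x => by
        simp
      rw [← L.weight_congr e (L.evenSum_comp hF hcl) (L.evenSum_comp (L.evenSum_comp hF hl') hls)]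
        at *
      rw [hsw, ih', Perm.sign_mul, Perm.sign_swap hyz]
      push_cast
      ring
    · have hge : ∀ k y, L.pos y = k → k ≤ L.pos (c y) := by
        intro k
        induction k with
        | zero => exact fun y _ => Nat.zero_le _
        | succ k ihk =>
          intro y hy
          obtain ⟨p, hpl, hpp⟩ := L.surj (L.lev y) k (by have := L.lt y; omega)
          have h1 := ihk p hpp
          have h2 : L.pos (c p) ≤ L.pos (c y) := Nat.not_lt.mp fun h =>
            hdesc ⟨p, y, hpl.symm, by omega, h⟩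
          have h3 : L.pos (c p) ≠ L.pos (c y) := fun h => by
            have := c.injective (L.inj _ _ (by rw [hcl, hcl, hpl]) h)
            rw [this] at hpp
            omega
          omega
      have hall : ∀ y, L.pos (c y) = L.pos y := fun y => by
        have hs : ∑ x, L.pos (c x) = ∑ x, L.pos x := Equiv.sum_comp c L.pos
        exact ((sum_eq_sum_iff_of_le fun x _ => hge _ x rfl).mp hs.symm y (mem_univ y)).symm
      have hone : c = 1 := Equiv.ext fun y => L.inj _ _ (hcl y) (hall y)
      subst hone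
      rw [Perm.sign_one, Units.val_one, one_mul]
      exact L.weight_congr rfl _ _

/-- Permutations whose columns follow the levels and the bits. -/
def Fits (τ : Stair m → Fin 2 × Fin 2) (p : Perm (Stair m) × Perm (Stair m)) : Prop :=
  ∀ y, (stairCol m (p.1 y) : ℕ) = 2 * L.lev y + (τ y).1 ∧
    (stairCol m (p.2 y) : ℕ) = 2 * L.lev y + (τ y).2

/-- The symbol value at given bits. -/
def omega (s : ℕ × ℕ) (b : Fin 2 × Fin 2) : ℤ :=
  if ((b.1 : ℕ) + b.2) % 2 = s.1 % 2 then (-1) ^ (s.2 * b.1) else 0

/-- The term of one bit assignment. -/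
noncomputable def term (f : Stair m → ℕ × ℕ) (τ : Stair m → Fin 2 × Fin 2) (g : Perm (Stair m)) :
    ℤ :=
  open Classical in
  if h : ∃ p, L.Fits τ p then
    (Perm.sign h.choose.1 : ℤ) * (Perm.sign h.choose.2 : ℤ) * (∏ y, omega (f y) (τ y)) *
      (tabInt m (L.baseA * g * h.choose.1⁻¹) * tabInt m (L.baseB * g * h.choose.2⁻¹))
  else 0

theorem exists_labels {a g β : Perm (Stair m)} (hne : tabInt m (a * g * β⁻¹) ≠ 0) :
    ∃ φ : Perm (Stair m), ∀ y, stairRow m (φ y) = stairRow m (a (g y)) ∧
      stairCol m (φ y) = stairCol m (β y) := by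
  obtain ⟨φ, hφ⟩ := exists_of_tabInt_ne hne
  refine ⟨φ * β, fun y => ?_⟩
  obtain ⟨h1, h2⟩ := hφ (β y)
  refine ⟨h1.trans ?_, h2⟩
  show stairRow m (a (g (β⁻¹ (β y)))) = _
  rw [show β⁻¹ (β y) = y from β.symm_apply_apply y]

theorem term_ne_zero {f : Stair m → ℕ × ℕ} {τ : Stair m → Fin 2 × Fin 2} {g : Perm (Stair m)}
    (hne : L.term f τ g ≠ 0) :
    (∀ y, L.lev (g y) = L.lev y) ∧ ∀ y, ((τ y).1 : ℕ) = L.bitA (f ∘ ⇑g⁻¹) (g y) ∧
      ((τ y).2 : ℕ) = L.bitB (f ∘ ⇑g⁻¹) (g y) := by
  unfold term at hne
  split_ifs at hne with h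
  · obtain ⟨hab, ht⟩ := mul_ne_zero_iff.mp hne
    obtain ⟨hA, hB⟩ := mul_ne_zero_iff.mp ht
    obtain ⟨-, hω⟩ := mul_ne_zero_iff.mp hab
    obtain ⟨φA, hφA⟩ := exists_labels hA
    obtain ⟨φB, hφB⟩ := exists_labels hB
    have hAr : ∀ y, (stairRow m (φA y) : ℕ) = L.rlabel (g y) := fun y => by
      rw [(hφA y).1, L.baseA_row]
    have hBr : ∀ y, (stairRow m (φB y) : ℕ) = L.clabel (g y) := fun y => by
      rw [(hφB y).1, L.baseB_row]
    have hAc : ∀ y, (stairCol m (φA y) : ℕ) = 2 * L.lev y + (τ y).1 := fun y => by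
      rw [(hφA y).2, (h.choose_spec y).1]
    have hBc : ∀ y, (stairCol m (φB y) : ℕ) = 2 * L.lev y + (τ y).2 := fun y => by
      rw [(hφB y).2, (h.choose_spec y).2]
    have hlev := L.lev_forced (fun y => (τ y).1.isLt) (fun y => (τ y).2.isLt) hAr hAc hBr hBc
    have hg : ∀ z, g (g⁻¹ z) = z := g.apply_symm_apply
    have hlev' : ∀ z, L.lev (g⁻¹ z) = L.lev z := fun z => by
      have := hlev (g⁻¹ z)
      rw [hg] at this
      exact this.symm
    refine ⟨hlev, fun y => ?_⟩
    have := L.bits_forced (F := f ∘ ⇑g⁻¹) (α := fun z => ((τ (g⁻¹ z)).1 : ℕ))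
      (β := fun z => ((τ (g⁻¹ z)).2 : ℕ)) (t := L.lev (g y)) (fun z => (τ _).1.isLt)
      (fun z => (τ _).2.isLt)
      (fun z _ => by
        have := prod_ne_zero_iff.mp hω (g⁻¹ z) (mem_univ _)
        by_contra hn
        exact this (if_neg hn))
      (fun z _ => by
        have h1 : (stairRow m (φB (g⁻¹ z)) : ℕ) + stairCol m (φB (g⁻¹ z)) < m := (φB (g⁻¹ z)).2
        rw [hBr, hBc, hg, hlev'] at h1
        exact h1)
      (fun x x' hx hx' h2 h3 => g⁻¹.injective (φA.injective (stair_injective m (Prod.ext
        (Fin.ext (by rw [hAr, hAr, hg, hg]; exact h2))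
        (Fin.ext (by rw [hAc, hAc, hlev', hlev', hx, hx']; exact congrArg _ h3))))))
      (fun x x' hx hx' h2 h3 => g⁻¹.injective (φB.injective (stair_injective m (Prod.ext
        (Fin.ext (by rw [hBr, hBr, hg, hg]; exact h2))
        (Fin.ext (by rw [hBc, hBc, hlev', hlev', hx, hx']; exact congrArg _ h3))))))
      (g y) rfl
    simpa using this
  · exact absurd rfl hne

theorem sum_term (f : Stair m → ℕ × ℕ) (hf : L.EvenSum f) {g : Perm (Stair m)}
    (hg : ∀ y, L.lev (g⁻¹ y) = L.lev y) :
    ∑ τ, L.term f τ g = L.weight (L.evenSum_comp hf hg) := by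
  classical
  have hgi : ∀ y, g⁻¹ (g y) = y := g.symm_apply_apply
  have hg' : ∀ y, L.lev (g y) = L.lev y := fun y => by
    have := hg (g y)
    rw [hgi] at this
    exact this.symm
  let τ₀ : Stair m → Fin 2 × Fin 2 := fun y =>
    (⟨L.bitA (f ∘ ⇑g⁻¹) (g y), L.bitA_lt _ _⟩, ⟨L.bitB (f ∘ ⇑g⁻¹) (g y), L.bitB_lt _ _⟩)
  rw [sum_eq_single τ₀]
  · have h : ∃ p, L.Fits τ₀ p := ⟨(L.permA (L.evenSum_comp hf hg) * g,
      L.permB (f ∘ ⇑g⁻¹) * g), fun y => ⟨by
        show 2 * L.lev (g y) + _ = 2 * L.lev y + L.bitA _ (g y)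
        rw [hg'], by
        show 2 * L.lev (g y) + _ = 2 * L.lev y + L.bitB _ (g y)
        rw [hg']⟩⟩
    rw [term, dif_pos h]
    have hA : ∀ β : Perm (Stair m), (∀ y, (stairCol m (β y) : ℕ)
          = 2 * L.lev y + L.bitA (f ∘ ⇑g⁻¹) (g y)) →
        tabInt m (L.baseA * g * β⁻¹)
          = (Perm.sign (L.permA (L.evenSum_comp hf hg) * g * β⁻¹) : ℤ) := fun β hβ => by
      refine tabInt_eq_sign (fun x => rfl) (fun x => Fin.ext ?_)
      show 2 * L.lev (g (β⁻¹ x)) + L.bitA (f ∘ ⇑g⁻¹) (g (β⁻¹ x)) = stairCol m x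
      rw [hg', ← hβ, show β (β⁻¹ x) = x from β.apply_symm_apply x]
    have hB : ∀ β : Perm (Stair m), (∀ y, (stairCol m (β y) : ℕ)
          = 2 * L.lev y + L.bitB (f ∘ ⇑g⁻¹) (g y)) →
        tabInt m (L.baseB * g * β⁻¹)
          = (Perm.sign (L.permB (f ∘ ⇑g⁻¹) * g * β⁻¹) : ℤ) := fun β hβ => by
      refine tabInt_eq_sign (fun x => rfl) (fun x => Fin.ext ?_)
      show 2 * L.lev (g (β⁻¹ x)) + L.bitB (f ∘ ⇑g⁻¹) (g (β⁻¹ x)) = stairCol m x
      rw [hg', ← hβ, show β (β⁻¹ x) = x from β.apply_symm_apply x]
    rw [hA _ (fun y => (h.choose_spec y).1), hB _ (fun y => (h.choose_spec y).2)]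
    have hω : ∀ y, omega (f y) (τ₀ y) = (-1) ^ ((f y).2 * L.bitA (f ∘ ⇑g⁻¹) (g y)) := fun y => by
      rw [omega, if_pos]
      have := L.bit_parity (f ∘ ⇑g⁻¹) (g y)
      rw [Function.comp_apply, hgi] at this
      exact this
    rw [prod_congr rfl fun y _ => hω y, weight, ← Equiv.prod_comp g (fun x =>
      (-1 : ℤ) ^ (((f ∘ ⇑g⁻¹) x).2 * L.bitA (f ∘ ⇑g⁻¹) x))]
    simp only [Perm.sign_mul, Perm.sign_inv, Units.val_mul, Function.comp_apply, hgi]
    generalize ∏ x, (-1 : ℤ) ^ ((f x).2 * L.bitA (f ∘ ⇑g⁻¹) (g x)) = P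
    rcases Int.units_eq_one_or (Perm.sign g) with e1 | e1 <;>
      rcases Int.units_eq_one_or (Perm.sign h.choose.1) with e2 | e2 <;>
        rcases Int.units_eq_one_or (Perm.sign h.choose.2) with e3 | e3 <;>
          simp [e1, e2, e3] <;> ring
  · intro τ _ hτ
    by_contra hne
    obtain ⟨-, hbits⟩ := L.term_ne_zero hne
    exact hτ (funext fun y => Prod.ext (Fin.ext (hbits y).1) (Fin.ext (hbits y).2))
  · exact fun h => absurd (mem_univ _) h

end Layout

/-- Level preserving products column times row split into level preserving factors. -/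
theorem split_lev {rowμ colμ lev : Stair m → ℕ}
    (hmono : Monotone2 rowμ colμ lev) {c r : Perm (Stair m)} (hc : c ∈ stab colμ)
    (hr : r ∈ stab rowμ) (h : ∀ x, lev (c (r x)) = lev x) :
    (∀ x, lev (c x) = lev x) ∧ ∀ x, lev (r x) = lev x := by
  suffices key : ∀ t x, lev (c x) ≤ t ↔ lev x ≤ t by
    have hcl : ∀ x, lev (c x) = lev x := fun x =>
      le_antisymm ((key _ x).mpr le_rfl) ((key _ x).mp le_rfl)
    exact ⟨hcl, fun x => (hcl (r x)).symm.trans (h x)⟩
  intro t x
  let T := univ.filter fun x => lev x ≤ t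
  let S := univ.filter fun x => lev (c x) ≤ t
  have hsum : ∑ y ∈ S, rowμ y = ∑ y ∈ T, rowμ y := by
    refine (sum_equiv r (fun y => ?_) (fun y _ => (hr y).symm)).symm
    simp [S, T, h]
  suffices hST : S = T by
    have := Finset.ext_iff.mp hST x
    simpa [S, T] using this
  by_contra hne
  have hfib : ∀ j, ((S \ T).filter fun y => colμ y = j).card
      = ((T \ S).filter fun y => colμ y = j).card := by
    intro j
    have e : (S.filter fun y => colμ y = j).card = (T.filter fun y => colμ y = j).card :=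
      card_equiv c fun y => by simp [S, T, hc y]
    have e1 : (S.filter fun y => colμ y = j).card
        = ((S \ T).filter fun y => colμ y = j).card + ((S ∩ T).filter fun y => colμ y = j).card := by
      rw [← card_union_of_disjoint (disjoint_filter_filter (disjoint_sdiff_inter S T)),
        ← filter_union, sdiff_union_inter]
    have e2 : (T.filter fun y => colμ y = j).card
        = ((T \ S).filter fun y => colμ y = j).card + ((S ∩ T).filter fun y => colμ y = j).card := by
      rw [inter_comm S T, ← card_union_of_disjoint (disjoint_filter_filter (disjoint_sdiff_inter T S)),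
        ← filter_union, sdiff_union_inter]
    omega
  have hlt : ∀ j, ∀ y ∈ (S \ T).filter (fun y => colμ y = j),
      ∀ z ∈ (T \ S).filter (fun y => colμ y = j), rowμ z < rowμ y := by
    intro j y hy z hz
    simp only [mem_filter, mem_sdiff, S, T, mem_univ, true_and] at hy hz
    by_contra hle
    exact hy.1.2 ((hmono y z (Nat.not_lt.mp hle) (hy.2.trans hz.2.symm).le).trans hz.1.1)
  have hcard : S.card = T.card := card_equiv c fun y => by simp [S, T]
  have h2 : (S \ T).Nonempty := by
    rw [sdiff_nonempty]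
    exact fun hsub => hne (eq_of_subset_of_card_le hsub hcard.ge)
  have h3 := sum_sdiff_eq_sum_sdiff_iff.mpr hsum
  rw [← sum_fiberwise_of_maps_to (g := colμ) (t := univ.image colμ) (fun y _ => mem_image_of_mem _
      (mem_univ y)), ← sum_fiberwise_of_maps_to (s := T \ S) (g := colμ) (t := univ.image colμ)
      (fun y _ => mem_image_of_mem _ (mem_univ y))] at h3
  refine (ne_of_gt (sum_lt_sum (fun j _ => ?_) ?_)) h3
  · rw [← sum_coe_sort, ← sum_coe_sort (s := (S \ T).filter fun y => colμ y = j)]
    have E := Fintype.equivOfCardEq (show Fintype.card ↥((T \ S).filter fun y => colμ y = j)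
      = Fintype.card ↥((S \ T).filter fun y => colμ y = j) from
      (Fintype.card_coe _).trans ((hfib j).symm.trans (Fintype.card_coe _).symm))
    rw [← Equiv.sum_comp E]
    exact sum_le_sum fun y _ => (hlt j _ (E y).2 y y.2).le
  · obtain ⟨y, hy⟩ := h2
    refine ⟨colμ y, mem_image_of_mem _ (mem_univ y), ?_⟩
    rw [← sum_coe_sort, ← sum_coe_sort (s := (S \ T).filter fun z => colμ z = colμ y)]
    have E := Fintype.equivOfCardEq (show Fintype.card ↥((T \ S).filter fun z => colμ z = colμ y)
      = Fintype.card ↥((S \ T).filter fun z => colμ z = colμ y) from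
      (Fintype.card_coe _).trans ((hfib (colμ y)).symm.trans (Fintype.card_coe _).symm))
    rw [← Equiv.sum_comp E]
    have : Nonempty ↥((T \ S).filter fun z => colμ z = colμ y) :=
      ⟨E.symm ⟨y, mem_filter.mpr ⟨hy, rfl⟩⟩⟩
    exact sum_lt_sum_of_nonempty univ_nonempty fun z _ => hlt _ _ (E z).2 z z.2

/-- **B**: a block filling makes the symmetrizer pair nontrivially. -/
theorem pairNonzero_of_block {rowμ colμ : Stair m → ℕ} (hT : IsTableau rowμ colμ)
    (h : BlockFilling rowμ colμ) : PairNonzero rowμ colμ := by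
  obtain ⟨lev, hmono, hcard, hcol4⟩ := h
  have hlev : ∀ x, rk lev (colOrd colμ) x
      < (m - 2 * lev x) + (m - 2 * lev x - 1) := fun x => by
    rw [← hcard (lev x)]
    refine card_lt_card ((ssubset_iff_of_subset (filter_subset _ _)).mpr ⟨x, mem_block.mpr rfl, ?_⟩)
    simp
  have hrk : ∀ x y, lev x = lev y → colOrd colμ x < colOrd colμ y →
      rk lev (colOrd colμ) x < rk lev (colOrd colμ) y := by
    intro x y hxy hlt
    rw [rk, rk, hxy]
    refine card_lt_card ((ssubset_iff_of_subset ?_).mpr
      ⟨x, mem_filter.mpr ⟨mem_block.mpr hxy, hlt⟩, by simp⟩)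
    exact fun z hz => mem_filter.mpr ⟨(mem_filter.mp hz).1, (mem_filter.mp hz).2.trans hlt⟩
  have hinj : ∀ x y, lev x = lev y → rk lev (colOrd colμ) x = rk lev (colOrd colμ) y → x = y := by
    intro x y hxy he
    rcases Nat.lt_trichotomy (colOrd colμ x) (colOrd colμ y) with h1 | h1 | h1
    · exact absurd he (hrk x y hxy h1).ne
    · exact colOrd_injective _ h1
    · exact absurd he (hrk y x hxy.symm h1).ne'
  let L : Layout m :=
    { lev := lev
      pos := rk lev (colOrd colμ)
      lt := hlev
      inj := hinj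
      surj := fun t k hk => by
        have himg : (block lev t).image (rk lev (colOrd colμ))
            = range ((m - 2 * t) + (m - 2 * t - 1)) := by
          refine eq_of_subset_of_card_le (fun j hj => ?_) ?_
          · obtain ⟨x, hx, rfl⟩ := mem_image.mp hj
            exact mem_range.mpr (mem_block.mp hx ▸ hlev x)
          · rw [card_range, card_image_of_injOn, hcard]
            intro x hx y hy e
            exact hinj x y ((mem_block.mp (mem_coe.mp hx)).trans (mem_block.mp (mem_coe.mp hy)).symm) e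
        obtain ⟨x, hx, e⟩ := mem_image.mp (himg ▸ mem_range.mpr hk)
        exact ⟨x, mem_block.mp hx, e⟩ }
  -- the symbols
  let δ : ℕ → ℕ := fun t => (∑ x ∈ block lev t, rowμ x / 2 % 2) % 2
  let f : Stair m → ℕ × ℕ := fun x => ((rowμ x / 2 % 2 + δ (lev x)) % 2, rowμ x % 2)
  have hf : L.EvenSum f := fun t => by
    show (∑ x ∈ block lev t, (rowμ x / 2 % 2 + δ (lev x)) % 2) % 2 = 0
    have e : ∑ x ∈ block lev t, δ (lev x) = (block lev t).card * δ t := by
      rw [sum_congr rfl (g := fun _ => δ t) (fun x hx => by rw [mem_block.mp hx]), sum_const,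
        smul_eq_mul]
    rw [← sum_nat_mod, sum_add_distrib, e, hcard]
    show (∑ x ∈ block lev t, rowμ x / 2 % 2
      + _ * ((∑ x ∈ block lev t, rowμ x / 2 % 2) % 2)) % 2 = 0
    by_cases ht : 2 * t < m
    · rw [Nat.add_mod, Nat.mul_mod, show ((m - 2 * t) + (m - 2 * t - 1)) % 2 = 1 by omega]
      omega
    · rw [show block lev t = ∅ from card_eq_zero.mp (by rw [hcard]; omega), sum_empty]
      simp
  have hfinj : ∀ x y, lev x = lev y → colμ x = colμ y → f x = f y → x = y := by
    have key : ∀ x y, lev x = lev y → colμ x = colμ y → f x = f y → rowμ x ≤ rowμ y → x = y := by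
      intro x y h1 h2 h3 h4
      simp only [f, Prod.mk.injEq, h1] at h3
      suffices h5 : rowμ y < rowμ x + 4 from hT.inj (Prod.ext (by
        show rowμ x = rowμ y
        omega) h2)
      by_contra h5
      have hy : ∀ k : Fin 5, ∃ z, rowμ z = rowμ x + k ∧ colμ z = colμ x := fun k =>
        hT.down y (rowμ x + k) (colμ x) (by omega) h2.le
      choose z hz1 hz2 using hy
      have hmem : ∀ k, z k ∈ (block lev (lev x)).filter fun w => colμ w = colμ x := fun k =>
        mem_filter.mpr ⟨mem_block.mpr (le_antisymm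
          ((hmono _ y (by rw [hz1]; omega) (by rw [hz2, h2])).trans h1.ge)
          (hmono x _ (by rw [hz1]; omega) (by rw [hz2]))), hz2 k⟩
      have := (card_le_card_of_injOn z (s := (univ : Finset (Fin 5))) (fun k _ => mem_coe.mpr (hmem k))
        fun a _ b _ e => Fin.ext (by
          have := congrArg rowμ e
          rw [hz1, hz1] at this
          omega)).trans (hcol4 _ _)
      simp at this
    intro x y h1 h2 h3
    rcases le_total (rowμ x) (rowμ y) with h4 | h4
    · exact key x y h1 h2 h3 h4
    · exact (key y x h1.symm h2.symm h3.symm h4).symm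
  have hflt : ∀ x, (f x).1 < 2 ∧ (f x).2 < 2 := fun x =>
    ⟨Nat.mod_lt _ (by omega), Nat.mod_lt _ (by omega)⟩
  have hpos : ∀ x y, lev x = lev y → colμ x < colμ y → L.pos x < L.pos y := fun x y h1 h2 =>
    hrk x y h1 (Nat.not_le.mp fun hle => by
      rcases hle.lt_or_eq with h | h
      · have := col_lt_of_colOrd_lt h; omega
      · rw [colOrd_injective _ h] at h2; omega)
  -- each term
  have hterm : ∀ (c : stab colμ) (r : stab rowμ),
      (Perm.sign (c : Perm (Stair m)) : ℤ) * ∑ τ, L.term f τ ((c : Perm (Stair m)) * r)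
        = if ∀ x, lev (((c : Perm (Stair m)) * r) x) = lev x then L.weight hf else 0 := by
    intro c r
    split_ifs with hlv
    · obtain ⟨hcl, hrl⟩ := split_lev hmono c.2 r.2 hlv
      have hci : ∀ x, L.lev ((c : Perm (Stair m))⁻¹ x) = L.lev x := fun x => by
        have := hcl ((c : Perm (Stair m))⁻¹ x)
        rw [show (c : Perm (Stair m)) ((c : Perm (Stair m))⁻¹ x) = x from
          (c : Perm (Stair m)).apply_symm_apply x] at this
        exact this.symm
      have hgi : ∀ x, L.lev (((c : Perm (Stair m)) * r)⁻¹ x) = L.lev x := fun x => by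
        have := hlv (((c : Perm (Stair m)) * r)⁻¹ x)
        rw [show ((c : Perm (Stair m)) * r) (((c : Perm (Stair m)) * r)⁻¹ x) = x from
          ((c : Perm (Stair m)) * r).apply_symm_apply x] at this
        exact this.symm
      rw [L.sum_term f hf hgi]
      have e : f ∘ ⇑((c : Perm (Stair m)) * r)⁻¹ = f ∘ ⇑(c : Perm (Stair m))⁻¹ := by
        funext x
        rw [Function.comp_apply, Function.comp_apply, mul_inv_rev, Perm.mul_apply]
        set w := (c : Perm (Stair m))⁻¹ x
        have hl : lev ((r : Perm (Stair m))⁻¹ w) = lev w := by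
          have := hrl ((r : Perm (Stair m))⁻¹ w)
          rw [show (r : Perm (Stair m)) ((r : Perm (Stair m))⁻¹ w) = w from
            (r : Perm (Stair m)).apply_symm_apply w] at this
          exact this.symm
        simp only [f, hl, (inv_mem r.2 : (r : Perm (Stair m))⁻¹ ∈ stab rowμ) w]
      rw [L.weight_congr e (L.evenSum_comp hf hci),
        L.weight_perm colμ m (fun x y h _ => hpos x y h) hf hflt (fun x y h _ => hfinj x y h) _ hci
          (inv_mem c.2) (fun x hx => absurd hx (by have := L.lt x; omega)), Perm.sign_inv, ← mul_assoc,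
        ← Units.val_mul, Int.units_mul_self, Units.val_one, one_mul]
    · rw [sum_eq_zero fun τ _ => ?_, mul_zero]
      by_contra hne
      exact hlv (L.term_ne_zero hne).1
  have hsum : ∑ τ, ∑ g, youngFun rowμ colμ g * L.term f τ g
      = ((univ.filter fun p : stab colμ × stab rowμ =>
          ∀ x, lev (((p.1 : Perm (Stair m)) * p.2) x) = lev x).card : ℤ) * L.weight hf := by
    rw [sum_comm, sum_congr rfl fun g _ => (mul_sum univ (fun τ => L.term f τ g) _).symm]
    have e : ∀ g, youngFun rowμ colμ g * (∑ τ, L.term f τ g) = ∑ p : stab colμ × stab rowμ,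
        if (p.1 : Perm (Stair m)) * p.2 = g then
          (Perm.sign (p.1 : Perm (Stair m)) : ℤ) * ∑ τ, L.term f τ g else 0 := fun g => by
      rw [youngFun, ← Fintype.sum_prod_type', sum_mul]
      exact sum_congr rfl fun p _ => by rw [ite_zero_mul]
    rw [sum_congr rfl fun g _ => e g, sum_comm, card_filter, Nat.cast_sum, sum_mul]
    refine sum_congr rfl fun p _ => ?_
    rw [sum_ite_eq univ ((p.1 : Perm (Stair m)) * p.2), if_pos (mem_univ _), hterm p.1 p.2]
    split_ifs <;> simp
  have hpos' : (univ.filter fun p : stab colμ × stab rowμ =>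
      ∀ x, lev (((p.1 : Perm (Stair m)) * p.2) x) = lev x).card ≠ 0 := by
    refine card_ne_zero.mpr ⟨(1, 1), mem_filter.mpr ⟨mem_univ _, fun x => ?_⟩⟩
    simp
  obtain ⟨τ, -, hτ⟩ := exists_ne_zero_of_sum_ne_zero (hsum.trans_ne
    (mul_ne_zero (Nat.cast_ne_zero.mpr hpos') (L.weight_ne_zero hf)))
  by_cases hfit : ∃ p, L.Fits τ p
  · refine ⟨L.baseA, hfit.choose.1⁻¹, L.baseB, hfit.choose.2⁻¹, fun h0 => hτ ?_⟩
    simp only [Layout.term, dif_pos hfit]
    rw [sum_congr rfl fun g _ => mul_left_comm (youngFun rowμ colμ g) _ _, ← mul_sum, h0,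
      mul_zero]
  · exact absurd (sum_eq_zero fun g _ => by simp only [Layout.term, dif_neg hfit, mul_zero]) hτ


end Vale.Agent.P197.Saxl
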