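import Vale.Agent.P197.Saxl.Char0.Algebra

/-!
# P197, characteristic zero: class functions and Young symmetrizers

The pairing of Young symmetrizers with Young permutation characters is triangular in the weight with
a nonzero diagonal, so a class function orthogonal to all Young symmetrizers vanishes.
-/

namespace Vale.Agent.P197.Saxl

open Finset Equiv Matrix

variable {α : Type} [Fintype α] [DecidableEq α]

omit [Fintype α] in
theorem image_rank (ord : α → ℕ) (hord : Function.Injective ord) (S : Finset α) :
    S.image (fun x => (S.filter fun y => ord y < ord x).card) = range S.card := by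
  refine eq_of_subset_of_card_le (fun k hk => ?_) ?_
  · obtain ⟨x, hx, rfl⟩ := mem_image.mp hk
    exact mem_range.mpr (card_lt_card ((ssubset_iff_of_subset (filter_subset _ _)).mpr
      ⟨x, hx, fun h => lt_irrefl _ (mem_filter.mp h).2⟩))
  · rw [card_range, card_image_of_injOn]
    intro x hx y hy h
    by_contra hne
    rcases lt_or_gt_of_ne (fun e => hne (hord e)) with hlt | hlt
    · refine (card_lt_card ((ssubset_iff_of_subset fun z hz => ?_).mpr ⟨x, ?_, ?_⟩)).ne h
      · exact mem_filter.mpr ⟨(mem_filter.mp hz).1, (mem_filter.mp hz).2.trans hlt⟩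
      · exact mem_filter.mpr ⟨hx, hlt⟩
      · exact fun e => lt_irrefl _ (mem_filter.mp e).2
    · refine (card_lt_card ((ssubset_iff_of_subset fun z hz => ?_).mpr ⟨y, ?_, ?_⟩)).ne' h
      · exact mem_filter.mpr ⟨(mem_filter.mp hz).1, (mem_filter.mp hz).2.trans hlt⟩
      · exact mem_filter.mpr ⟨hy, hlt⟩
      · exact fun e => lt_irrefl _ (mem_filter.mp e).2

/-- The number of cells of a given rank does not depend on the order. -/
theorem card_rk_eq (f ord : α → ℕ) (hord : Function.Injective ord) (k : ℕ) :
    ((univ : Finset α).filter fun x => rk f ord x = k).card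
      = ((univ.image f).filter fun i => k < (block f i).card).card := by
  refine card_bij (fun x _ => f x) (fun x hx => ?_) (fun x hx y hy h => ?_) fun i hi => ?_
  · obtain ⟨-, hk⟩ := mem_filter.mp hx
    refine mem_filter.mpr ⟨mem_image_of_mem f (mem_univ x), hk ▸ ?_⟩
    exact card_lt_card ((ssubset_iff_of_subset (filter_subset _ _)).mpr
      ⟨x, mem_block.mpr rfl, fun e => lt_irrefl _ (mem_filter.mp e).2⟩)
  · have hx' := (mem_filter.mp hx).2
    have hy' := (mem_filter.mp hy).2
    simp only [rk, ← h] at hx' hy'
    have himg := image_rank ord hord (block f (f x))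
    have hinj : Set.InjOn (fun z => ((block f (f x)).filter fun w => ord w < ord z).card)
        (block f (f x) : Set α) := card_image_iff.mp (by rw [himg, card_range])
    exact hinj (mem_block.mpr rfl) (mem_block.mpr h.symm) (hx'.trans hy'.symm)
  · obtain ⟨-, hk⟩ := mem_filter.mp hi
    have hmem : k ∈ (block f i).image fun x => ((block f i).filter fun y => ord y < ord x).card := by
      rw [image_rank ord hord]
      exact mem_range.mpr hk
    obtain ⟨x, hx, hxk⟩ := mem_image.mp hmem
    have e := mem_block.mp hx
    exact ⟨x, mem_filter.mpr ⟨mem_univ x, by rw [rk, e]; exact hxk⟩, e⟩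

/-- A labelling injective on columns of at least the row weight has ranks equal to the columns. -/
theorem IsTableau.rk_eq_col {row col f : α → ℕ} (hT : IsTableau row col)
    (hinj : Function.Injective fun x => (f x, col x)) (hw : wt row ≤ wt f) (x : α) :
    rk f (colOrd col) x = col x := by
  have hle : ∀ y ∈ (univ : Finset α), 2 ^ rk f (colOrd col) y ≤ 2 ^ rk row (colOrd col) y :=
    fun y _ => Nat.pow_le_pow_right (by norm_num) ((rk_le hinj y).trans (hT.rk_row y).ge)
  rw [wt_eq_sum f _ (colOrd_injective col), wt_eq_sum row _ (colOrd_injective col)] at hw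
  have h := (sum_eq_sum_iff_of_le hle).mp (le_antisymm (sum_le_sum hle) hw) x (mem_univ x)
  rw [Nat.pow_right_injective le_rfl h, hT.rk_row]

omit [DecidableEq α] in
/-- A tableau for every partition of the number of cells. -/
theorem exists_parTableau (p : Nat.Partition (Fintype.card α)) :
    ∃ row col : α → ℕ, IsTableau row col ∧
      ∀ k, ((univ : Finset α).filter fun x => col x = k).card = p.parts.countP fun a => k < a := by
  set L := p.parts.sort (· ≥ ·) with hL
  have hperm : (L : Multiset ℕ) = p.parts := Multiset.sort_eq p.parts (· ≥ ·)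
  have hsort : L.Pairwise (· ≥ ·) := Multiset.pairwise_sort p.parts (· ≥ ·)
  have hsum : L.sum = Fintype.card α := by
    rw [← Multiset.sum_coe, hperm, p.parts_sum]
  let T := Σ i : Fin L.length, Fin (L.get i)
  have hcard : Fintype.card T = Fintype.card α := by
    rw [← hsum, Fintype.card_sigma]
    simp only [Fintype.card_fin]
    rw [← List.sum_ofFn, List.ofFn_get]
  let e : α ≃ T := (Fintype.equivOfCardEq hcard).symm
  refine ⟨fun x => (e x).1, fun x => (e x).2, ⟨fun x y h => e.injective ?_, fun x i j hi hj => ?_⟩,
    fun k => ?_⟩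
  · obtain ⟨h1, h2⟩ := Prod.ext_iff.mp h
    have h1' : (e x).1 = (e y).1 := Fin.ext h1
    exact Sigma.ext h1' ((Fin.heq_ext_iff (by rw [h1'])).mpr h2)
  · have hlt : i < L.length := lt_of_le_of_lt hi (e x).1.2
    have hge : L.get (e x).1 ≤ L.get ⟨i, hlt⟩ := by
      rcases eq_or_lt_of_le hi with h | h
      · exact le_of_eq (congrArg L.get (Fin.ext h.symm))
      · exact List.pairwise_iff_get.mp hsort ⟨i, hlt⟩ (e x).1 h
    exact ⟨e.symm ⟨⟨i, hlt⟩, ⟨j, lt_of_lt_of_le (lt_of_le_of_lt hj (e x).2.2) hge⟩⟩,
      by simp, show ((e (e.symm _)).2 : ℕ) = j by rw [Equiv.apply_symm_apply]⟩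
  · rw [← hperm, show (↑L : Multiset ℕ) = (univ : Finset (Fin L.length)).val.map L.get by
      rw [Fin.univ_val_map, List.ofFn_get], Multiset.countP_map, ← filter_val]
    refine card_bij (fun x _ => (e x).1) (fun x hx => mem_filter.mpr ⟨mem_univ _, ?_⟩)
      (fun x hx y hy h => e.injective (Sigma.ext h ((Fin.heq_ext_iff (by rw [h])).mpr
        ((mem_filter.mp hx).2.trans (mem_filter.mp hy).2.symm)))) fun i hi =>
      ⟨e.symm ⟨i, ⟨k, (mem_filter.mp hi).2⟩⟩, mem_filter.mpr ⟨mem_univ _,
        show ((e (e.symm _)).2 : ℕ) = k by rw [Equiv.apply_symm_apply]⟩, by simp⟩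
    rw [← (mem_filter.mp hx).2]
    exact (e x).2.2

theorem parts_eq_of_countP {n : ℕ} {p q : Nat.Partition n}
    (h : ∀ k, (p.parts.countP fun a => k < a) = q.parts.countP fun a => k < a) : p = q := by
  refine Nat.Partition.ext (Multiset.ext.mpr fun a => ?_)
  rcases Nat.eq_zero_or_pos a with rfl | ha
  · rw [Multiset.count_eq_zero.mpr fun e => lt_irrefl _ (p.parts_pos e),
      Multiset.count_eq_zero.mpr fun e => lt_irrefl _ (q.parts_pos e)]
  · have key : ∀ s : Multiset ℕ,
        (s.countP fun b => a - 1 < b) = s.count a + s.countP fun b => a < b := fun s => by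
      induction s using Multiset.induction with
      | empty => simp
      | cons b s ih =>
        simp only [Multiset.countP_cons, Multiset.count_cons, ih]
        split_ifs <;> omega
    have := key p.parts
    have := key q.parts
    have := h (a - 1)
    have := h a
    omega

/-- The row labelling of the chosen tableau of a partition. -/
noncomputable def parRow (p : Nat.Partition (Fintype.card α)) : α → ℕ := (exists_parTableau p).choose

/-- The column labelling of the chosen tableau of a partition. -/
noncomputable def parCol (p : Nat.Partition (Fintype.card α)) : α → ℕ :=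
  (exists_parTableau p).choose_spec.choose

theorem parTableau (p : Nat.Partition (Fintype.card α)) : IsTableau (parRow (α := α) p) (parCol p) :=
  (exists_parTableau p).choose_spec.choose_spec.1

theorem parCol_card (p : Nat.Partition (Fintype.card α)) (k : ℕ) :
    ((univ : Finset α).filter fun x => parCol p x = k).card = p.parts.countP fun a => k < a :=
  (exists_parTableau p).choose_spec.choose_spec.2 k

/-- The number of conjugates in the stabiliser of a labelling. -/
def youngChar (f : α → ℕ) (g : Perm α) : ℚ :=
  ∑ h : Perm α, if h * g * h⁻¹ ∈ stab f then 1 else 0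

theorem youngChar_conj (f : α → ℕ) (k g : Perm α) :
    youngChar f (k * g * k⁻¹) = youngChar f g := by
  refine Fintype.sum_equiv (Equiv.mulRight k) _ _ fun h => ?_
  simp [mul_assoc, _root_.mul_inv_rev]

/-- The pairing of a Young symmetrizer with a Young character. -/
def classPair (row col f : α → ℕ) : ℚ := ∑ g, (youngFun row col g : ℚ) * youngChar f g

theorem classPair_eq_trace (row col f : α → ℕ) :
    (Fintype.card (Perm α) : ℚ) * classPair row col f
      = ∑ h : Perm α, (symMat f * regOne h * youngMat row col * regOne h⁻¹).trace := by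
  simp only [classPair, youngChar, mul_sum]
  rw [sum_comm]
  refine sum_congr rfl fun h _ => ?_
  rw [youngMat_eq, regMat_expand]
  simp only [mul_sum, sum_mul, mul_smul_comm, smul_mul_assoc, trace_sum, trace_smul, symMat,
    regOne_mul, regOne_trace, smul_eq_mul]
  refine sum_congr rfl fun g _ => ?_
  by_cases hg : h * g * h⁻¹ ∈ stab f
  · rw [if_pos hg, sum_eq_single (⟨_, hg⟩⁻¹ : stab f)]
    · rw [if_pos (by simp [mul_assoc])]
      ring
    · intro s _ hne
      rw [if_neg, mul_zero]
      intro e
      refine hne (Subtype.ext ?_)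
      rw [Subgroup.coe_inv]
      exact eq_inv_of_mul_eq_one_left (by simpa [mul_assoc] using e)
    · exact fun hh => absurd (mem_univ _) hh
  · rw [if_neg hg, mul_zero, mul_zero, sum_eq_zero]
    intro s _
    rw [if_neg, mul_zero]
    intro e
    refine hg ?_
    rw [show h * g * h⁻¹ = (s : Perm α)⁻¹ from eq_inv_of_mul_eq_one_right (by simpa [mul_assoc] using e)]
    exact inv_mem s.2

theorem symMat_conj_trace_zero {row col f : α → ℕ} (h : Perm α)
    (hn : ¬ Function.Injective fun x => (f (h x), col x)) :
    (symMat f * regOne h * youngMat row col * regOne h⁻¹).trace = 0 := by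
  rw [youngMat, ← mul_assoc (symMat f * regOne h), symMat_mul_altMat_of_repeat h hn, zero_mul,
    zero_mul, trace_zero]

theorem classPair_off {p q : Nat.Partition (Fintype.card α)}
    (hw : wt (parRow (α := α) q) ≤ wt (parRow (α := α) p)) (hne : p ≠ q) :
    classPair (parRow q) (parCol q) (parRow (α := α) p) = 0 := by
  have hcard : (Fintype.card (Perm α) : ℚ) ≠ 0 := by exact_mod_cast Fintype.card_ne_zero
  refine (mul_eq_zero.mp ((classPair_eq_trace _ _ _).trans (sum_eq_zero fun h _ => ?_))).resolve_left hcard
  refine symMat_conj_trace_zero h fun hinj => hne (parts_eq_of_countP fun k => ?_)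
  rw [← parCol_card (α := α) p, ← parCol_card (α := α) q]
  have e1 : ∀ x, rk (parRow p ∘ h) (colOrd (parCol q)) x = parCol q x :=
    (parTableau q).rk_eq_col hinj (by rw [wt_comp]; exact hw)
  have e2 := fun x => (parTableau (α := α) p).rk_row x
  have h1 := card_rk_eq (parRow p ∘ h) (colOrd (parCol q)) (colOrd_injective _) k
  have h2 := card_rk_eq (parRow p) (colOrd (parCol (α := α) p)) (colOrd_injective _) k
  simp only [e1] at h1
  simp only [e2] at h2
  have himg : univ.image (parRow p ∘ h) = univ.image (parRow (α := α) p) := by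
    rw [← image_image, image_univ_equiv h]
  rw [h1, h2, himg]
  simp only [card_block_comp]

theorem IsTableau.classPair_self {row col : α → ℕ} (hT : IsTableau row col) :
    classPair row col row ≠ 0 := by
  classical
  intro h0
  have hsum := classPair_eq_trace row col row
  rw [h0, mul_zero] at hsum
  let Φ : stab row × stab col → Perm α := fun p => (p.1 : Perm α) * (p.2 : Perm α)
  have hΦ : Function.Injective Φ := fun a b e => by
    have e' : ((b.1⁻¹ * a.1 : stab row) : Perm α) = ((b.2 * a.2⁻¹ : stab col) : Perm α) := by
      show (b.1 : Perm α)⁻¹ * a.1 = b.2 * (a.2 : Perm α)⁻¹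
      rw [eq_mul_inv_iff_mul_eq, mul_assoc, show (a.1 : Perm α) * a.2 = b.1 * b.2 from e,
        inv_mul_cancel_left]
    have h1 : ((b.1⁻¹ * a.1 : stab row) : Perm α) = 1 := Equiv.ext fun x => hT.inj (Prod.ext
      ((b.1⁻¹ * a.1 : stab row).2 x) (by
        show col (((b.1⁻¹ * a.1 : stab row) : Perm α) x) = col x
        rw [e']
        exact (b.2 * a.2⁻¹ : stab col).2 x))
    have h2 : b.1 = a.1 := inv_mul_eq_one.mp (Subtype.ext h1)
    refine Prod.ext h2.symm (Subtype.ext ?_)
    have e'' : (a.1 : Perm α) * a.2 = b.1 * b.2 := e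
    rw [h2] at e''
    exact mul_left_cancel e''
  have hzero : ∀ h ∈ (univ : Finset (Perm α)), h ∉ univ.image Φ →
      (symMat row * regOne h * youngMat row col * regOne h⁻¹).trace = 0 := by
    intro h _ hh
    refine symMat_conj_trace_zero h fun hinj => hh ?_
    obtain ⟨r, hr, c, hc, e⟩ := hT.mem_rc hinj
    exact mem_image.mpr ⟨(⟨r, hr⟩, ⟨c, hc⟩), mem_univ _, e.symm⟩
  rw [← sum_subset (subset_univ _) hzero, sum_image fun a _ b _ e => hΦ e] at hsum
  obtain ⟨a, ha, hsq⟩ := hT.youngMat_sq
  have hterm : ∀ p : stab row × stab col,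
      (symMat row * regOne (Φ p) * youngMat row col * regOne (Φ p)⁻¹).trace
        = ((Perm.sign (p.2 : Perm α) : ℤ) : ℚ) *
            (symMat row * altMat col * symMat row * regOne (p.2 : Perm α)⁻¹).trace := by
    intro p
    have e1 : regOne (p.2 : Perm α) * youngMat row col
        = ((Perm.sign (p.2 : Perm α) : ℤ) : ℚ) • youngMat row col := by
      rw [youngMat, ← mul_assoc, regOne_mul_altMat, smul_mul_assoc]
    simp only [Φ, _root_.mul_inv_rev, ← regOne_mul]
    rw [← mul_assoc, trace_mul_comm]
    simp only [← mul_assoc, regOne_mul_symMat (⟨(p.1 : Perm α)⁻¹, inv_mem p.1.2⟩ : stab row)]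
    rw [symMat_mul_regOne, mul_assoc (symMat row), e1, mul_smul_comm, smul_mul_assoc, trace_smul,
      smul_eq_mul, youngMat, ← mul_assoc (symMat row)]
  rw [sum_congr rfl fun p _ => hterm p, Fintype.sum_prod_type] at hsum
  simp only [sum_const, card_univ] at hsum
  have key : ∑ c : stab col, ((Perm.sign (c : Perm α) : ℤ) : ℚ) *
      (symMat row * altMat col * symMat row * regOne (c : Perm α)⁻¹).trace
        = a * (Fintype.card (Perm α) : ℚ) := by
    have : symMat row * altMat col * symMat row * altMat col
        = ∑ c : stab col, ((Perm.sign (c : Perm α) : ℤ) : ℚ) •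
            (symMat row * altMat col * symMat row * regOne (c : Perm α)⁻¹) := by
      conv_lhs => arg 2; rw [← altMat_transpose col, altMat, transpose_sum]
      simp only [mul_sum, transpose_smul, regOne_transpose, mul_smul_comm]
    rw [show ∑ c : stab col, ((Perm.sign (c : Perm α) : ℤ) : ℚ) *
        (symMat row * altMat col * symMat row * regOne (c : Perm α)⁻¹).trace
        = (symMat row * altMat col * symMat row * altMat col).trace from by
      rw [this, trace_sum]; exact sum_congr rfl fun c _ => by rw [trace_smul, smul_eq_mul],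
      trace_mul_comm]
    simp only [← mul_assoc]
    rw [show altMat col * symMat row * altMat col * symMat row
      = youngMat row col * youngMat row col by simp only [youngMat, mul_assoc], hsq, trace_smul,
      hT.youngMat_trace, smul_eq_mul]
  rw [key, nsmul_eq_mul] at hsum
  rcases mul_eq_zero.mp hsum.symm with h | h
  · exact Fintype.card_ne_zero (α := stab row) (by exact_mod_cast h)
  · exact mul_ne_zero ha (by exact_mod_cast Fintype.card_ne_zero) h

/-- A class function orthogonal to every Young symmetrizer vanishes. -/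
theorem classFun_eq_zero (Φ : Perm α → ℚ) (hconj : ∀ k g, Φ (k * g * k⁻¹) = Φ g)
    (horth : ∀ row col : α → ℕ, IsTableau row col → ∑ g, (youngFun row col g : ℚ) * Φ g = 0) :
    Φ = 0 := by
  classical
  let comb : (Nat.Partition (Fintype.card α) → ℚ) → Perm α → ℚ := fun a g =>
    ∑ p, a p * youngChar (parRow p) g
  have hcomb : ∀ a k g, comb a (k * g * k⁻¹) = comb a g := fun a k g => by
    simp only [comb, youngChar_conj]
  have hpair : ∀ a row col, ∑ g, (youngFun row col g : ℚ) * comb a g
      = ∑ p, a p * classPair row col (parRow (α := α) p) := fun a row col => by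
    simp only [comb, classPair, mul_sum]
    rw [sum_comm]
    exact sum_congr rfl fun p _ => sum_congr rfl fun g _ => by ring
  have hindep : ∀ a, (∀ row col, IsTableau row col →
      ∑ g, (youngFun row col g : ℚ) * comb a g = 0) → a = 0 := by
    intro a ha
    by_contra hne
    obtain ⟨q₀, hq₀⟩ := Function.ne_iff.mp hne
    obtain ⟨q, hq, hmin⟩ := Finset.exists_min_image (univ.filter fun p => a p ≠ 0)
      (fun p => wt (parRow (α := α) p)) ⟨q₀, mem_filter.mpr ⟨mem_univ _, hq₀⟩⟩
    have h := ha _ _ (parTableau q)
    rw [hpair, sum_eq_single q] at h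
    · exact mul_ne_zero (mem_filter.mp hq).2 (parTableau q).classPair_self h
    · intro p _ hpq
      rcases eq_or_ne (a p) 0 with hap | hap
      · rw [hap, zero_mul]
      · rw [classPair_off (hmin p (mem_filter.mpr ⟨mem_univ _, hap⟩)) hpq, mul_zero]
    · exact fun hh => absurd (mem_univ _) hh
  have hval : ∀ F : Perm α → ℚ, (∀ k g, F (k * g * k⁻¹) = F g) →
      ∀ g g' : Perm α, g.partition = g'.partition → F g = F g' := by
    intro F hF g g' hgg
    obtain ⟨k, hk⟩ := isConj_iff.mp (Equiv.Perm.partition_eq_of_isConj.mpr hgg)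
    rw [← hk, hF]
  let onTypes : (Perm α → ℚ) → Nat.Partition (Fintype.card α) → ℚ := fun F t =>
    if h : ∃ g : Perm α, g.partition = t then F h.choose else 0
  have honTypes : ∀ F, (∀ k g, F (k * g * k⁻¹) = F g) → ∀ g : Perm α,
      onTypes F g.partition = F g := by
    intro F hF g
    have h : ∃ g' : Perm α, g'.partition = g.partition := ⟨g, rfl⟩
    simp only [onTypes, dif_pos h]
    exact hval F hF _ _ h.choose_spec
  let T : (Nat.Partition (Fintype.card α) → ℚ) →ₗ[ℚ] (Nat.Partition (Fintype.card α) → ℚ) :=
    { toFun := fun a => onTypes (comb a)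
      map_add' := fun a b => by
        funext t
        simp only [onTypes, comb, Pi.add_apply]
        split_ifs <;> simp [add_mul, sum_add_distrib]
      map_smul' := fun c a => by
        funext t
        simp only [onTypes, comb, Pi.smul_apply, smul_eq_mul, RingHom.id_apply]
        split_ifs <;> simp [mul_sum, mul_assoc] }
  have hinj : Function.Injective T := by
    refine LinearMap.ker_eq_bot.mp (LinearMap.ker_eq_bot'.mpr fun a ha => hindep a fun row col _ => ?_)
    refine sum_eq_zero fun g _ => ?_
    rw [← honTypes (comb a) (hcomb a) g, show onTypes (comb a) = T a from rfl, ha]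
    simp
  obtain ⟨a, ha⟩ := (LinearMap.injective_iff_surjective.mp hinj) (onTypes Φ)
  have heq : comb a = Φ := funext fun g => by
    rw [← honTypes (comb a) (hcomb a) g, ← honTypes Φ hconj g]
    exact congrFun ha _
  rw [← heq] at horth ⊢
  rw [hindep a horth]
  funext g
  simp [comb]

end Vale.Agent.P197.Saxl
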