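import Vale.Agent.P197.Saxl.Char0.Classes

/-!
# P197, characteristic zero: if every tableau pairs nontrivially then Saxl's conjecture holds
-/

namespace Vale.Agent.P197.Saxl

open Finset Equiv Matrix
open scoped TensorProduct

variable {m : ℕ}

/-- The product of two translated staircase coefficients, as rational numbers. -/
def pairRat (q : Pair m) (g : Perm (Stair m)) : ℚ :=
  ((tabInt m (q.1.1 * g * q.1.2) * tabInt m (q.2.1 * g * q.2.2) : ℤ) : ℚ)

/-- The functions orthogonal to all products of two translates. -/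
def pairPerp (m : ℕ) : Submodule ℚ (Perm (Stair m) → ℚ) where
  carrier := {u | ∀ q, ∑ g, u g * pairRat q g = 0}
  zero_mem' := fun q => by simp
  add_mem' := fun {u v} hu hv q => by simp [add_mul, sum_add_distrib, hu q, hv q]
  smul_mem' := fun t u hu q => by simp [mul_assoc, ← mul_sum, hu q]

theorem pairPerp_left {u : Perm (Stair m) → ℚ} (hu : u ∈ pairPerp m) (k : Perm (Stair m)) :
    (fun x => u (k * x)) ∈ pairPerp m := by
  intro q
  rw [← hu ((q.1.1 * k⁻¹, q.1.2), (q.2.1 * k⁻¹, q.2.2)), ← Equiv.sum_comp (Equiv.mulLeft k⁻¹)]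
  exact sum_congr rfl fun g _ => by simp [pairRat, ← mul_assoc]

theorem pairPerp_right {u : Perm (Stair m) → ℚ} (hu : u ∈ pairPerp m) (k : Perm (Stair m)) :
    (fun x => u (x * k)) ∈ pairPerp m := by
  intro q
  rw [← hu ((q.1.1, k⁻¹ * q.1.2), (q.2.1, k⁻¹ * q.2.2)), ← Equiv.sum_comp (Equiv.mulRight k⁻¹)]
  exact sum_congr rfl fun g _ => by simp [pairRat, mul_assoc]

theorem pairPerp_eq_bot
    (h : ∀ row col : Stair m → ℕ, IsTableau row col → PairNonzero row col) : pairPerp m = ⊥ := by
  classical
  rw [Submodule.eq_bot_iff]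
  intro u hu
  set V := (pairPerp m).map (regMat (α := Stair m)) with hV
  have hleft : ∀ g, ∀ y ∈ V, regOne g * y ∈ V := by
    rintro g y ⟨f, hf, rfl⟩
    rw [regOne_mul_regMat]
    exact Submodule.mem_map_of_mem (pairPerp_left hf g⁻¹)
  have hright : ∀ g, ∀ y ∈ V, y * regOne g ∈ V := by
    rintro g y ⟨f, hf, rfl⟩
    rw [regMat_mul_regOne]
    exact Submodule.mem_map_of_mem (pairPerp_right hf g⁻¹)
  have hkill : ∀ (row col : Stair m → ℕ), IsTableau row col → ∀ y ∈ V, y * youngMat row col = 0 := by
    intro row col hT y hy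
    by_contra hne
    obtain ⟨f, hf, he⟩ := hT.youngMat_mem V (LinearMap.map_le_range) hleft hright hy hne
    obtain ⟨a, b, a₂, b₂, hab⟩ := h row col hT
    refine hab ?_
    have hfe : f = fun g => (youngFun row col g : ℚ) := by
      rw [youngMat_eq, ← sub_eq_zero, ← map_sub] at he
      exact sub_eq_zero.mp (regMat_eq_zero he)
    have h0 := hf ((a, b), (a₂, b₂))
    rw [hfe] at h0
    simp only [pairRat] at h0
    exact_mod_cast h0
  have hy : regMat u ∈ V := Submodule.mem_map_of_mem hu
  refine regMat_eq_zero ?_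
  by_contra hne
  obtain ⟨g₀, g₁, hval⟩ : ∃ g₀ g₁, regMat u g₀ g₁ ≠ 0 := by
    by_contra hall
    push Not at hall
    exact hne (Matrix.ext hall)
  let φ : Perm (Stair m) → ℚ := fun g => (regMat u * regOne g) g₀ g₁
  have hφ : ∀ row col : Stair m → ℕ, IsTableau row col → ∀ k,
      ∑ g, (youngFun row col g : ℚ) * φ (k * g * k⁻¹) = 0 := by
    intro row col hT k
    have e : (regMat u * regOne k) * youngMat row col * regOne k⁻¹ = 0 := by
      rw [hkill row col hT _ (hright k _ hy), zero_mul]
    have e' := congrFun (congrFun e g₀) g₁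
    rw [Matrix.zero_apply, youngMat_eq,
      regMat_expand fun g => (youngFun row col g : ℚ)] at e'
    simp only [mul_sum, sum_mul, mul_smul_comm, smul_mul_assoc, Matrix.sum_apply,
      Matrix.smul_apply, smul_eq_mul, mul_assoc (regMat u), regOne_mul] at e'
    exact e'
  have hΦ := classFun_eq_zero (fun g => ∑ k : Perm (Stair m), φ (k * g * k⁻¹))
    (fun k g => Fintype.sum_equiv (Equiv.mulRight k) _ _ fun x => by
      simp [mul_assoc, _root_.mul_inv_rev])
    (fun row col hT => by
      simp only [mul_sum]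
      rw [sum_comm]
      exact sum_eq_zero fun k _ => hφ row col hT k)
  have h1 := congrFun hΦ 1
  simp only [mul_one, mul_inv_cancel, sum_const, card_univ, nsmul_eq_mul, Pi.zero_apply] at h1
  rcases mul_eq_zero.mp h1 with h2 | h2
  · exact Fintype.card_ne_zero (α := Perm (Stair m)) (by exact_mod_cast h2)
  · simp only [φ, regOne_one, mul_one] at h2
    exact hval h2

theorem delta_eq_pairRat
    (h : ∀ row col : Stair m → ℕ, IsTableau row col → PairNonzero row col) :
    ∃ c : Pair m → ℚ, ∀ g, ∑ q, c q * pairRat q g = if g = 1 then 1 else 0 := by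
  classical
  suffices hmem : (Pi.single 1 1 : Perm (Stair m) → ℚ)
      ∈ Submodule.span ℚ (Set.range (pairRat (m := m))) by
    obtain ⟨c, hc⟩ := (Submodule.mem_span_range_iff_exists_fun ℚ).mp hmem
    refine ⟨c, fun g => ?_⟩
    have e := congrFun hc g
    rw [Finset.sum_apply, Pi.single_apply] at e
    rw [← e]
    rfl
  by_contra hn
  obtain ⟨φ, hφ1, hφ⟩ := Submodule.exists_le_ker_of_notMem hn
  have hexp : ∀ u : Perm (Stair m) → ℚ, φ u = ∑ g, φ (Pi.single g 1) * u g := fun u => by
    conv_lhs => rw [pi_eq_sum_univ' u]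
    rw [map_sum]
    exact sum_congr rfl fun g _ => by rw [map_smul, smul_eq_mul, mul_comm]
  have hmem : (fun g => φ (Pi.single g 1)) ∈ pairPerp m := fun q => by
    rw [← hexp]
    exact hφ (Submodule.subset_span ⟨q, rfl⟩)
  rw [pairPerp_eq_bot h, Submodule.mem_bot] at hmem
  exact hφ1 (congrFun hmem 1)

/-- Saxl's conjecture follows once every tableau pairs nontrivially with some product of two
translated staircase coefficients. -/
theorem saxl_of_pairNonzero
    (h : ∀ (m : ℕ) (row col : Stair m → ℕ), IsTableau row col → PairNonzero row col) :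
    SaxlStatement := by
  intro m W _ _ _ τ
  obtain ⟨c, hc⟩ := delta_eq_pairRat (h m)
  refine exists_map_of_funs (I := Pair m) (stairRow m) (stairCol m) τ
    (fun q : Pair m => ((c q : ℚ) : ℂ) • transFun m q.1.1 q.1.2)
    (fun q : Pair m => transFun m q.2.1 q.2.2) (fun g => if g = 1 then 1 else 0) (fun g => ?_) ?_
  · have e := congrArg (fun z : ℚ => (z : ℂ)) (hc g)
    simp only [pairRat, Rat.cast_sum, Rat.cast_mul, Int.cast_mul, Rat.cast_intCast] at e
    rw [show (if g = 1 then (1 : ℂ) else 0) = ((if g = 1 then 1 else 0 : ℚ) : ℂ) by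
      split_ifs <;> simp, ← e]
    refine sum_congr rfl fun q _ => ?_
    rw [LinearMap.smul_apply, smul_eq_mul,
      show spechtRep (stairRow m) (stairCol m) g = stairRep m g from rfl, transFun_apply,
      transFun_apply]
    ring
  · have e : (Matrix.of fun k g : Perm (Stair m) => if k⁻¹ * g = 1 then (1 : ℂ) else 0) = 1 := by
      ext k g
      rw [Matrix.of_apply, Matrix.one_apply]
      exact if_congr inv_mul_eq_one rfl rfl
    rw [e, Matrix.det_one]
    exact one_ne_zero

end Vale.Agent.P197.Saxl
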