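import Vale.Agent.P197.Saxl.Char0.Defs
import Vale.Agent.P197.Saxl.HookOdd

/-!
# P197, characteristic zero: the conjugate shape

The signed convolution square of the staircase coefficient is an odd multiple of it, so the
coefficient times the sign is a combination of translates; hence a shape and its conjugate pair
nontrivially together.
-/

namespace Vale.Agent.P197.Saxl

open Finset Equiv

variable {m : ℕ}

theorem tabInt_stab_mul {r : Perm (Stair m)} (hr : r ∈ stab (stairRow m)) (h : Perm (Stair m)) :
    tabInt m (r * h) = tabInt m h :=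
  sum_congr rfl fun c _ => by
    by_cases hc : h * (c : Perm (Stair m)) ∈ stab (stairRow m)
    · rw [if_pos hc, if_pos (by rw [mul_assoc]; exact mul_mem hr hc)]
    · rw [if_neg hc, if_neg fun e => hc (by
        have := mul_mem (inv_mem hr) e
        rwa [mul_assoc r, inv_mul_cancel_left] at this)]

theorem tabInt_mul_stab {c₀ : Perm (Stair m)} (hc₀ : c₀ ∈ stab (stairCol m)) (h : Perm (Stair m)) :
    tabInt m (h * c₀) = (Perm.sign c₀ : ℤ) * tabInt m h := by
  rw [tabInt, tabInt, mul_sum]
  refine Fintype.sum_equiv (Equiv.mulLeft (⟨c₀, hc₀⟩ : stab (stairCol m))) _ _ fun c => ?_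
  simp only [Equiv.coe_mulLeft, Subgroup.coe_mul, mul_assoc, Perm.sign_mul, Units.val_mul, mul_ite,
    mul_zero]
  refine if_congr Iff.rfl ?_ rfl
  rcases Int.units_eq_one_or (Perm.sign c₀) with e | e <;> simp [e]

/-- The signed convolution square. -/
def sqConv (m : ℕ) (x : Perm (Stair m)) : ℤ := ∑ g, tabInt m g * tabInt m (g⁻¹ * x)

theorem sqConv_eq (x : Perm (Stair m)) : sqConv m x = sqConv m 1 * tabInt m x := by
  by_cases hx : x ∈ rcSet m
  · obtain ⟨⟨r, c⟩, -, rfl⟩ := mem_image.mp hx
    have e1 : sqConv m ((r : Perm (Stair m)) * c)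
        = (Perm.sign (c : Perm (Stair m)) : ℤ) * sqConv m 1 := by
      rw [sqConv, sqConv, mul_sum]
      refine (Fintype.sum_equiv (Equiv.mulLeft (r : Perm (Stair m))) _ _ fun g => ?_).symm
      rw [Equiv.coe_mulLeft, tabInt_stab_mul r.2, mul_inv_rev, mul_assoc g⁻¹, inv_mul_cancel_left,
        mul_one, tabInt_mul_stab c.2]
      ring
    have e2 : tabInt m ((r : Perm (Stair m)) * c) = (Perm.sign (c : Perm (Stair m)) : ℤ) := by
      rw [tabInt_mul_stab c.2, show tabInt m (r : Perm (Stair m)) = 1 from ?_, mul_one]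
      rw [← mul_one (r : Perm (Stair m)), tabInt_stab_mul r.2, tabInt,
        sum_eq_single (1 : stab (stairCol m))]
      · simp
      · intro c' _ hne
        refine if_neg fun h => hne (Subtype.ext ?_)
        exact stab_inter_eq_one (stair_injective m) (by simpa using h) c'.2
      · exact fun h => absurd (mem_univ _) h
    rw [e1, e2, mul_comm]
  · have h0 : tabInt m x = 0 := by
      refine sum_eq_zero fun c _ => if_neg fun hc => hx (mem_image.mpr ⟨(⟨_, hc⟩, c⁻¹), mem_univ _, ?_⟩)
      simp
    rw [h0, mul_zero]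
    have hni : ¬ IsCellMap (fun y => (stairRow m y : ℕ)) (fun y => (stairCol m y : ℕ)) x :=
      fun h => hx ((mem_rcSet_iff x).mpr h)
    by_cases hdup : ∃ p q, p ≠ q ∧ stairCol m p = stairCol m q ∧
        stairRow m (x p) = stairRow m (x q)
    · obtain ⟨p, q, hne, hc, hr⟩ := hdup
      have hs : swap (x p) (x q) ∈ stab (stairRow m) := fun y => by
        rcases eq_or_ne y (x p) with rfl | h1
        · rw [swap_apply_left, hr]
        rcases eq_or_ne y (x q) with rfl | h2
        · rw [swap_apply_right, hr]
        · rw [swap_apply_of_ne_of_ne h1 h2]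
      have hc' : swap p q ∈ stab (stairCol m) := fun y => by
        rcases eq_or_ne y p with rfl | h1
        · rw [swap_apply_left, hc]
        rcases eq_or_ne y q with rfl | h2
        · rw [swap_apply_right, hc]
        · rw [swap_apply_of_ne_of_ne h1 h2]
      have hkey : ∀ g : Perm (Stair m),
          tabInt m (swap (x p) (x q) * g) * tabInt m ((swap (x p) (x q) * g)⁻¹ * x)
            = - (tabInt m g * tabInt m (g⁻¹ * x)) := fun g => by
        rw [tabInt_stab_mul hs, mul_inv_rev, swap_inv, mul_assoc g⁻¹,
          ← Equiv.mul_swap_eq_swap_mul x p q, ← mul_assoc, tabInt_mul_stab hc',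
          Perm.sign_swap hne]
        simp
      refine sum_involution (fun g _ => swap (x p) (x q) * g) (fun g _ => ?_) (fun g _ _ h => ?_)
        (fun g _ => mem_univ _) fun g _ => by simp
      · rw [hkey, add_neg_cancel]
      · exact hne (x.injective (swap_eq_one_iff.mp (mul_eq_right.mp h)))
    · refine absurd ?_ hni
      refine ⟨fun y => ?_, fun y z h => ?_⟩
      · have := row_bound (v := fun y => (stairRow m (x (transpose m y)) : ℕ))
          (w := fun y => (stairCol m (x (transpose m y)) : ℕ)) (fun y => (x (transpose m y)).2)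
          (fun y z e => (transpose m).injective (x.injective
            (stair_ext (congrArg Prod.fst e) (congrArg Prod.snd e))))
          (fun y z h1 h2 => by
            by_contra hne
            exact hdup ⟨transpose m y, transpose m z, fun e => hne ((transpose m).injective e),
              h1, Fin.ext h2⟩) (transpose m y)
        rw [show transpose m (transpose m y) = y from rfl] at this
        exact this
      · simp only [Prod.mk.injEq] at h
        by_contra hne
        exact hdup ⟨y, z, hne, Fin.ext h.2, Fin.ext h.1⟩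

theorem sqConv_one_ne_zero (m : ℕ) : sqConv m 1 ≠ 0 := fun h => by
  have h1 : ((sqConv m 1 : ℤ) : ZMod 2) = 1 := by
    rw [sqConv, Int.cast_sum]
    refine (sum_congr rfl fun g _ => ?_).trans ((conv_rcSet (m := m) 1 1).trans ?_)
    · simp only [Int.cast_mul, tabInt_mod_two, ite_zero_mul_ite_zero, mul_one, one_mul]
    · rw [mul_one, if_pos]
      exact mem_image.mpr ⟨(1, 1), mem_univ _, by simp⟩
  rw [h, Int.cast_zero] at h1
  exact zero_ne_one h1

/-- Inversion is transposition times the sign. -/
theorem tabInt_inv (y : Perm (Stair m)) :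
    tabInt m y⁻¹ = (Perm.sign y : ℤ) * tabInt m (transpose m * y * transpose m) := by
  have htt : ∀ z, transpose m (transpose m z) = z := fun _ => rfl
  have hconj : ∀ c : stab (stairCol m),
      transpose m * (c : Perm (Stair m)) * transpose m ∈ stab (stairRow m) := fun c z =>
    c.2 (transpose m z)
  have hconj' : ∀ r : stab (stairRow m),
      transpose m * (r : Perm (Stair m)) * transpose m ∈ stab (stairCol m) := fun r z =>
    r.2 (transpose m z)
  rw [tabInt, tabInt, mul_sum, ← sum_filter, eq_comm]
  simp only [mul_ite, mul_zero]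
  rw [← sum_filter]
  refine sum_bij' (fun c hc => ⟨y * (transpose m * (c : Perm (Stair m)) * transpose m), fun z => by
      have e := (mem_filter.mp hc).2 (transpose m z)
      exact e⟩)
    (fun c hc => ⟨transpose m * (y⁻¹ * (c : Perm (Stair m))) * transpose m,
      hconj' ⟨_, (mem_filter.mp hc).2⟩⟩) ?_ ?_ ?_ ?_ ?_
  · intro c hc
    refine mem_filter.mpr ⟨mem_univ _, ?_⟩
    rw [inv_mul_cancel_left]
    exact hconj c
  · intro c hc
    refine mem_filter.mpr ⟨mem_univ _, fun z => ?_⟩
    show stairRow m (transpose m (y (transpose m (transpose m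
      ((y⁻¹ * (c : Perm (Stair m))) (transpose m z)))))) = stairRow m z
    rw [htt, Perm.mul_apply, show y (y⁻¹ ((c : Perm (Stair m)) (transpose m z)))
      = (c : Perm (Stair m)) (transpose m z) from y.apply_symm_apply _]
    exact c.2 (transpose m z)
  · intro c hc
    refine Subtype.ext (Equiv.ext fun z => ?_)
    simp [htt]
  · intro c hc
    refine Subtype.ext (Equiv.ext fun z => ?_)
    simp [htt]
  · intro c hc
    have ht : Perm.sign (transpose m) * Perm.sign (transpose m) = 1 := Int.units_mul_self _
    rw [Perm.sign_mul, Perm.sign_mul, Perm.sign_mul, mul_right_comm (Perm.sign (transpose m)),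
      ht, one_mul, Units.val_mul]

theorem tabInt_eq_sum (h : Perm (Stair m)) :
    tabInt m h = ∑ r : stab (stairRow m), ∑ c : stab (stairCol m),
      if h * (c : Perm (Stair m)) = r then (Perm.sign (c : Perm (Stair m)) : ℤ) else 0 := by
  rw [sum_comm]
  refine sum_congr rfl fun c _ => ?_
  by_cases hc : h * (c : Perm (Stair m)) ∈ stab (stairRow m)
  · rw [if_pos hc, sum_eq_single (⟨_, hc⟩ : stab (stairRow m)), if_pos rfl]
    · exact fun r _ hne => if_neg fun e => hne (Subtype.ext e.symm)
    · exact fun h => absurd (mem_univ _) h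
  · rw [if_neg hc, sum_eq_zero]
    exact fun r _ => if_neg fun e => hc (by rw [e]; exact r.2)

theorem sum_right_row (z : Perm (Stair m)) :
    ∑ r : stab (stairRow m), tabInt m (z * r)
      = ∑ r : stab (stairRow m), tabInt m (z⁻¹ * r) := by
  simp only [tabInt_eq_sum]
  rw [sum_comm]
  refine sum_congr rfl fun r _ => sum_congr rfl fun r' _ => ?_
  refine Fintype.sum_equiv (Equiv.inv (stab (stairCol m))) _ _ fun c => ?_
  rw [Equiv.inv_apply, Subgroup.coe_inv, Perm.sign_inv]
  refine if_congr ⟨fun e => ?_, fun e => ?_⟩ rfl rfl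
  · rw [← e]; simp [mul_assoc]
  · rw [← e]; simp [mul_assoc]

theorem sum_second (x : Perm (Stair m)) (c : stab (stairCol m)) :
    ∑ g : Perm (Stair m), tabInt m g *
        (if g⁻¹ * x * (c : Perm (Stair m)) ∈ stab (stairRow m) then
          (Perm.sign (c : Perm (Stair m)) : ℤ) else 0)
      = (Perm.sign (c : Perm (Stair m)) : ℤ)
          * ∑ r : stab (stairRow m), tabInt m (x * c * (r : Perm (Stair m))) := by
  have e : ∀ g : Perm (Stair m), tabInt m g *
      (if g⁻¹ * x * (c : Perm (Stair m)) ∈ stab (stairRow m) then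
        (Perm.sign (c : Perm (Stair m)) : ℤ) else 0)
      = ∑ r : stab (stairRow m), if x * c * (r : Perm (Stair m)) = g then
          tabInt m g * (Perm.sign (c : Perm (Stair m)) : ℤ) else 0 := fun g => by
    by_cases hg : g⁻¹ * x * (c : Perm (Stair m)) ∈ stab (stairRow m)
    · rw [if_pos hg, sum_eq_single (⟨_, inv_mem hg⟩ : stab (stairRow m))]
      · rw [if_pos]
        simp [mul_assoc]
      · intro r _ hne
        refine if_neg fun e => hne (Subtype.ext ?_)
        show (r : Perm (Stair m)) = (g⁻¹ * x * (c : Perm (Stair m)))⁻¹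
        rw [← e]
        simp [mul_assoc]
      · exact fun h => absurd (mem_univ _) h
    · rw [if_neg hg, mul_zero, sum_eq_zero]
      intro r _
      refine if_neg fun e => hg ?_
      rw [← e]
      simp [mul_assoc]
  rw [sum_congr rfl fun g _ => e g, sum_comm, mul_sum]
  exact sum_congr rfl fun r _ => by rw [sum_ite_eq, if_pos (mem_univ _), mul_comm]

/-- The signed coefficient is a combination of translates. -/
theorem sign_mul_tabInt (x : Perm (Stair m)) :
    sqConv m 1 * ((Perm.sign x : ℤ) * tabInt m x)
      = ∑ p : stab (stairRow m) × stab (stairCol m), (Perm.sign (p.1 : Perm (Stair m)) : ℤ) *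
          tabInt m (transpose m * (p.1 : Perm (Stair m))⁻¹ * x
            * ((p.2 : Perm (Stair m)) * transpose m)) := by
  rw [mul_left_comm, ← sqConv_eq, sqConv,
    sum_congr rfl (f := fun g => tabInt m g * tabInt m (g⁻¹ * x))
      (g := fun g => ∑ c : stab (stairCol m), tabInt m g *
      (if g⁻¹ * x * (c : Perm (Stair m)) ∈ stab (stairRow m) then
        (Perm.sign (c : Perm (Stair m)) : ℤ) else 0)) (fun g _ => mul_sum univ _ (tabInt m g)),
    sum_comm, mul_sum, Fintype.sum_prod_type, sum_comm (γ := stab (stairRow m))]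
  refine sum_congr rfl fun c _ => ?_
  rw [sum_second, sum_right_row, ← mul_assoc, mul_sum]
  refine sum_congr rfl fun r _ => ?_
  rw [show (x * (c : Perm (Stair m)))⁻¹ * (r : Perm (Stair m))
      = ((r : Perm (Stair m))⁻¹ * x * c)⁻¹ by simp [mul_assoc], tabInt_inv,
    show transpose m * (r : Perm (Stair m))⁻¹ * x * ((c : Perm (Stair m)) * transpose m)
      = transpose m * ((r : Perm (Stair m))⁻¹ * x * c) * transpose m by simp only [mul_assoc]]
  simp only [Perm.sign_mul, Perm.sign_inv, Units.val_mul]
  generalize tabInt m (transpose m * ((r : Perm (Stair m))⁻¹ * x * c) * transpose m) = T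
  rcases Int.units_eq_one_or (Perm.sign x) with e1 | e1 <;>
    rcases Int.units_eq_one_or (Perm.sign (c : Perm (Stair m))) with e2 | e2 <;> simp [e1, e2]

theorem youngFun_inv {α : Type} [Fintype α] [DecidableEq α] (row col : α → ℕ) (h : Perm α) :
    youngFun row col h⁻¹ = (Perm.sign h : ℤ) * youngFun col row h := by
  rw [youngFun, youngFun, mul_sum, sum_comm]
  refine Fintype.sum_equiv (Equiv.inv (stab row)) _ _ fun r => ?_
  rw [mul_sum]
  refine Fintype.sum_equiv (Equiv.inv (stab col)) _ _ fun c => ?_
  simp only [Equiv.inv_apply, Subgroup.coe_inv, Perm.sign_inv, mul_ite, mul_zero]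
  by_cases he : (c : Perm α) * r = h⁻¹
  · have e : h = (r : Perm α)⁻¹ * (c : Perm α)⁻¹ := by rw [← mul_inv_rev, he, inv_inv]
    rw [if_pos he, if_pos e.symm, e, Perm.sign_mul, Perm.sign_inv, Perm.sign_inv]
    rcases Int.units_eq_one_or (Perm.sign (r : Perm α)) with e1 | e1 <;> simp [e1]
  · rw [if_neg he, if_neg fun e => he ?_]
    rw [← e, mul_inv_rev, inv_inv, inv_inv]

/-- **B2**: a shape and its conjugate pair nontrivially together. -/
theorem pairNonzero_conj {row col : Stair m → ℕ} (h : PairNonzero row col) :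
    PairNonzero col row := by
  obtain ⟨a, b, a₂, b₂, hne⟩ := h
  rw [← Equiv.sum_comp (Equiv.inv (Perm (Stair m)))] at hne
  simp only [Equiv.inv_apply] at hne
  set A := transpose m * b⁻¹
  set B := a⁻¹ * transpose m
  set A₂ := transpose m * b₂⁻¹
  set B₂ := a₂⁻¹ * transpose m
  have hU : ∀ (a b h : Perm (Stair m)), tabInt m (a * h⁻¹ * b)
      = (Perm.sign (b⁻¹ * h * a⁻¹) : ℤ) * tabInt m (transpose m * b⁻¹ * h * (a⁻¹ * transpose m)) :=
    fun a b h => by
      rw [show a * h⁻¹ * b = (b⁻¹ * h * a⁻¹)⁻¹ by simp [mul_assoc], tabInt_inv,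
        show transpose m * (b⁻¹ * h * a⁻¹) * transpose m
          = transpose m * b⁻¹ * h * (a⁻¹ * transpose m) by simp only [mul_assoc]]
  let K : ℤ := (Perm.sign b⁻¹ : ℤ) * (Perm.sign a⁻¹ : ℤ) * (Perm.sign b₂⁻¹ : ℤ) *
    (Perm.sign a₂⁻¹ : ℤ) * (Perm.sign A : ℤ) * (Perm.sign B : ℤ)
  have hterm : ∀ h : Perm (Stair m),
      sqConv m 1 * (youngFun row col h⁻¹ * (tabInt m (a * h⁻¹ * b) * tabInt m (a₂ * h⁻¹ * b₂)))
        = K * ∑ p : stab (stairRow m) × stab (stairCol m), (Perm.sign (p.1 : Perm (Stair m)) : ℤ) *
            (youngFun col row h *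
              (tabInt m (transpose m * (p.1 : Perm (Stair m))⁻¹ * A * h
                  * (B * ((p.2 : Perm (Stair m)) * transpose m)))
                * tabInt m (A₂ * h * B₂))) := by
    intro h
    have e := sign_mul_tabInt (m := m) (A * h * B)
    have e' : ∀ p : stab (stairRow m) × stab (stairCol m),
        transpose m * (p.1 : Perm (Stair m))⁻¹ * A * h
            * (B * ((p.2 : Perm (Stair m)) * transpose m))
          = transpose m * (p.1 : Perm (Stair m))⁻¹ * (A * h * B)
            * ((p.2 : Perm (Stair m)) * transpose m) := fun p => by simp only [mul_assoc]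
    have hs : ∑ p : stab (stairRow m) × stab (stairCol m), (Perm.sign (p.1 : Perm (Stair m)) : ℤ) *
          (youngFun col row h *
            (tabInt m (transpose m * (p.1 : Perm (Stair m))⁻¹ * (A * h * B)
                * ((p.2 : Perm (Stair m)) * transpose m))
              * tabInt m (A₂ * h * B₂)))
        = youngFun col row h * tabInt m (A₂ * h * B₂)
            * (sqConv m 1 * ((Perm.sign (A * h * B) : ℤ) * tabInt m (A * h * B))) := by
      rw [e, mul_sum]
      exact sum_congr rfl fun p _ => by ring
    simp only [e']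
    rw [hs, hU, hU, youngFun_inv]
    simp only [K, Perm.sign_mul, Units.val_mul]
    rcases Int.units_eq_one_or (Perm.sign A) with eA | eA <;>
      rcases Int.units_eq_one_or (Perm.sign B) with eB | eB <;>
        rcases Int.units_eq_one_or (Perm.sign h) with eh | eh <;>
          simp only [eA, eB, eh, Units.val_one, Units.val_neg] <;> ring
  have h2 := mul_ne_zero (sqConv_one_ne_zero m) hne
  rw [mul_sum, sum_congr rfl fun g _ => hterm g, ← mul_sum, sum_comm] at h2
  obtain ⟨p, -, hp⟩ := exists_ne_zero_of_sum_ne_zero (right_ne_zero_of_mul h2)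
  rw [← mul_sum] at hp
  exact ⟨_, _, A₂, B₂, right_ne_zero_of_mul hp⟩


end Vale.Agent.P197.Saxl
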