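import Vale.Agent.P197.Saxl.Strips
import Vale.Agent.P197.Saxl.Char0.Conj

/-!
# P197: mixed strip fillings pair nontrivially with the square

The signed sum over the stabilizer of the levels is a nonzero vector of the Specht module; moved to
the column group of the staircase it is an eigenvector, so a coefficient function of the square
acts nontrivially on it, also after a twist by the sign.  Reading off one coefficient gives the
pairing of the transposed tableau at two labellings whose sums stay below `m`.
-/

namespace Vale.Agent.P197.Saxl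

namespace MixedStrips

open Finset Equiv
open scoped TensorProduct

variable {m : ℕ}

variable {row col lev : Stair m → ℕ}

/-- A column permutation of `ν` giving the rows of a label preserving one keeps the labels. -/
theorem label_preserved (hT : IsTableau row col) (hmono : Monotone2 row col lev)
    {c p : Perm (Stair m)} (hc : c ∈ stab lev) (hp : p ∈ stab col)
    (h : ∀ x, row (c x) = row (p x)) (x : Stair m) : lev (p x) = lev x := by
  classical
  suffices key : ∀ (k : ℕ) (x : Stair m), lev x = k → lev (p x) = k from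
    key _ x rfl
  intro k
  induction k using Nat.strong_induction_on with
  | _ k ih =>
    let Fib : ℕ → Finset (Stair m) := fun i => univ.filter fun y => lev y = i
    have memF : ∀ i y, y ∈ Fib i ↔ lev y = i := fun i y => by simp [Fib]
    have hge : ∀ y, lev y = k → k ≤ lev (p y) := by
      intro y hy
      by_contra hlt
      have himg : (Fib (lev (p y))).image p = Fib (lev (p y)) :=
        eq_of_subset_of_card_le (fun z hz => by
          obtain ⟨w, hw, rfl⟩ := mem_image.mp hz
          exact (memF _ _).mpr (ih _ (not_le.mp hlt) w ((memF _ _).mp hw)))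
          (card_image_of_injective _ p.injective).ge
      have hmem : p y ∈ (Fib (lev (p y))).image p := by
        rw [himg]
        exact (memF _ _).mpr rfl
      obtain ⟨w, hw, e⟩ := mem_image.mp hmem
      rw [p.injective e, memF, hy] at hw
      omega
    let b : ℕ → ℕ := fun i => (univ.filter fun z => col z = i ∧ lev z ≤ k).card
    let D : Stair m → ℤ := fun y => (row y : ℤ) - b (col y)
    have hneg : ∀ y, lev y ≤ k → D y < 0 := by
      intro y hy
      suffices row y + 1 ≤ b (col y) by simp only [D]; omega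
      have hdown : ∀ i : Fin (row y + 1), ∃ z, row z = i ∧ col z = col y := fun i =>
        hT.down y i (col y) (by omega) le_rfl
      choose z hz1 hz2 using hdown
      calc row y + 1 = (univ : Finset (Fin (row y + 1))).card := by simp
        _ ≤ b (col y) := by
          refine card_le_card_of_injOn z (fun i _ => ?_) ?_
          · refine mem_coe.mpr (mem_filter.mpr ⟨mem_univ _, hz2 i, ?_⟩)
            have hle := hmono (z i) y (by rw [hz1]; omega) (hz2 i).le
            omega
          · intro i _ i' _ e
            exact Fin.ext (by rw [← hz1 i, ← hz1 i', e])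
    have hnonneg : ∀ y, k < lev y → 0 ≤ D y := by
      intro y hy
      suffices b (col y) ≤ row y by simp only [D]; omega
      calc b (col y) ≤ (range (row y)).card := by
            refine card_le_card_of_injOn row (fun z hz => ?_) ?_
            · obtain ⟨hz1, hz2⟩ := (mem_filter.mp hz).2
              refine mem_coe.mpr (mem_range.mpr (not_le.mp fun hle => ?_))
              have := hmono y z hle hz1.ge
              omega
            · intro z hz z' hz' e
              exact hT.inj (Prod.ext e ((mem_filter.mp hz).2.1.trans (mem_filter.mp hz').2.1.symm))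
        _ = row y := card_range _
    intro x hx
    by_contra hne
    set F := Fib k
    have hcimg : ∑ y ∈ F, row (c y) = ∑ y ∈ F, row y := by
      refine sum_equiv c (fun y => ?_) fun y _ => rfl
      rw [memF, memF, hc y]
    have hsum : ∑ y ∈ F.image p, D y = ∑ y ∈ F, D y := by
      rw [sum_image fun a _ a' _ e => p.injective e]
      simp only [D, sum_sub_distrib, hp _, ← h]
      have := congrArg (Nat.cast : ℕ → ℤ) hcimg
      push_cast at this
      rw [this]
    have hsd := sum_sdiff_sub_sum_sdiff (s₁ := F) (s₂ := F.image p) (f := D)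
    rw [hsum, sub_self, sub_eq_zero] at hsd
    have hout : ∀ y ∈ F.image p \ F, 0 ≤ D y := fun y hy => by
      obtain ⟨hy1, hy2⟩ := mem_sdiff.mp hy
      obtain ⟨w, hw, rfl⟩ := mem_image.mp hy1
      have := hge w ((memF _ _).mp hw)
      refine hnonneg _ (lt_of_le_of_ne this fun e => hy2 ((memF _ _).mpr e.symm))
    have hnonempty : (F \ F.image p).Nonempty := by
      rw [← card_pos, card_sdiff_comm (card_image_of_injective F p.injective).symm]
      exact card_pos.mpr ⟨p x, mem_sdiff.mpr
        ⟨mem_image_of_mem _ ((memF _ _).mpr hx), fun e => hne ((memF _ _).mp e)⟩⟩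
    have hlt : ∑ y ∈ F \ F.image p, D y < 0 :=
      sum_neg (fun y hy => hneg y ((memF _ _).mp (mem_sdiff.mp hy).1).le) hnonempty
    have := sum_nonneg hout
    omega

/-- Labels whose class is no horizontal strip. -/
def VertLabel (col lev : Stair m → ℕ) (x : Stair m) : Prop :=
  ¬ ∀ y z, lev y = lev x → lev z = lev x → col y = col z → y = z

theorem vertLabel_congr {x y : Stair m} (h : lev x = lev y) :
    VertLabel col lev x ↔ VertLabel col lev y := by
  simp only [VertLabel, h]

/-- The part of a column permutation on the vertical strips. -/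
noncomputable def vertPart (col lev : Stair m → ℕ) (c : stab lev) : Perm (Stair m) :=
  open Classical in
  Perm.ofSubtype ((c : Perm (Stair m)).subtypePerm (p := VertLabel col lev) fun x =>
    vertLabel_congr (c.2 x))

theorem vertPart_of {c : stab lev} {x : Stair m} (h : VertLabel col lev x) :
    vertPart col lev c x = (c : Perm (Stair m)) x := by
  classical
  rw [vertPart, Perm.ofSubtype_apply_of_mem _ h]
  rfl

theorem vertPart_not {c : stab lev} {x : Stair m} (h : ¬ VertLabel col lev x) :
    vertPart col lev c x = x := by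
  classical
  rw [vertPart, Perm.ofSubtype_apply_of_not_mem _ h]

theorem vertPart_mul (c d : stab lev) :
    vertPart col lev (c * d) = vertPart col lev c * vertPart col lev d := by
  refine Equiv.ext fun x => ?_
  by_cases h : VertLabel col lev x
  · have h' : VertLabel col lev ((d : Perm (Stair m)) x) := (vertLabel_congr (d.2 x)).mpr h
    rw [Perm.mul_apply, vertPart_of h, vertPart_of h, vertPart_of h']
    rfl
  · rw [Perm.mul_apply, vertPart_not h, vertPart_not h, vertPart_not h]

theorem eq_vertPart (hT : IsTableau row col) (hmono : Monotone2 row col lev) (hs : ∀ v, Set.InjOn col (block lev v : Set (Stair m)) ∨ Set.InjOn row (block lev v : Set (Stair m)))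
    {c : stab lev} {p : Perm (Stair m)} (hp : p ∈ stab col)
    (h : ∀ x, row ((c : Perm (Stair m)) x) = row (p x)) : p = vertPart col lev c := by
  refine Equiv.ext fun x => ?_
  have hl := label_preserved hT hmono c.2 hp h x
  by_cases hx : VertLabel col lev x
  · rw [vertPart_of hx]
    refine (((hs (lev x)).resolve_left fun hi => hx fun y z h1 h2 h3 => ?_)
      (mem_coe.mpr (mem_block.mpr (c.2 x))) (mem_coe.mpr (mem_block.mpr hl)) (h x)).symm
    exact hi (mem_coe.mpr (mem_block.mpr h1)) (mem_coe.mpr (mem_block.mpr h2)) h3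
  · rw [vertPart_not hx]
    exact (not_not.mp hx) _ _ hl rfl (hp x)

/-- The sign on the vertical strips. -/
noncomputable def vertSign (col lev : Stair m → ℕ) (c : stab lev) : ℂ :=
  ((Perm.sign (vertPart col lev c) : ℤ) : ℂ)

theorem vertSign_mul (c d : stab lev) :
    vertSign col lev (c * d) = vertSign col lev c * vertSign col lev d := by
  simp [vertSign, vertPart_mul, Perm.sign_mul]

/-- The signed sum of translates of the polytabloid. -/
noncomputable def stripVec (row col lev : Stair m → ℕ) : specht row col :=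
  ∑ c : stab lev,
    vertSign col lev c • spechtRep row col (c : Perm (Stair m)) ⟨_, polytabloid_mem⟩

theorem stripVec_signs (d : Perm (Stair m)) (hd : d ∈ stab lev) :
    spechtRep row col d (stripVec row col lev) = stripVec row col lev ∨
      spechtRep row col d (stripVec row col lev) = -stripVec row col lev := by
  have key : spechtRep row col d (stripVec row col lev)
      = vertSign col lev ⟨d, hd⟩ • stripVec row col lev := by
    rw [stripVec, map_sum, smul_sum]
    conv_rhs => rw [← Equiv.sum_comp (Equiv.mulLeft (⟨d, hd⟩ : stab lev))]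
    refine sum_congr rfl fun c _ => ?_
    have hsq : vertSign col lev ⟨d, hd⟩ * vertSign col lev ⟨d, hd⟩ = 1 := by
      rw [vertSign]
      rcases Int.units_eq_one_or (Perm.sign (vertPart col lev ⟨d, hd⟩)) with e | e <;> rw [e] <;> simp
    rw [Equiv.coe_mulLeft, smul_smul, vertSign_mul, ← mul_assoc, hsq, one_mul, map_smul,
      Subgroup.coe_mul, map_mul, Module.End.mul_apply]
  rw [key, vertSign]
  rcases Int.units_eq_one_or (Perm.sign (vertPart col lev ⟨d, hd⟩)) with e | e <;> rw [e]
  · simp
  · refine Or.inr ?_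
    have e1 : (((-1 : ℤˣ) : ℤ) : ℂ) = -1 := by simp
    rw [e1]
    exact neg_one_smul ℂ (stripVec row col lev)

theorem stripVec_ne_zero (hT : IsTableau row col) (hmono : Monotone2 row col lev)
    (hs : ∀ v, Set.InjOn col (block lev v : Set (Stair m)) ∨ Set.InjOn row (block lev v : Set (Stair m))) : stripVec row col lev ≠ 0 := by
  classical
  intro h0
  have h1 := congrArg (fun v : specht row col => (v : (Stair m → ℕ) → ℂ) row) h0
  simp only [stripVec, AddSubmonoidClass.coe_finsetSum, Finset.sum_apply, SetLike.val_smul,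
    Pi.smul_apply, smul_eq_mul, ZeroMemClass.coe_zero, Pi.zero_apply] at h1
  have hval : ∀ c : stab lev, vertSign col lev c *
      ((spechtRep row col (c : Perm (Stair m)) ⟨_, polytabloid_mem⟩ : specht row col) :
        (Stair m → ℕ) → ℂ) row
      = (((univ : Finset (stab col)).filter fun q : stab col =>
          row ∘ ((c : Perm (Stair m)) * (q : Perm (Stair m))) = row).card : ℂ) := by
    intro c
    show _ * tabRep (Stair m) ℕ (c : Perm (Stair m)) (polytabloid row col) row = _
    simp only [polytabloid, map_sum, map_smul, Finset.sum_apply, Pi.smul_apply]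
    rw [mul_sum, ← sum_boole]
    refine sum_congr rfl fun q _ => ?_
    show _ * (_ * tabloid row (row ∘ ((c : Perm (Stair m)) * (q : Perm (Stair m))))) = _
    by_cases hq : row ∘ ((c : Perm (Stair m)) * (q : Perm (Stair m))) = row
    · have e : ((q⁻¹ : stab col) : Perm (Stair m)) = vertPart col lev c :=
        eq_vertPart hT hmono hs (q⁻¹).2 fun x => by
          have := congrFun hq (((q⁻¹ : stab col) : Perm (Stair m)) x)
          simpa using this
      have hsgn : vertSign col lev c = ((Perm.sign (q : Perm (Stair m)) : ℤ) : ℂ) := by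
        rw [vertSign, ← e, Subgroup.coe_inv, Perm.sign_inv]
      rw [if_pos hq, tabloid, if_pos hq, hsgn, mul_one]
      rcases Int.units_eq_one_or (Perm.sign (q : Perm (Stair m))) with e | e <;> rw [e] <;> simp
    · rw [if_neg hq, tabloid, if_neg hq, mul_zero, mul_zero]
  simp only [hval] at h1
  rw [← Nat.cast_sum, Nat.cast_eq_zero, sum_eq_zero_iff] at h1
  have h2 := h1 1 (mem_univ _)
  rw [card_eq_zero, filter_eq_empty_iff] at h2
  exact h2 (mem_univ (1 : stab col)) (by simp)

/-- The levels of a mixed filling are a relabelling of the columns of the staircase. -/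
theorem exists_relabel (hcard : ∀ v, (block lev v).card = if v < m then v + 1 else 0) :
    ∃ φ : Perm (Stair m), ∀ x, (stairCol m (φ x) : ℕ) + lev x + 1 = m := by
  classical
  have hlt : ∀ x, lev x < m := fun x => by
    by_contra h
    have := hcard (lev x)
    rw [if_neg h, card_eq_zero] at this
    exact absurd (mem_block.mpr rfl : x ∈ block lev (lev x)) (by rw [this]; simp)
  let f : Stair m → Fin m := fun x => ⟨m - 1 - lev x, by have := hlt x; omega⟩
  have hfib : ∀ j : Fin m, Fintype.card {x // f x = j} = Fintype.card {x // stairCol m x = j} := by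
    intro j
    have hj : (j : ℕ) < m := j.2
    have h1 : Fintype.card {x // f x = j} = (block lev (m - 1 - (j : ℕ))).card := by
      rw [Fintype.card_subtype]
      congr 1
      ext x
      have := hlt x
      simp only [mem_filter, mem_univ, true_and, mem_block, f, Fin.ext_iff]
      omega
    have h2 : Fintype.card {x // stairCol m x = j} = Fintype.card (Fin (m - (j : ℕ))) := by
      refine Fintype.card_congr
        { toFun := fun x => ⟨(stairRow m x.1 : ℕ), by
            have h : (stairRow m x.1 : ℕ) + stairCol m x.1 < m := x.1.2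
            have : (stairCol m x.1 : ℕ) = j := congrArg Fin.val x.2
            omega⟩
          invFun := fun i => ⟨mkCell (show (i : ℕ) + (j : ℕ) < m by omega), Fin.ext rfl⟩
          left_inv := fun x => Subtype.ext (stair_ext rfl (congrArg Fin.val x.2).symm)
          right_inv := fun i => Fin.ext rfl }
    rw [h1, h2, hcard, if_pos (by omega), Fintype.card_fin]
    omega
  refine ⟨Equiv.ofFiberEquiv (f := f) (g := stairCol m)
    (fun j => Fintype.equivOfCardEq (hfib j)), fun x => ?_⟩
  rw [Equiv.ofFiberEquiv_map (f := f) (g := stairCol m)]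
  have := hlt x
  simp only [f]
  omega

theorem translate_coef (g p : Perm (Stair m)) :
    tabRep (Stair m) ℕ g (polytabloid row col) (row ∘ p) = (youngFun row col (p * g)⁻¹ : ℂ) := by
  simp only [polytabloid, map_sum, map_smul, Finset.sum_apply, Pi.smul_apply, youngFun,
    Int.cast_sum]
  refine sum_congr rfl fun q _ => ?_
  show _ * tabloid row (row ∘ (p * g * (q : Perm (Stair m)))) = _
  have hiff : row ∘ (p * g * (q : Perm (Stair m))) = row
      ↔ ∃ r : stab row, (q : Perm (Stair m)) * r = (p * g)⁻¹ := by
    constructor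
    · intro h
      have hr : p * g * (q : Perm (Stair m)) ∈ stab row := fun x => congrFun h x
      exact ⟨⟨_, inv_mem hr⟩, by simp [mul_assoc]⟩
    · rintro ⟨r, hr⟩
      have e : p * g * (q : Perm (Stair m)) = (r : Perm (Stair m))⁻¹ := by
        rw [← inv_inj, inv_inv, mul_inv_rev, ← hr, inv_mul_cancel_left]
      funext x
      rw [Function.comp_apply, e]
      exact (inv_mem r.2 : (r : Perm (Stair m))⁻¹ ∈ stab row) x
  by_cases h : row ∘ (p * g * (q : Perm (Stair m))) = row
  · obtain ⟨r, hr⟩ := hiff.mp h
    rw [tabloid, if_pos h, mul_one, sum_eq_single r, if_pos hr]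
    · exact fun r' _ hne => by
        rw [if_neg fun e => hne (Subtype.ext (mul_left_cancel (e.trans hr.symm))), Int.cast_zero]
    · exact fun h' => absurd (mem_univ _) h'
  · rw [tabloid, if_neg h, mul_zero, sum_eq_zero]
    intro r _
    rw [if_neg fun e => h (hiff.mpr ⟨r, e⟩), Int.cast_zero]

theorem exists_perm_of_translate_ne {g : Perm (Stair m)} {T : Stair m → ℕ}
    (h : tabRep (Stair m) ℕ g (polytabloid row col) T ≠ 0) :
    ∃ p : Perm (Stair m), T = row ∘ p := by
  simp only [polytabloid, map_sum, map_smul, Finset.sum_apply, Pi.smul_apply] at h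
  obtain ⟨q, -, hq⟩ := exists_ne_zero_of_sum_ne_zero h
  refine ⟨(g * (q : Perm (Stair m)))⁻¹, ?_⟩
  by_contra hne
  refine hq ?_
  show _ * tabloid row (T ∘ (g * (q : Perm (Stair m)))) = 0
  rw [tabloid, if_neg, mul_zero]
  intro e
  refine hne (funext fun x => ?_)
  have := congrFun e ((g * (q : Perm (Stair m)))⁻¹ x)
  simpa using this

end MixedStrips

open Finset Equiv MixedStrips in
/-- The transposed tableau pairs nontrivially at labellings with sums below `m`. -/
theorem strongPair_conj_of_mixedFilling {m : ℕ} {row col : Stair m → ℕ} (hT : IsTableau row col)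
    (h : MixedFilling row col) : ∃ a b a₂ b₂ : Perm (Stair m),
      (∀ y, (stairRow m (a y) : ℕ) + stairRow m (a₂ y) < m) ∧
        ∑ g, youngFun col row g * (tabInt m (a * g * b) * tabInt m (a₂ * g * b₂)) ≠ 0 := by
  classical
  obtain ⟨lev, hmono, hcard, hs⟩ := h
  obtain ⟨φ, hφ⟩ := exists_relabel hcard
  set τ := spechtRep row col with hτ
  have hx0 := stripVec_ne_zero hT hmono hs
  set x := τ φ (stripVec row col lev) with hx
  have hxne : x ≠ 0 := fun e => hx0 (by
    have := congrArg (τ φ⁻¹) e
    rwa [map_zero, hx, ← Module.End.mul_apply, ← map_mul, inv_mul_cancel, map_one,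
      Module.End.one_apply] at this)
  have hC : ∀ c ∈ stab (stairCol m), τ c x = x ∨ τ c x = -x := fun c hc => by
    have hd : φ⁻¹ * c * φ ∈ stab lev := fun y => by
      have h1 := hφ ((φ⁻¹ * c * φ) y)
      have h2 := hφ y
      have h3 : stairCol m (φ ((φ⁻¹ * c * φ) y)) = stairCol m (φ y) := by
        simpa using hc (φ y)
      rw [h3] at h1
      omega
    have e : τ c x = τ φ (τ (φ⁻¹ * c * φ) (stripVec row col lev)) := by
      rw [hx, ← Module.End.mul_apply, ← map_mul, ← Module.End.mul_apply, ← map_mul]
      simp [mul_assoc]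
    rcases stripVec_signs _ hd with h' | h' <;> rw [e, hτ, h']
    · exact Or.inl rfl
    · exact Or.inr (map_neg _ _)
  let τ' : Representation ℂ (Perm (Stair m)) (specht row col) :=
    { toFun := fun g => ((Perm.sign g : ℤ) : ℂ) • τ g
      map_one' := by simp
      map_mul' := fun g g' => by
        simp only [Perm.sign_mul, Units.val_mul, Int.cast_mul, map_mul, smul_mul_smul_comm] }
  have hC' : ∀ c ∈ stab (stairCol m), τ' c x = x ∨ τ' c x = -x := fun c hc => by
    show ((Perm.sign c : ℤ) : ℂ) • τ c x = x ∨ ((Perm.sign c : ℤ) : ℂ) • τ c x = -x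
    have hsg : ∀ z : specht row col, ((Perm.sign c : ℤ) : ℂ) • z = z ∨
        ((Perm.sign c : ℤ) : ℂ) • z = -z := fun z => by
      rcases Int.units_eq_one_or (Perm.sign c) with e | e <;> rw [e]
      · simp
      · exact Or.inr ((congrArg (· • z) (by simp : (((-1 : ℤˣ) : ℤ) : ℂ) = -1)).trans
          (neg_one_smul ℂ z))
    rcases hC c hc with h' | h' <;> rw [h']
    · exact hsg x
    · rcases hsg (-x) with h'' | h'' <;> rw [h''] <;> simp
  have hne : ∑ k, (stripFun m k * (Perm.sign k : ℤ)) • τ k⁻¹ x ≠ 0 := by
    intro h0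
    refine stripFun_act_ne_zero τ' hxne hC' ((sum_congr rfl fun k _ => ?_).trans h0)
    show stripFun m k • (((Perm.sign k⁻¹ : ℤ) : ℂ) • τ k⁻¹ x) = _
    rw [Perm.sign_inv, ← Int.cast_smul_eq_zsmul ℂ, ← Int.cast_smul_eq_zsmul ℂ, smul_smul,
      Int.cast_mul]
  -- some translate of the polytabloid is not killed
  obtain ⟨g₀, hg₀⟩ : ∃ g₀, (∑ k, (stripFun m k * (Perm.sign k : ℤ)) • τ k⁻¹ (τ g₀ ⟨_, polytabloid_mem⟩)) ≠ 0 := by
    by_contra hall
    simp only [not_exists, not_not] at hall
    refine hne ?_
    rw [hx, stripVec]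
    simp only [map_sum, map_smul, smul_sum, hτ]
    rw [sum_comm]
    refine sum_eq_zero fun c _ => ?_
    have := hall (φ * (c : Perm (Stair m)))
    rw [hτ] at this
    rw [← smul_zero (vertSign col lev c), ← this, smul_sum]
    exact sum_congr rfl fun k _ => by rw [map_mul, Module.End.mul_apply, smul_comm]
  obtain ⟨T, hT'⟩ : ∃ T, ((∑ k, (stripFun m k * (Perm.sign k : ℤ)) • τ k⁻¹ (τ g₀ ⟨_, polytabloid_mem⟩) :
      specht row col) : (Stair m → ℕ) → ℂ) T ≠ 0 := by
    by_contra hall
    simp only [not_exists, not_not] at hall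
    exact hg₀ (Subtype.ext (funext hall))
  simp only [AddSubmonoidClass.coe_finsetSum, AddSubgroupClass.coe_zsmul,
    Finset.sum_apply, Pi.smul_apply] at hT'
  have hval : ∀ k : Perm (Stair m),
      ((τ k⁻¹ (τ g₀ ⟨_, polytabloid_mem⟩) : specht row col) : (Stair m → ℕ) → ℂ) T
        = tabRep (Stair m) ℕ (k⁻¹ * g₀) (polytabloid row col) T := fun k => by
    rw [← Module.End.mul_apply, ← map_mul]
    rfl
  simp only [hval] at hT'
  obtain ⟨k₀, -, hk₀⟩ := exists_ne_zero_of_sum_ne_zero hT'
  obtain ⟨p, rfl⟩ := exists_perm_of_translate_ne (fun e => hk₀ (by rw [e, smul_zero]))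
  simp only [translate_coef, ← Int.cast_smul_eq_zsmul ℂ, smul_eq_mul, ← Int.cast_mul,
    ← Int.cast_sum, ne_eq, Int.cast_eq_zero] at hT'
  rw [← Equiv.sum_comp (Equiv.inv (Perm (Stair m))),
    ← Equiv.sum_comp ((Equiv.mulRight g₀⁻¹).trans (Equiv.mulLeft p⁻¹))] at hT'
  simp only [Equiv.trans_apply, Equiv.coe_mulLeft, Equiv.coe_mulRight, Equiv.inv_apply] at hT'
  by_contra hno
  simp only [not_exists, not_and, not_not] at hno
  refine hT' ?_
  simp only [stripFun, sum_mul]
  rw [sum_comm]
  refine sum_eq_zero fun s _ => ?_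
  have hclause : ∀ y, (stairRow m (p⁻¹ y) : ℕ) + stairRow m ((antiPerm m * p⁻¹) y) < m := fun y => by
    have h2 : (stairRow m (p⁻¹ y) : ℕ) + stairCol m (p⁻¹ y) < m := (p⁻¹ y).2
    simp only [Perm.mul_apply, antiPerm_row]
    omega
  have hz := hno p⁻¹ g₀⁻¹ (antiPerm m * p⁻¹) (g₀⁻¹ * (s : Perm (Stair m))⁻¹) hclause
  rw [← mul_eq_zero_of_right ((Perm.sign (s : Perm (Stair m)) : ℤ) *
    (Perm.sign (antiPerm m) : ℤ) * ((Perm.sign p : ℤ) * (Perm.sign g₀ : ℤ))) hz, mul_sum]
  refine sum_congr rfl fun g _ => ?_
  have e1 : tabInt m (transpose m * (p⁻¹ * (g * g₀⁻¹))⁻¹ * transpose m)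
      = (Perm.sign (p⁻¹ * (g * g₀⁻¹)) : ℤ) * tabInt m (p⁻¹ * g * g₀⁻¹) := by
    have e := tabInt_inv (p⁻¹ * (g * g₀⁻¹))⁻¹
    rw [inv_inv, Perm.sign_inv] at e
    rw [mul_assoc p⁻¹ g, e]
    rcases Int.units_eq_one_or (Perm.sign (p⁻¹ * (g * g₀⁻¹))) with h | h <;> rw [h] <;> simp
  have e2 : tabInt m (transpose m * (s : Perm (Stair m)) * (p⁻¹ * (g * g₀⁻¹))⁻¹
        * (antiPerm m * transpose m))
      = (Perm.sign ((s : Perm (Stair m)) * (p⁻¹ * (g * g₀⁻¹))⁻¹ * antiPerm m) : ℤ)
        * tabInt m (antiPerm m * p⁻¹ * g * (g₀⁻¹ * (s : Perm (Stair m))⁻¹)) := by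
    have e := tabInt_inv ((s : Perm (Stair m)) * (p⁻¹ * (g * g₀⁻¹))⁻¹ * antiPerm m)
    rw [show ((s : Perm (Stair m)) * (p⁻¹ * (g * g₀⁻¹))⁻¹ * antiPerm m)⁻¹
        = antiPerm m * p⁻¹ * g * (g₀⁻¹ * (s : Perm (Stair m))⁻¹) by
          simp only [mul_inv_rev, inv_inv, antiPerm_inv, mul_assoc]] at e
    rw [e, show transpose m * ((s : Perm (Stair m)) * (p⁻¹ * (g * g₀⁻¹))⁻¹ * antiPerm m)
        * transpose m = transpose m * (s : Perm (Stair m)) * (p⁻¹ * (g * g₀⁻¹))⁻¹
        * (antiPerm m * transpose m) by simp only [mul_assoc]]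
    generalize tabInt m (transpose m * (s : Perm (Stair m)) * (p⁻¹ * (g * g₀⁻¹))⁻¹
        * (antiPerm m * transpose m)) = T
    rcases Int.units_eq_one_or (Perm.sign ((s : Perm (Stair m)) * (p⁻¹ * (g * g₀⁻¹))⁻¹
        * antiPerm m)) with h | h <;> rw [h] <;> simp
  have e3 : youngFun row col (p * ((p⁻¹ * (g * g₀⁻¹))⁻¹⁻¹ * g₀))⁻¹
      = (Perm.sign g : ℤ) * youngFun col row g := by
    rw [inv_inv, show p * (p⁻¹ * (g * g₀⁻¹) * g₀) = g by simp [mul_assoc], youngFun_inv]
  rw [e1, e2, e3]
  simp only [Perm.sign_mul, Perm.sign_inv, Units.val_mul]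
  rcases Int.units_eq_one_or (Perm.sign g) with h1 | h1 <;>
    rcases Int.units_eq_one_or (Perm.sign g₀) with h2 | h2 <;>
    rcases Int.units_eq_one_or (Perm.sign p) with h3 | h3 <;> rw [h1, h2, h3] <;> simp <;> ring

theorem MixedFilling.swap {m : ℕ} {row col : Stair m → ℕ} (h : MixedFilling row col) :
    MixedFilling col row :=
  let ⟨lev, hmono, hcard, hs⟩ := h
  ⟨lev, fun x y h1 h2 => hmono x y h2 h1, hcard, fun v => (hs v).symm⟩

open Finset Equiv in
/-- Fillings by strips of the sizes `1, …, m` pair nontrivially at labellings with sums below `m`. -/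
theorem strongPair_of_mixedFilling {m : ℕ} {row col : Stair m → ℕ} (hT : IsTableau row col)
    (h : MixedFilling row col) : ∃ a b a₂ b₂ : Perm (Stair m),
      (∀ y, (stairRow m (a y) : ℕ) + stairRow m (a₂ y) < m) ∧
        ∑ g, youngFun row col g * (tabInt m (a * g * b) * tabInt m (a₂ * g * b₂)) ≠ 0 :=
  strongPair_conj_of_mixedFilling hT.swap h.swap

open Finset Equiv in
/-- Fillings by strips of the sizes `1, …, m` pair nontrivially with the square. -/
theorem pairNonzero_of_mixedFilling {m : ℕ} {row col : Stair m → ℕ} (hT : IsTableau row col)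
    (h : MixedFilling row col) : PairNonzero row col := by
  obtain ⟨a, b, a₂, b₂, -, hne⟩ := strongPair_of_mixedFilling hT h
  exact ⟨a, b, a₂, b₂, hne⟩

end Vale.Agent.P197.Saxl
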