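import Vale.Agent.P197.Saxl.Char0.Based
import Vale.Agent.P197.Saxl.Char0.Mixed

/-!
# P197, piece C: every shape has a based block filling

Every tableau has a strong pairing.  A finite lower set `S` of `ℕ × ℕ` with `j (j + 1) / 2` cells is peeled from outside.  If its first
four rows hold at least `2 j - 1` cells, these many bottoms, at most four in a column, form a level.
Otherwise the whole set is cut into strips: at most one horizontal strip of `j` cells, and then
vertical strips, as the inequalities `h k ≥ k j - k (k - 1) / 2` for the numbers `h k` of cells in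
the first `k` columns survive the removal of the ends of the `j` longest rows.
-/

namespace Vale.Agent.P197.Saxl.Cover

open Finset

/-- Closed towards the origin. -/
def Lower (S : Finset (ℕ × ℕ)) : Prop :=
  ∀ x ∈ S, ∀ y : ℕ × ℕ, y.1 ≤ x.1 → y.2 ≤ x.2 → y ∈ S

/-- Closed away from the origin inside `S`. -/
def UpperIn (S D : Finset (ℕ × ℕ)) : Prop :=
  ∀ x ∈ D, ∀ y ∈ S, x.1 ≤ y.1 → x.2 ≤ y.2 → y ∈ D

/-- A set of any smaller size closed upwards for the key. -/
theorem exists_top {α : Type} [DecidableEq α] (U : Finset α) (key : α → ℕ) {n : ℕ}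
    (hn : n ≤ U.card) (hkey : Set.InjOn key (U : Set α)) :
    ∃ D, D ⊆ U ∧ D.card = n ∧ ∀ x ∈ D, ∀ y ∈ U, key x ≤ key y → y ∈ D := by
  obtain ⟨d, hd⟩ := Nat.exists_eq_add_of_le hn
  induction d generalizing n with
  | zero => exact ⟨U, subset_rfl, by omega, fun _ _ y hy _ => hy⟩
  | succ d ih =>
    obtain ⟨D, hDU, hDc, hD⟩ := ih (n := n + 1) (by omega) (by omega)
    obtain ⟨x, hx, hmin⟩ := exists_min_image D key (card_pos.mp (by omega))
    refine ⟨D.erase x, (erase_subset _ _).trans hDU, by rw [card_erase_of_mem hx]; omega,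
      fun a ha y hy hle => mem_erase.mpr ⟨?_, hD a (mem_of_mem_erase ha) y hy hle⟩⟩
    rintro rfl
    exact ne_of_mem_erase ha (hkey (hDU (mem_of_mem_erase ha)) (hDU hx)
      (le_antisymm hle (hmin a (mem_of_mem_erase ha))))

variable {S : Finset (ℕ × ℕ)}

/-- A bound above all coordinates. -/
def bnd (S : Finset (ℕ × ℕ)) : ℕ := S.sup Prod.fst + 1

/-- Cells ordered by columns, then rows. -/
def key (S : Finset (ℕ × ℕ)) (x : ℕ × ℕ) : ℕ := x.2 * bnd S + x.1

theorem fst_lt_bnd {x : ℕ × ℕ} (hx : x ∈ S) : x.1 < bnd S :=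
  Nat.lt_succ_of_le (le_sup (f := Prod.fst) hx)

theorem key_le {x y : ℕ × ℕ} (h1 : x.1 ≤ y.1) (h2 : x.2 ≤ y.2) : key S x ≤ key S y := by
  have := Nat.mul_le_mul_right (bnd S) h2
  unfold key
  omega

theorem key_lt {x y : ℕ × ℕ} (hx : x ∈ S) (h : x.2 < y.2) : key S x < key S y := by
  have := Nat.mul_le_mul_right (bnd S) (show x.2 + 1 ≤ y.2 by omega)
  have := fst_lt_bnd hx
  rw [Nat.succ_mul] at *
  unfold key
  omega

theorem key_injOn (S : Finset (ℕ × ℕ)) : Set.InjOn (key S) (S : Set (ℕ × ℕ)) := by
  intro x hx y hy h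
  rcases lt_trichotomy x.2 y.2 with h2 | h2 | h2
  · exact absurd h (key_lt hx h2).ne
  · exact Prod.ext (by unfold key at h; rw [h2] at h; omega) h2
  · exact absurd h (key_lt hy h2).ne'

/-- An upper set has upper subsets of all smaller sizes, the rightmost cells first. -/
theorem exists_sub {U : Finset (ℕ × ℕ)} (hUS : U ⊆ S) (hU : UpperIn S U) {n : ℕ}
    (hn : n ≤ U.card) : ∃ D, D ⊆ U ∧ D.card = n ∧ UpperIn S D ∧
      ∀ x ∈ D, ∀ y ∈ U, key S x ≤ key S y → y ∈ D := by
  obtain ⟨D, hDU, hDc, hD⟩ := exists_top U (key S) hn ((key_injOn S).mono (coe_subset.mpr hUS))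
  exact ⟨D, hDU, hDc,
    fun x hx y hy h1 h2 => hD x hx y (hU x (hDU hx) y hy h1 h2) (key_le h1 h2), hD⟩

theorem lower_sdiff (hS : Lower S) {D : Finset (ℕ × ℕ)} (hD : UpperIn S D) : Lower (S \ D) := by
  intro x hx y h1 h2
  obtain ⟨hx1, hx2⟩ := mem_sdiff.mp hx
  exact mem_sdiff.mpr ⟨hS x hx1 y h1 h2, fun hy => hx2 (hD y hy x hx1 h1 h2)⟩

/-- The cells with fewer than `k` cells below them. -/
def bottoms (S : Finset (ℕ × ℕ)) (k : ℕ) : Finset (ℕ × ℕ) :=
  S.filter fun x => (x.1 + k, x.2) ∉ S

/-- The last cells of the rows. -/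
def ends (S : Finset (ℕ × ℕ)) : Finset (ℕ × ℕ) := S.filter fun x => (x.1, x.2 + 1) ∉ S

theorem bottoms_upper (hS : Lower S) (k : ℕ) : UpperIn S (bottoms S k) := fun x hx y hy h1 h2 =>
  mem_filter.mpr ⟨hy, fun hm => (mem_filter.mp hx).2 (hS _ hm _ (by simp only; omega) h2)⟩

theorem ends_upper (hS : Lower S) : UpperIn S (ends S) := fun x hx y hy h1 h2 =>
  mem_filter.mpr ⟨hy, fun hm => (mem_filter.mp hx).2 (hS _ hm _ h1 (by simp only; omega))⟩

theorem bottoms_col_le (hS : Lower S) {k : ℕ} {D : Finset (ℕ × ℕ)} (hD : D ⊆ bottoms S k)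
    (c : ℕ) : (D.filter fun x => x.2 = c).card ≤ k := by
  by_contra h
  have hne : (D.filter fun x => x.2 = c).Nonempty := card_pos.mp (by omega)
  obtain ⟨z, hz, hmin⟩ := exists_min_image _ Prod.fst hne
  have hle : (D.filter fun x => x.2 = c).card ≤ (Ico z.1 (z.1 + k)).card := by
    refine card_le_card_of_injOn Prod.fst (fun x hx => ?_) ?_
    · refine mem_coe.mpr (mem_Ico.mpr ⟨hmin x hx, ?_⟩)
      by_contra hge
      exact (mem_filter.mp (hD (mem_filter.mp hz).1)).2
        (hS x (mem_filter.mp (hD (mem_filter.mp hx).1)).1 _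
          (by simp only; omega) (by simp only; rw [(mem_filter.mp hz).2, (mem_filter.mp hx).2]))
    · intro x hx y hy e
      exact Prod.ext e ((mem_filter.mp (mem_coe.mp hx)).2.trans
        (mem_filter.mp (mem_coe.mp hy)).2.symm)
  rw [Nat.card_Ico] at hle
  omega

theorem card_rows_le_bottoms (hS : Lower S) (k : ℕ) :
    (S.filter fun x => x.1 < k).card ≤ (bottoms S k).card := by
  have hex : ∀ x ∈ S, ∃ d, (x.1 + d * k, x.2) ∈ S ∧ (x.1 + (d + 1) * k, x.2) ∉ S ∨ k = 0 := by
    intro x hx
    rcases Nat.eq_zero_or_pos k with hk | hk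
    · exact ⟨0, Or.inr hk⟩
    by_contra hno
    simp only [not_exists, not_or, not_and, not_not] at hno
    have hall : ∀ d, (x.1 + d * k, x.2) ∈ S := fun d => by
      induction d with
      | zero => simpa using hx
      | succ d ih => exact (hno d).1 ih
    have h1 := fst_lt_bnd (hall (bnd S))
    have := Nat.le_mul_of_pos_right (bnd S) hk
    simp only at h1
    omega
  choose d hd using hex
  refine card_le_card_of_injOn
    (fun x => if h : x ∈ S then (x.1 + d x h * k, x.2) else x) (fun x hx => ?_) ?_
  · obtain ⟨hxS, hxk⟩ := mem_filter.mp hx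
    simp only [dif_pos hxS]
    obtain ⟨h1, h2⟩ := (hd x hxS).resolve_right (by omega)
    rw [Nat.succ_mul, ← Nat.add_assoc] at h2
    exact mem_coe.mpr (mem_filter.mpr ⟨h1, h2⟩)
  · intro x hx y hy e
    obtain ⟨hxS, hxk⟩ := mem_filter.mp hx
    obtain ⟨hyS, hyk⟩ := mem_filter.mp hy
    simp only [dif_pos hxS, dif_pos hyS, Prod.mk.injEq] at e
    refine Prod.ext ?_ e.2
    have := congrArg (· % k) e.1
    simp only [Nat.add_mul_mod_self_right, Nat.mod_eq_of_lt hxk, Nat.mod_eq_of_lt hyk] at this
    exact this

theorem ends_col_card (hS : Lower S) (k : ℕ) :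
    ((ends S).filter fun x => k ≤ x.2).card = (S.filter fun x => x.2 = k).card := by
  have hset : (S.filter fun x => x.2 = k)
      = ((ends S).filter fun x => k ≤ x.2).image fun x => (x.1, k) := by
    ext z
    simp only [mem_filter, mem_image, ends]
    constructor
    · rintro ⟨hz, hzk⟩
      obtain ⟨w, hw, hmax⟩ := exists_max_image (S.filter fun w => w.1 = z.1) Prod.snd
        ⟨z, mem_filter.mpr ⟨hz, rfl⟩⟩
      obtain ⟨hwS, hw1⟩ := mem_filter.mp hw
      refine ⟨w, ⟨⟨hwS, fun hm => ?_⟩, ?_⟩, Prod.ext hw1 hzk.symm⟩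
      · have := hmax _ (mem_filter.mpr ⟨hm, hw1⟩)
        simp only at this
        omega
      · have := hmax z (mem_filter.mpr ⟨hz, rfl⟩)
        omega
    · rintro ⟨x, ⟨⟨hx, -⟩, hxk⟩, rfl⟩
      exact ⟨hS x hx _ le_rfl hxk, rfl⟩
  rw [hset, card_image_of_injOn]
  intro x hx y hy e
  simp only [Prod.mk.injEq, and_true] at e
  have hxe := mem_filter.mp (mem_filter.mp hx).1
  have hye := mem_filter.mp (mem_filter.mp hy).1
  rcases lt_trichotomy x.2 y.2 with h | h | h
  · exact absurd (hS y hye.1 (x.1, x.2 + 1) e.le (by simp only; omega)) hxe.2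
  · exact Prod.ext e h
  · exact absurd (hS x hxe.1 (y.1, y.2 + 1) e.ge (by simp only; omega)) hye.2

theorem ends_rows (hS : Lower S) {x y : ℕ × ℕ} (hx : x ∈ ends S) (hy : y ∈ ends S)
    (e : x.1 = y.1) : x = y := by
  obtain ⟨hxS, hxe⟩ := mem_filter.mp hx
  obtain ⟨hyS, hye⟩ := mem_filter.mp hy
  rcases lt_trichotomy x.2 y.2 with h | h | h
  · exact absurd (hS y hyS (x.1, x.2 + 1) e.le (by simp only; omega)) hxe
  · exact Prod.ext e h
  · exact absurd (hS x hxS (y.1, y.2 + 1) e.ge (by simp only; omega)) hye

theorem col_succ (S : Finset (ℕ × ℕ)) (k : ℕ) : (S.filter fun x => x.2 < k + 1).card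
    = (S.filter fun x => x.2 < k).card + (S.filter fun x => x.2 = k).card := by
  rw [← card_union_of_disjoint, ← filter_or]
  · exact congrArg card (filter_congr fun x _ => by omega)
  · exact disjoint_filter.mpr fun x _ h h' => by omega

/-- A level put outside. -/
theorem extend {D : Finset (ℕ × ℕ)} (hD : D ⊆ S) (hup : UpperIn S D) {lev : ℕ × ℕ → ℕ} {v : ℕ}
    (hmono : ∀ x ∈ S \ D, ∀ y ∈ S \ D, x.1 ≤ y.1 → x.2 ≤ y.2 → lev x ≤ lev y)
    (hlt : ∀ x ∈ S \ D, lev x < v) :
    ∃ lev' : ℕ × ℕ → ℕ,
      (∀ x ∈ S, ∀ y ∈ S, x.1 ≤ y.1 → x.2 ≤ y.2 → lev' x ≤ lev' y) ∧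
        (∀ x ∈ S, lev' x ≤ v) ∧ (S.filter fun x => lev' x = v) = D ∧
          ∀ w < v, (S.filter fun x => lev' x = w) = (S \ D).filter fun x => lev x = w := by
  refine ⟨fun x => if x ∈ D then v else lev x, fun x hx y hy h1 h2 => ?_, fun x hx => ?_, ?_,
    fun w hw => ?_⟩
  · by_cases hxD : x ∈ D
    · simp [hxD, hup x hxD y hy h1 h2]
    · by_cases hyD : y ∈ D
      · simp only [hxD, hyD, if_false, if_true]
        exact (hlt x (mem_sdiff.mpr ⟨hx, hxD⟩)).le
      · simp only [hxD, hyD, if_false]
        exact hmono x (mem_sdiff.mpr ⟨hx, hxD⟩) y (mem_sdiff.mpr ⟨hy, hyD⟩) h1 h2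
  · by_cases hxD : x ∈ D
    · simp [hxD]
    · simp only [hxD, if_false]
      exact (hlt x (mem_sdiff.mpr ⟨hx, hxD⟩)).le
  · ext x
    simp only [mem_filter]
    by_cases hxD : x ∈ D
    · simp [hxD, hD hxD]
    · simp only [hxD, if_false, iff_false, not_and]
      exact fun hx => (hlt x (mem_sdiff.mpr ⟨hx, hxD⟩)).ne
  · ext x
    simp only [mem_filter, mem_sdiff]
    by_cases hxD : x ∈ D <;> simp [hxD, hw.ne']

/-- A filling by strips of the sizes `1, …, j`. -/
def Mixed (S : Finset (ℕ × ℕ)) (j : ℕ) : Prop :=
  ∃ lev : ℕ × ℕ → ℕ, (∀ x ∈ S, ∀ y ∈ S, x.1 ≤ y.1 → x.2 ≤ y.2 → lev x ≤ lev y) ∧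
    (∀ x ∈ S, lev x < j) ∧ (∀ v < j, (S.filter fun x => lev x = v).card = v + 1) ∧
      ∀ v, Set.InjOn Prod.snd (↑(S.filter fun x => lev x = v) : Set (ℕ × ℕ)) ∨
        Set.InjOn Prod.fst (↑(S.filter fun x => lev x = v) : Set (ℕ × ℕ))

theorem mixed_step {j : ℕ} {D : Finset (ℕ × ℕ)} (hD : D ⊆ S) (hup : UpperIn S D)
    (hcard : D.card = j + 1)
    (hstrip : Set.InjOn Prod.snd (D : Set (ℕ × ℕ)) ∨ Set.InjOn Prod.fst (D : Set (ℕ × ℕ)))
    (h : Mixed (S \ D) j) : Mixed S (j + 1) := by
  obtain ⟨lev, hmono, hlt, hc, hs⟩ := h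
  obtain ⟨lev', hmono', hle, hv, hw⟩ := extend hD hup hmono hlt
  refine ⟨lev', hmono', fun x hx => Nat.lt_succ_of_le (hle x hx), fun v hvj => ?_, fun v => ?_⟩
  · rcases Nat.lt_succ_iff_lt_or_eq.mp hvj with h' | rfl
    · rw [hw v h', hc v h']
    · rw [hv, hcard]
  · rcases lt_trichotomy v j with h' | rfl | h'
    · rw [hw v h']
      exact hs v
    · rw [hv]
      exact hstrip
    · refine Or.inl ?_
      intro x hx
      have := hle x (mem_filter.mp hx).1
      have := (mem_filter.mp hx).2
      omega

/-- The inequalities which vertical strips preserve. -/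
def Dom (S : Finset (ℕ × ℕ)) (j : ℕ) : Prop :=
  ∀ k ≤ j, 2 * k * j + k ≤ 2 * (S.filter fun x => x.2 < k).card + k * k

theorem mixed_of_dom : ∀ (j : ℕ) (S : Finset (ℕ × ℕ)), Lower S → 2 * S.card = j * (j + 1) →
    Dom S j → Mixed S j := by
  intro j
  induction j with
  | zero =>
    intro S _ hN _
    have hS : S = ∅ := card_eq_zero.mp (by omega)
    subst hS
    exact ⟨fun _ => 0, by simp, by simp, by simp, fun v => Or.inl (by simp)⟩
  | succ j ih =>
    intro S hS hN hdom
    have hends : j + 1 ≤ (ends S).card := by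
      have h := hdom 1 (by omega)
      have e : (ends S).card = ((ends S).filter fun x => 0 ≤ x.2).card := by simp
      rw [e, ends_col_card hS 0]
      have e' : (S.filter fun x => x.2 < 1) = S.filter fun x => x.2 = 0 :=
        filter_congr fun x _ => by omega
      rw [e'] at h
      omega
    obtain ⟨D, hDU, hDc, hup, hclosed⟩ := exists_sub (U := ends S) (filter_subset _ _) (ends_upper hS) hends
    have hDS : D ⊆ S := hDU.trans (filter_subset _ _)
    refine mixed_step hDS hup hDc
      (Or.inr fun x hx y hy e => ends_rows hS (hDU hx) (hDU hy) e)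
      (ih _ (lower_sdiff hS hup) ?_ ?_)
    · rw [card_sdiff_of_subset hDS, hDc]
      have := card_le_card hDS
      have e1 : (j + 1) * (j + 1 + 1) = j * (j + 1) + 2 * (j + 1) := by ring
      omega
    · intro k hk
      have e1 : ((S \ D).filter fun x => x.2 < k).card
          = (S.filter fun x => x.2 < k).card - (D.filter fun x => x.2 < k).card := by
        rw [← card_sdiff_of_subset (filter_subset_filter _ hDS)]
        refine congrArg card ?_
        ext x
        simp only [mem_filter, mem_sdiff]
        tauto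
      have hle : (D.filter fun x => x.2 < k).card ≤ (S.filter fun x => x.2 < k).card :=
        card_le_card (filter_subset_filter _ hDS)
      set c := (S.filter fun x => x.2 = k).card with hc
      have hcE : ((ends S).filter fun x => k ≤ x.2).card = c := ends_col_card hS k
      have hsplit := card_filter_add_card_filter_not (s := D) (fun x => x.2 < k)
      have hDsub : (D.filter fun x => ¬ x.2 < k) ⊆ (ends S).filter fun x => k ≤ x.2 := fun x hx =>
        mem_filter.mpr ⟨hDU (mem_filter.mp hx).1, not_lt.mp (mem_filter.mp hx).2⟩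
      have h0 := hdom k (by omega)
      have h1 := hdom (k + 1) (by omega)
      rw [col_succ] at h1
      rw [e1]
      by_cases hc' : j + 1 ≤ c
      · have hnone : (D.filter fun x => x.2 < k).card = 0 := by
          refine card_eq_zero.mpr (filter_eq_empty_iff.mpr fun x hx hlt => ?_)
          have hsub : insert x ((ends S).filter fun y => k ≤ y.2) ⊆ D := by
            refine insert_subset hx fun y hy => hclosed x hx y (mem_filter.mp hy).1 ?_
            exact (key_lt (hDS hx) (lt_of_lt_of_le hlt (mem_filter.mp hy).2)).le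
          have := card_le_card hsub
          rw [card_insert_of_notMem (fun hm => by have := (mem_filter.mp hm).2; omega), hcE,
            hDc] at this
          omega
        rw [hnone, Nat.sub_zero]
        nlinarith
      · have hall : (ends S).filter (fun x => k ≤ x.2) ⊆ D.filter fun x => ¬ x.2 < k := by
          intro y hy
          obtain ⟨hyE, hyk⟩ := mem_filter.mp hy
          refine mem_filter.mpr ⟨?_, not_lt.mpr hyk⟩
          by_contra hyD
          have hsub : D ⊆ ((ends S).filter fun x => k ≤ x.2).erase y := by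
            intro x hx
            refine mem_erase.mpr ⟨fun e => hyD (e ▸ hx), mem_filter.mpr ⟨hDU hx, ?_⟩⟩
            by_contra hxk
            exact hyD (hclosed x hx y hyE (key_lt (hDS hx) (by omega)).le)
          have := card_le_card hsub
          rw [card_erase_of_mem hy, hcE, hDc] at this
          omega
        have heq := le_antisymm (card_le_card hDsub) (card_le_card hall)
        rw [hcE] at heq
        have e2 : (D.filter fun x => x.2 < k).card + c = j + 1 := by omega
        have e3 : (S.filter fun x => x.2 < k).card + c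
            ≥ (D.filter fun x => x.2 < k).card + c := by omega
        have : 2 * k * j + k + 2 * (j + 1) ≤ 2 * ((S.filter fun x => x.2 < k).card + c) + k * k := by
          nlinarith
        omega

/-- The number of cells in a row. -/
def len (S : Finset (ℕ × ℕ)) (i : ℕ) : ℕ := (S.filter fun x => x.1 = i).card

theorem mem_iff_len (hS : Lower S) (i k : ℕ) : (i, k) ∈ S ↔ k < len S i := by
  constructor
  · intro h
    calc k + 1 = (range (k + 1)).card := (card_range _).symm
      _ ≤ len S i := card_le_card_of_injOn (fun c => (i, c))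
          (fun c hc => mem_coe.mpr (mem_filter.mpr ⟨hS _ h _ le_rfl
            (Nat.lt_succ_iff.mp (mem_range.mp hc)), rfl⟩))
          fun a _ b _ e => (Prod.ext_iff.mp e).2
  · intro h
    by_contra hn
    have : len S i ≤ (range k).card := by
      refine card_le_card_of_injOn Prod.snd (fun x hx => ?_) fun x hx y hy e =>
        Prod.ext ((mem_filter.mp hx).2.trans (mem_filter.mp hy).2.symm) e
      refine mem_coe.mpr (mem_range.mpr (not_le.mp fun hle => hn ?_))
      exact hS x (mem_filter.mp hx).1 _ (mem_filter.mp hx).2.ge hle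
    rw [card_range] at this
    omega

theorem len_anti (hS : Lower S) {i i' : ℕ} (h : i ≤ i') : len S i' ≤ len S i := by
  by_contra hlt
  have := (mem_iff_len hS i' (len S i)).mpr (not_le.mp hlt)
  exact lt_irrefl _ ((mem_iff_len hS i (len S i)).mp (hS _ this _ h le_rfl))

theorem card_eq_sum_len (hS : Lower S) : S.card = ∑ i ∈ range (bnd S), len S i :=
  card_eq_sum_card_fiberwise fun x hx => mem_coe.mpr (mem_range.mpr (fst_lt_bnd hx))

theorem card_out (hS : Lower S) (k i : ℕ) :
    ((S.filter fun x => k ≤ x.2).filter fun x => x.1 = i).card = len S i - k := by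
  rw [← Nat.card_Ico k (len S i)]
  refine card_nbij Prod.snd (fun x hx => ?_) (fun x hx y hy e => ?_) (fun c hc => ?_)
  · obtain ⟨⟨h1, h2⟩, h3⟩ : (x ∈ S ∧ k ≤ x.2) ∧ x.1 = i := by simpa [mem_filter] using hx
    refine mem_coe.mpr (mem_Ico.mpr ⟨h2, (mem_iff_len hS i x.2).mp ?_⟩)
    rw [← h3]
    exact h1
  · exact Prod.ext ((mem_filter.mp hx).2.trans (mem_filter.mp hy).2.symm) e
  · obtain ⟨h1, h2⟩ := mem_Ico.mp (mem_coe.mp hc)
    exact ⟨(i, c), by simp [(mem_iff_len hS i c).mpr h2, h1], rfl⟩

theorem first_four (hS : Lower S) :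
    (S.filter fun x => x.1 < 4).card = len S 0 + len S 1 + len S 2 + len S 3 := by
  rw [card_eq_sum_card_fiberwise (f := Prod.fst) (t := range 4)
    (fun x hx => mem_coe.mpr (mem_range.mpr (mem_filter.mp hx).2))]
  simp only [sum_range_succ, sum_range_zero, zero_add, filter_filter]
  congr 1
  · congr 1
    · congr 1
      · exact congrArg card (filter_congr fun x _ => by omega)
      · exact congrArg card (filter_congr fun x _ => by omega)
    · exact congrArg card (filter_congr fun x _ => by omega)
  · exact congrArg card (filter_congr fun x _ => by omega)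

/-- The inequality behind the narrow case, for columns left of the fourth row. -/
theorem narrow_arith {P M O d k u : ℤ} (hN : 2 * (P + M) = (k + u) * (k + u + 1))
    (h4 : P + d + 2 ≤ 2 * (k + u)) (hd : 2 * d + 1 ≤ k + u) (hk : 0 ≤ k) (hkd : k < d)
    (hO : O * d ≤ M * (d - k)) : 2 * (P - 3 * k + O) ≤ u * (u + 1) := by
  have hbr : 0 ≤ 2 * M + 6 * d + (k - 1) * d - 2 * (k + u) * d := by
    rcases le_or_gt (k + u) 3 with hs | hs
    · nlinarith [mul_nonneg (sub_nonneg.mpr hs) (show 0 ≤ d by omega),
        mul_nonneg hk (show 0 ≤ d by omega), sq_nonneg (2 * (k + u) - 3)]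
    · nlinarith [mul_nonneg (sub_nonneg.mpr hd) (show 0 ≤ 2 * (k + u) - 7 by omega),
        mul_nonneg hk (show 0 ≤ d by omega)]
  have hfinal : 2 * (P - 3 * k + O) * d ≤ u * (u + 1) * d := by
    nlinarith [mul_nonneg hk hbr]
  exact le_of_mul_le_mul_right hfinal (by omega)

theorem dom_of_narrow (hS : Lower S) {j : ℕ} (hN : 2 * S.card = j * (j + 1))
    (h4 : (S.filter fun x => x.1 < 4).card + 2 ≤ 2 * j ∨ j = 0) (hw : len S 0 ≤ j) : Dom S j := by
  intro k hk
  rcases h4 with h4 | rfl
  · rw [first_four hS] at h4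
    have h01 := len_anti hS (show 0 ≤ 1 by omega)
    have h12 := len_anti hS (show 1 ≤ 2 by omega)
    have h23 := len_anti hS (show 2 ≤ 3 by omega)
    set out := (S.filter fun x => k ≤ x.2).card with hout
    suffices hkey : 2 * out ≤ (j - k) * (j - k + 1) by
      have hsplit := card_filter_add_card_filter_not (s := S) (fun x => x.2 < k)
      simp only [not_lt] at hsplit
      obtain ⟨u, rfl⟩ := Nat.exists_eq_add_of_le hk
      rw [Nat.add_sub_cancel_left] at hkey
      nlinarith
    obtain ⟨u, rfl⟩ := Nat.exists_eq_add_of_le hk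
    rw [Nat.add_sub_cancel_left]
    set R := bnd S + 4 with hR
    have hsumout : out = ∑ i ∈ range R, (len S i - k) := by
      rw [hout, card_eq_sum_card_fiberwise (f := Prod.fst) (t := range R)
        (fun x hx => mem_coe.mpr (mem_range.mpr (by
          have := fst_lt_bnd (mem_filter.mp hx).1; omega)))]
      exact sum_congr rfl fun i _ => card_out hS k i
    have hsumN : S.card = ∑ i ∈ range R, len S i :=
      card_eq_sum_card_fiberwise fun x hx => mem_coe.mpr (mem_range.mpr (by
        have := fst_lt_bnd hx; omega))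
    rw [show R = 3 + (bnd S + 1) by omega, sum_range_add] at hsumout hsumN
    simp only [sum_range_succ (n := 2), sum_range_succ (n := 1), sum_range_one] at hsumout hsumN
    by_cases hd : len S 3 ≤ k
    · have hz : ∑ i ∈ range (bnd S + 1), (len S (3 + i) - k) = 0 := sum_eq_zero fun i _ => by
        have := len_anti hS (show 3 ≤ 3 + i by omega)
        omega
      rw [hz, add_zero] at hsumout
      rcases Nat.lt_or_ge u 2 with hu | hu
      · rcases Nat.lt_or_ge u 1 with hu' | hu'
        · have : u = 0 := by omega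
          subst this
          omega
        · have : u = 1 := by omega
          subst this
          omega
      · have hmul := Nat.mul_le_mul_right u hu
        by_cases hb : len S 1 ≤ k
        · nlinarith [show out ≤ u by omega]
        · have : out + 2 ≤ 2 * u := by omega
          rcases Nat.lt_or_ge u 4 with hu4 | hu4
          · interval_cases u <;> omega
          · nlinarith [Nat.mul_le_mul_right u hu4]
    · set d := len S 3 with hd'
      set M := ∑ i ∈ range (bnd S + 1), len S (3 + i) with hM
      set O := ∑ i ∈ range (bnd S + 1), (len S (3 + i) - k) with hO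
      have hkd : k ≤ d := by omega
      have hOM : O * d ≤ M * (d - k) := by
        rw [hO, hM, sum_mul, sum_mul]
        refine sum_le_sum fun i _ => ?_
        have hle : len S (3 + i) ≤ d := len_anti hS (by omega)
        rcases Nat.le_total (len S (3 + i)) k with h | h
        · rw [Nat.sub_eq_zero_of_le h, Nat.zero_mul]
          exact Nat.zero_le _
        · obtain ⟨e, he⟩ := Nat.exists_eq_add_of_le h
          obtain ⟨f, hf⟩ := Nat.exists_eq_add_of_le hkd
          rw [he, hf, Nat.add_sub_cancel_left, Nat.add_sub_cancel_left]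
          have := Nat.mul_le_mul_left k (show e ≤ f by omega)
          nlinarith
      have hsub : ((d - k : ℕ) : ℤ) = (d : ℤ) - k := by omega
      have hOM' : (O : ℤ) * d ≤ (M : ℤ) * ((d : ℤ) - k) := by
        rw [← hsub]
        exact_mod_cast hOM
      have hout' : (out : ℤ) = ((len S 0 + len S 1 + len S 2 : ℕ) : ℤ) - 3 * (k : ℤ) + O := by
        omega
      have hN' : 2 * (((len S 0 + len S 1 + len S 2 : ℕ) : ℤ) + M)
          = ((k : ℤ) + u) * ((k : ℤ) + u + 1) := by
        rw [hsumN] at hN
        exact_mod_cast hN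
      have := narrow_arith (P := ((len S 0 + len S 1 + len S 2 : ℕ) : ℤ)) (d := (d : ℤ))
        (k := (k : ℤ)) (u := (u : ℤ)) hN' (by omega) (by omega) (by omega) (by omega) hOM'
      rw [← hout'] at this
      exact_mod_cast this
  · have : k = 0 := by omega
    subst this
    simp

/-- Sets without `2 j - 1` cells in the first four rows are cut into strips. -/
theorem mixed_of_short (hS : Lower S) {j : ℕ} (hN : 2 * S.card = j * (j + 1))
    (h4 : (S.filter fun x => x.1 < 4).card + 2 ≤ 2 * j ∨ j = 0) : Mixed S j := by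
  by_cases hw : len S 0 ≤ j
  · exact mixed_of_dom j S hS hN (dom_of_narrow hS hN h4 hw)
  rcases h4 with h4 | rfl
  swap
  · exact mixed_of_dom 0 S hS hN (fun k hk => by simp [Nat.le_zero.mp hk])
  obtain ⟨i, rfl⟩ := Nat.exists_eq_add_of_le' (show 1 ≤ j by omega)
  rw [first_four hS] at h4
  have h1 : len S 1 + 2 < len S 0 := by omega
  have hB : len S 0 ≤ (bottoms S 1).card := by
    refine le_trans (le_of_eq ?_) (card_rows_le_bottoms hS 1)
    exact congrArg card (filter_congr fun x _ => by omega)
  obtain ⟨D, hDU, hDc, hup, hclosed⟩ := exists_sub (U := bottoms S 1) (filter_subset _ _) (bottoms_upper hS 1)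
    (n := i + 1) (by omega)
  have hDS : D ⊆ S := hDU.trans (filter_subset _ _)
  have hinj : Set.InjOn Prod.snd (D : Set (ℕ × ℕ)) := fun x hx y hy e => by
    by_contra hne
    have h := bottoms_col_le hS hDU x.2
    have : ({x, y} : Finset (ℕ × ℕ)) ⊆ D.filter fun z => z.2 = x.2 := by
      intro z hz
      rcases mem_insert.mp hz with rfl | hz
      · exact mem_filter.mpr ⟨hx, rfl⟩
      · rw [mem_singleton.mp hz]
        exact mem_filter.mpr ⟨hy, e.symm⟩
    have := card_le_card this
    rw [card_pair hne] at this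
    omega
  -- the last cells of the first row are taken
  have hright : ∀ c, len S 1 ≤ c → len S 0 ≤ c + (i + 1) → c < len S 0 → (0, c) ∈ D := by
    intro c hc1 hc2 hc3
    by_contra hn
    have hm : (0, c) ∈ bottoms S 1 := mem_filter.mpr ⟨(mem_iff_len hS 0 c).mpr hc3, fun hm => by
      have := (mem_iff_len hS 1 c).mp hm
      omega⟩
    have : D.card ≤ (Ico (c + 1) (len S 0)).card := by
      refine card_le_card_of_injOn Prod.snd (fun x hx => ?_) hinj
      refine mem_coe.mpr (mem_Ico.mpr ⟨?_, ?_⟩)
      · by_contra hle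
        rcases lt_or_eq_of_le (show x.2 ≤ c by omega) with hlt | heq
        · exact hn (hclosed x hx _ hm (key_lt (hDS hx) hlt).le)
        · refine hn ?_
          rcases Nat.eq_zero_or_pos x.1 with h0 | h0
          · rwa [show ((0 : ℕ), c) = x from Prod.ext h0.symm heq.symm]
          · have := (mem_iff_len hS 1 c).mp (hS x (hDS hx) _ h0 heq.ge)
            omega
      · exact (mem_iff_len hS 0 x.2).mp (hS x (hDS hx) _ (Nat.zero_le _) le_rfl)
    rw [hDc, Nat.card_Ico] at this
    omega
  refine mixed_step hDS hup hDc (Or.inl hinj) ?_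
  have hlow := lower_sdiff hS hup
  have hN' : 2 * (S \ D).card = i * (i + 1) := by
    rw [card_sdiff_of_subset hDS, hDc]
    have := card_le_card hDS
    have e1 : (i + 1) * (i + 1 + 1) = i * (i + 1) + 2 * (i + 1) := by ring
    omega
  refine mixed_of_dom i _ hlow hN' (dom_of_narrow hlow hN' (Or.inl ?_) ?_)
  · have h2 : ({(0, len S 0 - 1), (0, len S 0 - 2)} : Finset (ℕ × ℕ)) ⊆ D := by
      intro x hx
      rcases mem_insert.mp hx with rfl | hx
      · exact hright _ (by omega) (by omega) (by omega)
      · rw [mem_singleton.mp hx]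
        exact hright _ (by omega) (by omega) (by omega)
    have h3 : ({(0, len S 0 - 1), (0, len S 0 - 2)} : Finset (ℕ × ℕ))
        ∪ (S \ D).filter (fun x => x.1 < 4) ⊆ S.filter fun x => x.1 < 4 := by
      intro x hx
      rcases mem_union.mp hx with hx | hx
      · refine mem_filter.mpr ⟨hDS (h2 hx), ?_⟩
        rcases mem_insert.mp hx with rfl | hx
        · exact Nat.succ_pos _
        · rw [mem_singleton.mp hx]
          exact Nat.succ_pos _
      · exact mem_filter.mpr ⟨(mem_sdiff.mp (mem_filter.mp hx).1).1, (mem_filter.mp hx).2⟩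
    have h4' := card_le_card h3
    rw [card_union_of_disjoint (disjoint_left.mpr fun x hx hx' =>
        (mem_sdiff.mp (mem_filter.mp hx').1).2 (h2 hx)),
      card_pair (fun e => by simp only [Prod.mk.injEq, true_and] at e; omega),
      first_four hS] at h4'
    omega
  · by_contra hgt
    have hm := (mem_iff_len hlow 0 i).mpr (not_le.mp hgt)
    obtain ⟨hmS, hmD⟩ := mem_sdiff.mp hm
    exact hmD (hright i (by omega) (by omega) ((mem_iff_len hS 0 i).mp hmS))

/-- The outer level: four rows full enough give a level of `2 j - 1` cells, four in a column. -/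
theorem exists_outer (hS : Lower S) {j : ℕ}
    (h4 : ¬((S.filter fun x => x.1 < 4).card + 2 ≤ 2 * j ∨ j = 0)) :
    ∃ D, D ⊆ S ∧ D.card = 2 * j - 1 ∧ UpperIn S D ∧
      ∀ c, (D.filter fun x => x.2 = c).card ≤ 4 := by
  rw [not_or] at h4
  obtain ⟨D, hDU, hDc, hup, -⟩ := exists_sub (U := bottoms S 4) (filter_subset _ _) (bottoms_upper hS 4)
    (n := 2 * j - 1) (by have := card_rows_le_bottoms hS 4; omega)
  exact ⟨D, hDU.trans (filter_subset _ _), hDc, hup, bottoms_col_le hS hDU⟩

theorem card_stair (m : ℕ) : 2 * Fintype.card (Stair m) = m * (m + 1) := by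
  let e : Stair m ≃ Σ i : Fin m, Fin (m - i) :=
    { toFun := fun x => ⟨x.1.1, ⟨x.1.2, by have := x.2; omega⟩⟩
      invFun := fun p => ⟨(p.1, ⟨p.2, by omega⟩), show (p.1 : ℕ) + p.2 < m by omega⟩
      left_inv := fun _ => rfl
      right_inv := fun _ => rfl }
  rw [Fintype.card_congr e, Fintype.card_sigma]
  simp only [Fintype.card_fin]
  rw [Fin.sum_univ_eq_sum_range (fun i => m - i) m]
  clear e
  induction m with
  | zero => simp
  | succ m ih =>
    rw [sum_range_succ']
    simp only [Nat.succ_sub_succ, Nat.sub_zero]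
    rw [Nat.mul_add, ih]
    ring

/-- The cells of a tableau. -/
def cells {m : ℕ} (row col : Stair m → ℕ) : Finset (ℕ × ℕ) :=
  univ.image fun x => (row x, col x)

theorem mem_cells {m : ℕ} (row col : Stair m → ℕ) (x : Stair m) : (row x, col x) ∈ cells row col :=
  mem_image_of_mem _ (mem_univ x)

theorem card_cells_filter {m : ℕ} {row col : Stair m → ℕ} (hT : IsTableau row col)
    (P : ℕ × ℕ → Prop) [DecidablePred P] :
    ((cells row col).filter P).card
      = ((univ : Finset (Stair m)).filter fun x => P (row x, col x)).card := by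
  rw [cells, filter_image]
  exact card_image_of_injective _ hT.inj

theorem lower_cells {m : ℕ} {row col : Stair m → ℕ} (hT : IsTableau row col) :
    Lower (cells row col) := by
  rintro _ hx ⟨i, k⟩ h1 h2
  obtain ⟨x, -, rfl⟩ := mem_image.mp hx
  obtain ⟨y, hy1, hy2⟩ := hT.down x i k h1 h2
  rw [show (i, k) = (row y, col y) by rw [hy1, hy2]]
  exact mem_cells row col y

theorem card_cells {m : ℕ} {row col : Stair m → ℕ} (hT : IsTableau row col) :
    2 * (cells row col).card = m * (m + 1) := by
  rw [cells, card_image_of_injective _ hT.inj, card_univ, card_stair]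

theorem mixedFilling_of_mixed {m : ℕ} {row col : Stair m → ℕ} (hT : IsTableau row col)
    (h : Mixed (cells row col) m) : MixedFilling row col := by
  obtain ⟨lev, hmono, hlt, hc, hs⟩ := h
  refine ⟨fun x => lev (row x, col x), fun x y h1 h2 =>
    hmono _ (mem_cells row col x) _ (mem_cells row col y) h1 h2, fun v => ?_, fun v => ?_⟩
  · by_cases hv : v < m
    · rw [if_pos hv, ← hc v hv, card_cells_filter hT]
      rfl
    · rw [if_neg hv]
      refine card_eq_zero.mpr (eq_empty_of_forall_notMem fun x hx => ?_)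
      have := hlt _ (mem_cells row col x)
      have := mem_block.mp hx
      omega
  · have key : ∀ x ∈ block (fun x => lev (row x, col x)) v,
        (row x, col x) ∈ (cells row col).filter fun z => lev z = v := fun x hx =>
      mem_filter.mpr ⟨mem_cells row col x, (mem_filter.mp hx).2⟩
    refine (hs v).imp (fun h x hx y hy e => hT.inj ?_) fun h x hx y hy e => hT.inj ?_
    · exact h (mem_coe.mpr (key x hx)) (mem_coe.mpr (key y hy)) e
    · exact h (mem_coe.mpr (key x hx)) (mem_coe.mpr (key y hy)) e

/-- **C with A and B′**: every tableau has a strong pairing. -/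
theorem strongPair_all : ∀ (m : ℕ) (row col : Stair m → ℕ), IsTableau row col →
    StrongPair row col := by
  classical
  intro m
  induction m using Nat.strong_induction_on with
  | _ m ih =>
    intro row col hT
    have hS := lower_cells hT
    by_cases h4 : ((cells row col).filter fun x => x.1 < 4).card + 2 ≤ 2 * m ∨ m = 0
    · exact strongPair_of_mixedFilling hT
        (mixedFilling_of_mixed hT (mixed_of_short hS (card_cells hT) h4))
    obtain ⟨D, hDS, hDc, hup, hD4⟩ := exists_outer hS h4
    rw [not_or] at h4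
    rcases Nat.lt_or_ge m 2 with hm | hm
    · -- one cell
      obtain rfl : m = 1 := by omega
      refine strongPair_of_mixedFilling hT ⟨fun _ => 0, fun _ _ _ _ => le_rfl, fun v => ?_,
        fun v => Or.inl fun x _ y _ _ => ?_⟩
      · rcases v with _ | v
        · rw [if_pos (by omega), block, filter_true_of_mem fun _ _ => rfl, card_univ]
          have := card_stair 1
          omega
        · rw [if_neg (by omega)]
          exact card_eq_zero.mpr (eq_empty_of_forall_notMem fun x hx => by
            have := mem_block.mp hx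
            omega)
      · have := card_stair 1
        exact (Fintype.card_le_one_iff.mp (by omega)) x y
    let lev : Stair m → ℕ := fun x => if (row x, col x) ∈ D then 1 else 0
    have hlev1 : ∀ x, lev x = 1 ↔ (row x, col x) ∈ D := fun x => by
      simp only [lev]
      split_ifs with h <;> simp [h]
    have hlev0 : ∀ x, lev x = 0 ↔ (row x, col x) ∉ D := fun x => by
      simp only [lev]
      split_ifs with h <;> simp [h]
    have hone : (block lev 1).card = 2 * m - 1 := by
      rw [← hDc, show D = (cells row col).filter (fun z => z ∈ D) by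
        ext z
        simp only [mem_filter]
        exact ⟨fun h => ⟨hDS h, h⟩, fun h => h.2⟩, card_cells_filter hT]
      refine congrArg card (Finset.ext fun x => ?_)
      simp only [mem_block, mem_filter, mem_univ, true_and, hlev1]
    have hzero : Fintype.card {x // lev x = 0} = Fintype.card (Stair (m - 2 * 1)) := by
      have h1 := card_filter_add_card_filter_not (s := (univ : Finset (Stair m))) (fun x => lev x = 1)
      have h2 : ((univ : Finset (Stair m)).filter fun x => ¬ lev x = 1).card
          = Fintype.card {x // lev x = 0} := by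
        rw [Fintype.card_subtype]
        refine congrArg card (filter_congr fun x _ => ?_)
        rw [hlev1, hlev0]
      have h3 : ((univ : Finset (Stair m)).filter fun x => lev x = 1).card = 2 * m - 1 := hone
      rw [card_univ] at h1
      have h5 := card_stair m
      have h6 := card_stair (m - 2 * 1)
      obtain ⟨i, rfl⟩ := Nat.exists_eq_add_of_le' hm
      rw [show i + 2 - 2 * 1 = i by omega] at h6 ⊢
      have e1 : (i + 2) * (i + 2 + 1) = i * (i + 1) + 2 * (2 * i + 3) := by ring
      omega
    let e₀ : Stair (m - 2 * 1) ≃ {x // lev x = 0} := Fintype.equivOfCardEq hzero.symm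
    refine strongPair_of_step hT lev e₀ (fun x => by simp only [lev]; split_ifs <;> omega)
      (fun x y h1 h2 => ?_) (fun t ht => ?_) (fun t ht j => ?_) (ih _ (by omega) _ _ ⟨?_, ?_⟩)
    · simp only [lev]
      by_cases hx : (row x, col x) ∈ D
      · rw [if_pos hx, if_pos (hup _ hx _ (mem_cells row col y) h1 h2)]
      · rw [if_neg hx]
        exact Nat.zero_le _
    · obtain rfl : t = 0 := by omega
      rw [hone]
      omega
    · obtain rfl : t = 0 := by omega
      refine (card_le_card_of_injOn (fun x => (row x, col x)) (fun x hx => ?_)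
        (hT.inj.injOn)).trans (hD4 j)
      obtain ⟨h1, h2⟩ := mem_filter.mp hx
      exact mem_coe.mpr (mem_filter.mpr ⟨(hlev1 x).mp (mem_block.mp h1), h2⟩)
    · intro x y e
      exact e₀.injective (Subtype.ext (hT.inj e))
    · intro x i k hi hk
      obtain ⟨y, hy1, hy2⟩ := hT.down (e₀ x).1 i k hi hk
      have hy0 : lev y = 0 := by
        refine (hlev0 y).mpr fun hy => (hlev0 _).mp (e₀ x).2 ?_
        exact hup _ hy _ (mem_cells row col _) (by simp only; omega) (by simp only; omega)
      exact ⟨e₀.symm ⟨y, hy0⟩, by simp only [Equiv.apply_symm_apply]; exact hy1,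
        by simp only [Equiv.apply_symm_apply]; exact hy2⟩

/-- Every tableau pairs nontrivially with the square. -/
theorem pairNonzero_all (m : ℕ) (row col : Stair m → ℕ) (hT : IsTableau row col) :
    PairNonzero row col :=
  (strongPair_all m row col hT).pairNonzero

end Vale.Agent.P197.Saxl.Cover
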