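import Vale.Agent.P197.Saxl.Parity

/-!
# P197, characteristic zero: the interface

`PairNonzero row col` says that the Young symmetrizer of the tableau `(row, col)` pairs nontrivially
with a product of two translated coefficients of the staircase: that shape occurs in the square.
`BlockFilling` are the fillings by pairs of levels with at most four cells in each column,
`MixedFilling` the fillings by strips of the sizes `1, …, m`, each horizontal or vertical.
-/

namespace Vale.Agent.P197.Saxl

open Finset Equiv

variable {α : Type} [Fintype α] [DecidableEq α]

/-- The Young symmetrizer `∑ sgn c · c r` of a tableau, as a function on permutations. -/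
def youngFun (row col : α → ℕ) (g : Perm α) : ℤ :=
  ∑ c : stab col, ∑ r : stab row,
    if (c : Perm α) * r = g then (Perm.sign (c : Perm α) : ℤ) else 0

/-- Some product of two translated coefficients of the staircase is not orthogonal to the Young
symmetrizer of the tableau. -/
def PairNonzero {m : ℕ} (row col : Stair m → ℕ) : Prop :=
  ∃ a b a₂ b₂ : Perm (Stair m),
    ∑ g, youngFun row col g * (tabInt m (a * g * b) * tabInt m (a₂ * g * b₂)) ≠ 0

/-- The levels increase weakly along rows and down columns. -/
def Monotone2 (row col lev : α → ℕ) : Prop :=
  ∀ x y, row x ≤ row y → col x ≤ col y → lev x ≤ lev y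

/-- Levels `t = 0, 1, …`: level `t` has `(m - 2 t) + (m - 2 t - 1)` cells, at most four in a
column. -/
def BlockFilling {m : ℕ} (row col : Stair m → ℕ) : Prop :=
  ∃ lev : Stair m → ℕ, Monotone2 row col lev ∧
    (∀ t, (block lev t).card = (m - 2 * t) + (m - 2 * t - 1)) ∧
      ∀ t j, ((block lev t).filter fun x => col x = j).card ≤ 4

/-- Level `v < m` has `v + 1` cells and is a horizontal or a vertical strip. -/
def MixedFilling {m : ℕ} (row col : Stair m → ℕ) : Prop :=
  ∃ lev : Stair m → ℕ, Monotone2 row col lev ∧
    (∀ v, (block lev v).card = if v < m then v + 1 else 0) ∧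
      ∀ v, Set.InjOn col (block lev v : Set (Stair m)) ∨
        Set.InjOn row (block lev v : Set (Stair m))

end Vale.Agent.P197.Saxl
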