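import Vale.Agent.P197.Saxl.Char0.Block
import Vale.Agent.P197.Saxl.Char0.Conj

/-!
# P197, characteristic zero: gluing a smaller staircase

The last columns of a staircase form a smaller one and a coefficient respecting them factorises.
`StrongPair` is `PairNonzero` with a witness whose left translates keep the sums of the two row
labels below the staircase size, as needed to put pairs of levels on top; a column has one.
-/

namespace Vale.Agent.P197.Saxl

open Finset Equiv

variable {m : ℕ}

/-- Pairing with small label sums. -/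
def StrongPair {m : ℕ} (row col : Stair m → ℕ) : Prop :=
  ∃ a b a₂ b₂ : Perm (Stair m), (∀ y, (stairRow m (a y) : ℕ) + stairRow m (a₂ y) < m) ∧
    ∑ g, youngFun row col g * (tabInt m (a * g * b) * tabInt m (a₂ * g * b₂)) ≠ 0

theorem StrongPair.pairNonzero {row col : Stair m → ℕ} (h : StrongPair row col) :
    PairNonzero row col := by
  obtain ⟨a, b, a₂, b₂, -, h⟩ := h
  exact ⟨a, b, a₂, b₂, h⟩

/-- A single column. -/
theorem strongPair_column {row col : Stair m → ℕ} (hrow : Function.Injective row)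
    (hcol : ∀ x y, col x = col y) : StrongPair row col := by
  have hY : ∀ g, youngFun row col g = (Perm.sign g : ℤ) := fun g => by
    have hone : ∀ r : stab row, (r : Perm (Stair m)) = 1 := fun r =>
      Equiv.ext fun x => hrow (r.2 x)
    rw [youngFun, sum_eq_single (⟨g, fun x => hcol _ _⟩ : stab col)]
    · rw [sum_eq_single (1 : stab row)]
      · simp
      · exact fun r _ hr => absurd (Subtype.ext (hone r)) hr
      · exact fun h => absurd (mem_univ _) h
    · intro c _ hc
      refine sum_eq_zero fun r _ => if_neg fun h => hc (Subtype.ext ?_)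
      rwa [hone r, mul_one] at h
    · exact fun h => absurd (mem_univ _) h
  refine ⟨1, 1, transpose m, transpose m, fun y => ?_, ?_⟩
  · exact y.2
  · rw [show (∑ g, youngFun row col g * (tabInt m (1 * g * 1) *
        tabInt m (transpose m * g * transpose m))) = sqConv m 1 from
      sum_congr rfl fun g _ => by
        rw [hY, one_mul, mul_one, mul_one (g⁻¹), tabInt_inv g]
        ring]
    exact sqConv_one_ne_zero m

/-- The columns from `2 s` on form a staircase. -/
def upperEquiv (m s : ℕ) : Stair (m - 2 * s) ≃ {w : Stair m // 2 * s ≤ (stairCol m w : ℕ)} where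
  toFun y := ⟨⟨(⟨y.1.1, by have := y.1.1.isLt; omega⟩,
      ⟨2 * s + y.1.2, by have := y.1.2.isLt; omega⟩), by
        have := y.2
        show (y.1.1 : ℕ) + (2 * s + y.1.2) < m
        omega⟩, Nat.le_add_right (2 * s) (y.1.2 : ℕ)⟩
  invFun w := ⟨(⟨w.1.1.1, by have := w.1.2; have : 2 * s ≤ (w.1.1.2 : ℕ) := w.2; omega⟩,
      ⟨(w.1.1.2 : ℕ) - 2 * s, by have := w.1.2; have : 2 * s ≤ (w.1.1.2 : ℕ) := w.2; omega⟩), by
        have := w.1.2
        have : 2 * s ≤ (w.1.1.2 : ℕ) := w.2
        show (w.1.1.1 : ℕ) + ((w.1.1.2 : ℕ) - 2 * s) < m - 2 * s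
        omega⟩
  left_inv y := Subtype.ext (Prod.ext rfl (Fin.ext (Nat.add_sub_cancel_left (2 * s) _)))
  right_inv w := Subtype.ext (Subtype.ext (Prod.ext rfl (Fin.ext (Nat.add_sub_cancel' w.2))))

theorem upperEquiv_row (s : ℕ) (y : Stair (m - 2 * s)) :
    (stairRow m (upperEquiv m s y).1 : ℕ) = stairRow (m - 2 * s) y := rfl

theorem upperEquiv_col (s : ℕ) (y : Stair (m - 2 * s)) :
    (stairCol m (upperEquiv m s y).1 : ℕ) = 2 * s + stairCol (m - 2 * s) y := rfl

/-- A coefficient respecting the last columns factorises. -/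
theorem tabInt_split {s : ℕ} {h φ : Perm (Stair m)} {h' : Perm (Stair (m - 2 * s))}
    (hh : ∀ y, h (upperEquiv m s y).1 = (upperEquiv m s (h' y)).1)
    (hr : ∀ x, (stairCol m x : ℕ) < 2 * s → stairRow m (φ x) = stairRow m (h x))
    (hc : ∀ x, stairCol m (φ x) = stairCol m x)
    (hfix : ∀ y, φ (upperEquiv m s y).1 = (upperEquiv m s y).1) :
    tabInt m h = (Perm.sign φ : ℤ) * tabInt (m - 2 * s) h' := by
  have hsurj : ∀ x, 2 * s ≤ (stairCol m x : ℕ) → ∃ y, x = (upperEquiv m s y).1 := fun x hx =>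
    ⟨(upperEquiv m s).symm ⟨x, hx⟩, by rw [apply_symm_apply]⟩
  by_cases h0 : tabInt (m - 2 * s) h' = 0
  · rw [h0, mul_zero]
    by_contra hne
    obtain ⟨ψ, hψ⟩ := exists_of_tabInt_ne hne
    have hiff : ∀ x, 2 * s ≤ (stairCol m (ψ x) : ℕ) ↔ 2 * s ≤ (stairCol m x : ℕ) := fun x => by
      rw [(hψ x).2]
    let ψ' : Perm (Stair (m - 2 * s)) := (upperEquiv m s).symm.permCongr (ψ.subtypePerm hiff)
    have hψ' : ∀ y, (upperEquiv m s (ψ' y)).1 = ψ (upperEquiv m s y).1 := fun y => by
      simp [ψ', Equiv.permCongr_apply]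
    have e : tabInt (m - 2 * s) h' = (Perm.sign ψ' : ℤ) := by
      refine tabInt_eq_sign (fun y => Fin.ext ?_) (fun y => Fin.ext ?_)
      · rw [← upperEquiv_row, ← upperEquiv_row, hψ', (hψ _).1, hh]
      · have := congrArg Fin.val (hψ (upperEquiv m s y).1).2
        rw [← hψ', upperEquiv_col, upperEquiv_col] at this
        omega
    rw [h0] at e
    exact Units.ne_zero _ e.symm
  · obtain ⟨ψ, hψ⟩ := exists_of_tabInt_ne h0
    rw [tabInt_eq_sign (fun y => (hψ y).1) (fun y => (hψ y).2),
      tabInt_eq_sign (φ := φ * ψ.extendDomain (upperEquiv m s)) (fun x => ?_) (fun x => ?_)]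
    · rw [Perm.sign_mul, Units.val_mul, Perm.sign_extendDomain]
    · by_cases hx : 2 * s ≤ (stairCol m x : ℕ)
      · obtain ⟨y, rfl⟩ := hsurj x hx
        rw [Perm.mul_apply, Perm.extendDomain_apply_image, hfix, hh]
        refine Fin.ext ?_
        rw [upperEquiv_row, upperEquiv_row, (hψ y).1]
      · rw [Perm.mul_apply, Perm.extendDomain_apply_not_subtype ψ (upperEquiv m s) hx, hr x (by omega)]
    · by_cases hx : 2 * s ≤ (stairCol m x : ℕ)
      · obtain ⟨y, rfl⟩ := hsurj x hx
        rw [Perm.mul_apply, Perm.extendDomain_apply_image, hfix]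
        refine Fin.ext ?_
        rw [upperEquiv_col, upperEquiv_col, (hψ y).2]
      · rw [Perm.mul_apply, Perm.extendDomain_apply_not_subtype ψ (upperEquiv m s) hx, hc]

end Vale.Agent.P197.Saxl
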