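import Vale.Agent.P197.Saxl.Char0.Glue

/-!
# P197, characteristic zero: pairs of levels above a smaller staircase

A layout whose levels `t ≥ s` are identified with the staircase of size `m - 2 s`.  The terms of a
bit assignment on the levels below `s`, glued to a witness on the smaller staircase, vanish outside
the permutations keeping these levels and factorise on them.
-/

namespace Vale.Agent.P197.Saxl

open Finset Equiv

variable {m : ℕ}

namespace Layout

variable (L : Layout m)

theorem bitA_zero (x : Stair m) : L.bitA zeroSeq x = L.pos x % 2 := by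
  have h : L.pre zeroSeq x = 0 := sum_eq_zero fun _ _ => rfl
  rw [bitA, inBit, h]
  simp [zeroSeq]

/-- The bits only depend on the symbols of the level. -/
theorem bits_congr {F G : Stair m → ℕ × ℕ} {x : Stair m}
    (h : ∀ z, L.lev z = L.lev x → F z = G z) :
    L.bitA F x = L.bitA G x ∧ L.bitB F x = L.bitB G x := by
  have hp : L.pre F x = L.pre G x := sum_congr rfl fun z hz => by rw [h z (mem_filter.mp hz).2.1]
  simp only [bitA, bitB, inBit, hp, h x rfl, and_self]

variable {s : ℕ}

/-- The permutation keeps the levels below `s`. -/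
def Keeps (s : ℕ) (g : Perm (Stair m)) : Prop := ∀ t, t < s → ∀ y, L.lev (g y) = t ↔ L.lev y = t

/-- The levels below `s` are forced. -/
theorem keeps_forced {g A B φA φB : Perm (Stair m)}
    (hA : ∀ z, L.lev z < s → (stairRow m (A z) : ℕ) = L.rlabel z)
    (hB : ∀ z, L.lev z < s → (stairRow m (B z) : ℕ) = L.clabel z)
    (hval : ∀ z, s ≤ L.lev z → (stairRow m (A z) : ℕ) + stairRow m (B z) < m - 2 * s)
    (hAr : ∀ y, (stairRow m (φA y) : ℕ) = stairRow m (A (g y)))
    (hBr : ∀ y, (stairRow m (φB y) : ℕ) = stairRow m (B (g y)))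
    (hAc : ∀ t, t < s → ∀ y, (stairCol m (φA y) : ℕ) / 2 = t ↔ L.lev y = t)
    (hBc : ∀ t, t < s → ∀ y, (stairCol m (φB y) : ℕ) / 2 = t ↔ L.lev y = t) : L.Keeps s g := by
  have key : ∀ (φ : Perm (Stair m)) (t : ℕ),
      (∀ y, (stairCol m (φ y) : ℕ) / 2 = t ↔ L.lev y = t) →
      ∑ y ∈ block L.lev t, (stairRow m (φ y) : ℕ)
        = ∑ w ∈ univ.filter (fun w => (stairCol m w : ℕ) / 2 = t), (stairRow m w : ℕ) :=
    fun φ t hc => sum_equiv φ (fun y => by simp [mem_block, hc]) (fun y _ => rfl)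
  have hbase : ∀ t y, (stairCol m (L.baseA y) : ℕ) / 2 = t ↔ L.lev y = t := fun t y => by
    show (2 * L.lev y + L.bitA zeroSeq y) / 2 = t ↔ _
    have := L.bitA_lt zeroSeq y
    omega
  have hbaseB : ∀ t y, (stairCol m (L.baseB y) : ℕ) / 2 = t ↔ L.lev y = t := fun t y => by
    show (2 * L.lev y + L.bitB zeroSeq y) / 2 = t ↔ _
    have := L.bitB_lt zeroSeq y
    omega
  intro t
  induction t using Nat.strong_induction_on with
  | _ t ih =>
    intro hts
    have hge : ∀ y, t ≤ L.lev y → t ≤ L.lev (g y) := fun y hy => by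
      by_contra hlt
      have := (ih _ (Nat.not_le.mp hlt) (by omega) y).mp rfl
      omega
    let S := (block L.lev t).map g.toEmbedding
    have hsum : ∑ z ∈ S, ((stairRow m (A z) : ℕ) + stairRow m (B z))
        = ∑ z ∈ block L.lev t, ((stairRow m (A z) : ℕ) + stairRow m (B z)) := by
      rw [sum_map, sum_add_distrib, sum_add_distrib]
      congr 1
      · calc _ = ∑ y ∈ block L.lev t, (stairRow m (φA y) : ℕ) :=
              sum_congr rfl fun y _ => (hAr y).symm
          _ = _ := key φA t (hAc t hts)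
          _ = ∑ y ∈ block L.lev t, (stairRow m (L.baseA y) : ℕ) := (key L.baseA t (hbase t)).symm
          _ = _ := sum_congr rfl fun y hy => by
              rw [hA y (by rw [mem_block.mp hy]; exact hts), L.baseA_row]
      · calc _ = ∑ y ∈ block L.lev t, (stairRow m (φB y) : ℕ) :=
              sum_congr rfl fun y _ => (hBr y).symm
          _ = _ := key φB t (hBc t hts)
          _ = ∑ y ∈ block L.lev t, (stairRow m (L.baseB y) : ℕ) := (key L.baseB t (hbaseB t)).symm
          _ = _ := sum_congr rfl fun y hy => by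
              rw [hB y (by rw [mem_block.mp hy]; exact hts), L.baseB_row]
    have hSeq : S = block L.lev t := by
      by_contra hne
      have hcard : S.card = (block L.lev t).card := card_map _
      have h1 : (S \ block L.lev t).card = (block L.lev t \ S).card := card_sdiff_comm hcard
      have h2 : (S \ block L.lev t).Nonempty := by
        rw [sdiff_nonempty]
        exact fun hsub => hne (eq_of_subset_of_card_le hsub hcard.ge)
      have h3 := sum_sdiff_eq_sum_sdiff_iff.mpr hsum
      have h4 : ∑ z ∈ S \ block L.lev t, ((stairRow m (A z) : ℕ) + stairRow m (B z))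
          < ∑ z ∈ block L.lev t \ S, ((stairRow m (A z) : ℕ) + stairRow m (B z)) := by
        calc ∑ z ∈ S \ block L.lev t, ((stairRow m (A z) : ℕ) + stairRow m (B z))
            < ∑ _z ∈ S \ block L.lev t, (m - 2 * t - 2) := sum_lt_sum_of_nonempty h2 fun z hz => by
              obtain ⟨hz1, hz2⟩ := mem_sdiff.mp hz
              obtain ⟨y, hy, rfl⟩ := mem_map.mp hz1
              have := hge y (mem_block.mp hy).ge
              have : L.lev (g y) ≠ t := fun e => hz2 (mem_block.mpr e)
              show (stairRow m (A (g y)) : ℕ) + stairRow m (B (g y)) < _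
              rcases Nat.lt_or_ge (L.lev (g y)) s with hp | hb
              · have := L.value_lt (g y)
                rw [hA _ hp, hB _ hp]
                omega
              · have := hval _ hb
                omega
          _ = ∑ _z ∈ block L.lev t \ S, (m - 2 * t - 2) := by
              rw [sum_const, sum_const, h1]
          _ ≤ _ := sum_le_sum fun z hz => by
              have hzt := mem_block.mp (mem_sdiff.mp hz).1
              have := L.value_lt z
              rw [hA _ (hzt ▸ hts), hB _ (hzt ▸ hts)]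
              rw [hzt] at this
              omega
      omega
    intro y
    constructor
    · intro h
      have hy : g y ∈ S := hSeq ▸ mem_block.mpr h
      obtain ⟨y', hy', e⟩ := mem_map.mp hy
      rw [← g.injective e]
      exact mem_block.mp hy'
    · intro h
      have : g y ∈ S := mem_map_of_mem _ (mem_block.mpr h)
      rw [hSeq] at this
      exact mem_block.mp this

variable (e : Stair (m - 2 * s) ≃ {x // s ≤ L.lev x})

theorem base_iff (s : ℕ) (x : Stair m) :
    s ≤ L.lev ((L.baseB⁻¹ * L.baseA) x) ↔ s ≤ L.lev x := by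
  have h : stairCol m (L.baseB ((L.baseB⁻¹ * L.baseA) x)) = stairCol m (L.baseA x) :=
    congrArg _ (L.baseB.apply_symm_apply _)
  have h1 : 2 * L.lev ((L.baseB⁻¹ * L.baseA) x) + L.bitB zeroSeq ((L.baseB⁻¹ * L.baseA) x)
      = 2 * L.lev x + L.bitA zeroSeq x := congrArg Fin.val h
  have := L.bitA_lt zeroSeq x
  have := L.bitB_lt zeroSeq ((L.baseB⁻¹ * L.baseA) x)
  omega

/-- The correction of the second left translate on the levels from `s` on. -/
noncomputable def fixB (s : ℕ) : Perm (Stair m) :=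
  Perm.ofSubtype ((L.baseB⁻¹ * L.baseA).subtypePerm (p := fun x => s ≤ L.lev x) (L.base_iff s))

theorem fixB_pair {x : Stair m} (h : L.lev x < s) : L.fixB s x = x :=
  Perm.ofSubtype_apply_of_not_mem _ (Nat.not_le.mpr h)

theorem baseB_fixB {x : Stair m} (h : s ≤ L.lev x) : L.baseB (L.fixB s x) = L.baseA x := by
  rw [fixB, Perm.ofSubtype_apply_of_mem (p := fun x => s ≤ L.lev x) _ h]
  exact L.baseB.apply_symm_apply _

/-- Columns follow the levels and bits below `s`; from `s` on both are the first left translate. -/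
def GlueFits (s : ℕ) (τ : Stair m → Fin 2 × Fin 2) (p : Perm (Stair m) × Perm (Stair m)) : Prop :=
  ∀ y, (L.lev y < s → (stairCol m (p.1 y) : ℕ) = 2 * L.lev y + (τ y).1 ∧
      (stairCol m (p.2 y) : ℕ) = 2 * L.lev y + (τ y).2) ∧
    (s ≤ L.lev y → τ y = (0, 0) ∧ p.1 y = L.baseA y ∧ p.2 y = L.baseA y)

/-- The glued term of one bit assignment. -/
noncomputable def glueTerm (a b a₂ b₂ : Perm (Stair (m - 2 * s))) (f : Stair m → ℕ × ℕ)
    (τ : Stair m → Fin 2 × Fin 2) (g : Perm (Stair m)) : ℤ :=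
  open Classical in
  if h : ∃ p, L.GlueFits s τ p then
    (Perm.sign h.choose.1 : ℤ) * (Perm.sign h.choose.2 : ℤ) * (∏ y, omega (f y) (τ y)) *
      (tabInt m (L.baseA * a.extendDomain e * g * (h.choose.1 * (b.extendDomain e)⁻¹)⁻¹) *
        tabInt m (L.baseB * L.fixB s * a₂.extendDomain e * g *
          (h.choose.2 * (b₂.extendDomain e)⁻¹)⁻¹))
  else 0

variable {e}

theorem extend_pair (p : Perm (Stair (m - 2 * s))) {x : Stair m} (h : L.lev x < s) :
    p.extendDomain e x = x :=
  Perm.extendDomain_apply_not_subtype p e (Nat.not_le.mpr h)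

theorem exists_base {x : Stair m} (h : s ≤ L.lev x) (e : Stair (m - 2 * s) ≃ {x // s ≤ L.lev x}) :
    ∃ y, x = (e y).1 := ⟨e.symm ⟨x, h⟩, by rw [apply_symm_apply]⟩

theorem leftA_pair (a : Perm (Stair (m - 2 * s))) {z : Stair m} (h : L.lev z < s) :
    (stairRow m ((L.baseA * a.extendDomain e) z) : ℕ) = L.rlabel z := by
  rw [Perm.mul_apply, L.extend_pair a h, L.baseA_row]

theorem leftB_pair (a : Perm (Stair (m - 2 * s))) {z : Stair m} (h : L.lev z < s) :
    (stairRow m ((L.baseB * L.fixB s * a.extendDomain e) z) : ℕ) = L.clabel z := by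
  rw [Perm.mul_apply, L.extend_pair a h, Perm.mul_apply, L.fixB_pair h, L.baseB_row]

variable (hA : ∀ y, L.baseA (e y).1 = (upperEquiv m s y).1)
include hA

theorem leftA_base (a : Perm (Stair (m - 2 * s))) (y : Stair (m - 2 * s)) :
    (L.baseA * a.extendDomain e) (e y).1 = (upperEquiv m s (a y)).1 := by
  rw [Perm.mul_apply, Perm.extendDomain_apply_image, hA]

theorem leftB_base (a : Perm (Stair (m - 2 * s))) (y : Stair (m - 2 * s)) :
    (L.baseB * L.fixB s * a.extendDomain e) (e y).1 = (upperEquiv m s (a y)).1 := by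
  rw [Perm.mul_apply, Perm.extendDomain_apply_image, Perm.mul_apply, L.baseB_fixB (e _).2, hA]

theorem glueTerm_ne_zero {a b a₂ b₂ : Perm (Stair (m - 2 * s))}
    (hab : ∀ y, (stairRow (m - 2 * s) (a y) : ℕ) + stairRow (m - 2 * s) (a₂ y) < m - 2 * s)
    {f : Stair m → ℕ × ℕ} {τ : Stair m → Fin 2 × Fin 2} {g : Perm (Stair m)}
    (hne : L.glueTerm e a b a₂ b₂ f τ g ≠ 0) :
    L.Keeps s g ∧ ∀ y, (L.lev y < s → ((τ y).1 : ℕ) = L.bitA (f ∘ ⇑g⁻¹) (g y) ∧
      ((τ y).2 : ℕ) = L.bitB (f ∘ ⇑g⁻¹) (g y)) ∧ (s ≤ L.lev y → τ y = (0, 0)) := by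
  unfold glueTerm at hne
  split_ifs at hne with h
  · obtain ⟨hab', ht⟩ := mul_ne_zero_iff.mp hne
    obtain ⟨hTA, hTB⟩ := mul_ne_zero_iff.mp ht
    obtain ⟨-, hω⟩ := mul_ne_zero_iff.mp hab'
    obtain ⟨φA, hφA⟩ := exists_labels hTA
    obtain ⟨φB, hφB⟩ := exists_labels hTB
    have hpair : ∀ y, L.lev y < s →
        (stairCol m (φA y) : ℕ) = 2 * L.lev y + (τ y).1 ∧
          (stairCol m (φB y) : ℕ) = 2 * L.lev y + (τ y).2 := fun y hy => by
      rw [(hφA y).2, (hφB y).2, Perm.mul_apply, Perm.mul_apply, Perm.extendDomain_inv,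
        Perm.extendDomain_inv, L.extend_pair _ hy, L.extend_pair _ hy]
      exact (h.choose_spec y).1 hy
    have hbase : ∀ y, s ≤ L.lev y →
        2 * s ≤ (stairCol m (φA y) : ℕ) ∧ 2 * s ≤ (stairCol m (φB y) : ℕ) := fun y hy => by
      obtain ⟨w, rfl⟩ := L.exists_base hy e
      rw [(hφA _).2, (hφB _).2, Perm.mul_apply, Perm.mul_apply, Perm.extendDomain_inv,
        Perm.extendDomain_inv, Perm.extendDomain_apply_image, Perm.extendDomain_apply_image,
        ((h.choose_spec _).2 (e _).2).2.1, ((h.choose_spec _).2 (e _).2).2.2, hA, hA]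
      exact ⟨(upperEquiv m s _).2, (upperEquiv m s _).2⟩
    have hiff : ∀ t, t < s → ∀ y, ((stairCol m (φA y) : ℕ) / 2 = t ↔ L.lev y = t) ∧
        ((stairCol m (φB y) : ℕ) / 2 = t ↔ L.lev y = t) := fun t ht y => by
      rcases Nat.lt_or_ge (L.lev y) s with hy | hy
      · obtain ⟨h1, h2⟩ := hpair y hy
        have := (τ y).1.isLt
        have := (τ y).2.isLt
        constructor <;> omega
      · obtain ⟨h1, h2⟩ := hbase y hy
        constructor <;> omega
    have hkeep : L.Keeps s g := L.keeps_forced (fun z hz => L.leftA_pair a hz)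
      (fun z hz => L.leftB_pair a₂ hz) (fun z hz => by
        obtain ⟨w, rfl⟩ := L.exists_base hz e
        rw [L.leftA_base hA, L.leftB_base hA, upperEquiv_row, upperEquiv_row]
        exact hab w)
      (fun y => congrArg Fin.val (hφA y).1) (fun y => congrArg Fin.val (hφB y).1)
      (fun t ht y => (hiff t ht y).1) (fun t ht y => (hiff t ht y).2)
    have hg : ∀ z, g (g⁻¹ z) = z := g.apply_symm_apply
    refine ⟨hkeep, fun y => ⟨fun hy => ?_, fun hy => ((h.choose_spec y).2 hy).1⟩⟩
    have hgy : L.lev (g y) = L.lev y := (hkeep _ hy y).mpr rfl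
    have hback : ∀ z, L.lev z = L.lev y → L.lev (g⁻¹ z) = L.lev y := fun z hz =>
      (hkeep _ hy (g⁻¹ z)).mp (by rw [hg]; exact hz)
    have hrA : ∀ z, L.lev z = L.lev y → (stairRow m (φA (g⁻¹ z)) : ℕ) = L.rlabel z := fun z hz => by
      rw [(hφA _).1, hg]
      exact L.leftA_pair a (hz ▸ hy)
    have hrB : ∀ z, L.lev z = L.lev y → (stairRow m (φB (g⁻¹ z)) : ℕ) = L.clabel z := fun z hz => by
      rw [(hφB _).1, hg]
      exact L.leftB_pair a₂ (hz ▸ hy)
    have hc : ∀ z, L.lev z = L.lev y →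
        (stairCol m (φA (g⁻¹ z)) : ℕ) = 2 * L.lev y + (τ (g⁻¹ z)).1 ∧
          (stairCol m (φB (g⁻¹ z)) : ℕ) = 2 * L.lev y + (τ (g⁻¹ z)).2 := fun z hz => by
      have := hpair (g⁻¹ z) (by rw [hback z hz]; exact hy)
      rwa [hback z hz] at this
    have := L.bits_forced (F := f ∘ ⇑g⁻¹) (α := fun z => ((τ (g⁻¹ z)).1 : ℕ))
      (β := fun z => ((τ (g⁻¹ z)).2 : ℕ)) (t := L.lev y) (fun z => (τ _).1.isLt)
      (fun z => (τ _).2.isLt)
      (fun z _ => by
        have := prod_ne_zero_iff.mp hω (g⁻¹ z) (mem_univ _)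
        by_contra hn
        exact this (if_neg hn))
      (fun z hz => by
        have h1 : (stairRow m (φB (g⁻¹ z)) : ℕ) + stairCol m (φB (g⁻¹ z)) < m := (φB (g⁻¹ z)).2
        rw [hrB z hz, (hc z hz).2] at h1
        rw [hz]
        exact h1)
      (fun x x' hx hx' h2 h3 => g⁻¹.injective (φA.injective (stair_injective m (Prod.ext
        (Fin.ext (by rw [hrA x hx, hrA x' hx']; exact h2))
        (Fin.ext (by rw [(hc x hx).1, (hc x' hx').1]; exact congrArg _ h3))))))
      (fun x x' hx hx' h2 h3 => g⁻¹.injective (φB.injective (stair_injective m (Prod.ext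
        (Fin.ext (by rw [hrB x hx, hrB x' hx']; exact h2))
        (Fin.ext (by rw [(hc x hx).2, (hc x' hx').2]; exact congrArg _ h3))))))
      (g y) hgy
    simpa using this
  · exact absurd rfl hne

theorem sum_glueTerm {a b a₂ b₂ : Perm (Stair (m - 2 * s))}
    (hab : ∀ y, (stairRow (m - 2 * s) (a y) : ℕ) + stairRow (m - 2 * s) (a₂ y) < m - 2 * s)
    {f : Stair m → ℕ × ℕ} (hf : L.EvenSum f) (hf0 : ∀ x, s ≤ L.lev x → f x = (0, 0))
    {gP : Perm (Stair m)} (hg : ∀ x, L.lev (gP⁻¹ x) = L.lev x)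
    (hfix : ∀ x, s ≤ L.lev x → gP x = x) (g' : Perm (Stair (m - 2 * s))) :
    ∑ τ, L.glueTerm e a b a₂ b₂ f τ (gP * g'.extendDomain e)
      = (Perm.sign (L.fixB s) : ℤ) * L.weight (L.evenSum_comp hf hg) *
          (tabInt (m - 2 * s) (a * g' * b) * tabInt (m - 2 * s) (a₂ * g' * b₂)) := by
  classical
  have hgi : ∀ y, gP⁻¹ (gP y) = y := gP.symm_apply_apply
  have hg' : ∀ y, L.lev (gP y) = L.lev y := fun y => by
    have := hg (gP y)
    rw [hgi] at this
    exact this.symm
  set F := f ∘ ⇑gP⁻¹ with hF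
  have hF0 : ∀ z, s ≤ L.lev z → F z = (0, 0) := fun z hz => hf0 _ (by rw [hg]; exact hz)
  have hbits : ∀ z, s ≤ L.lev z → L.bitA F z = L.bitA zeroSeq z ∧ L.bitB F z = L.bitB zeroSeq z :=
    fun z hz => L.bits_congr fun w hw => hF0 w (hw ▸ hz)
  have hpA : ∀ z, s ≤ L.lev z → L.permA (L.evenSum_comp hf hg) z = L.baseA z := fun z hz =>
    stair_ext rfl (by
      show 2 * L.lev z + L.bitA F z = 2 * L.lev z + L.bitA zeroSeq z
      rw [(hbits z hz).1])
  have hpB : ∀ z, s ≤ L.lev z → L.permB F z = L.baseB z := fun z hz =>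
    stair_ext rfl (by
      show 2 * L.lev z + L.bitB F z = 2 * L.lev z + L.bitB zeroSeq z
      rw [(hbits z hz).2])
  have hR : ∀ y, s ≤ L.lev y → s ≤ L.lev (L.fixB s y) := fun y hy => by
    rw [fixB, Perm.ofSubtype_apply_of_mem (p := fun x => s ≤ L.lev x) _ hy]
    exact (L.base_iff s y).mpr hy
  let τ₀ : Stair m → Fin 2 × Fin 2 := fun y => if L.lev y < s then
    (⟨L.bitA F (gP y), L.bitA_lt _ _⟩, ⟨L.bitB F (gP y), L.bitB_lt _ _⟩) else (0, 0)
  rw [sum_eq_single τ₀]
  · have h : ∃ p, L.GlueFits s τ₀ p := ⟨(L.permA (L.evenSum_comp hf hg) * gP,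
      L.permB F * L.fixB s * gP), fun y => ⟨fun hy => ⟨by
        show 2 * L.lev (gP y) + L.bitA F (gP y) = 2 * L.lev y + (τ₀ y).1
        simp only [τ₀, if_pos hy, hg'], by
        show (stairCol m (L.permB F (L.fixB s (gP y))) : ℕ) = _
        rw [L.fixB_pair (by rw [hg']; exact hy)]
        show 2 * L.lev (gP y) + L.bitB F (gP y) = 2 * L.lev y + (τ₀ y).2
        simp only [τ₀, if_pos hy, hg']⟩, fun hy => ⟨if_neg (Nat.not_lt.mpr hy), by
        rw [Perm.mul_apply, hfix y hy, hpA y hy], by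
        rw [Perm.mul_apply, hfix y hy, Perm.mul_apply, hpB _ (hR y hy), L.baseB_fixB hy]⟩⟩⟩
    rw [glueTerm, dif_pos h]
    have hpreimage : ∀ β : Perm (Stair m), (∀ y, s ≤ L.lev y → β y = L.baseA y) →
        (∀ y, β⁻¹ (upperEquiv m s y).1 = (e y).1) ∧
          ∀ x, (stairCol m x : ℕ) < 2 * s → L.lev (β⁻¹ x) < s := fun β hβ => by
      refine ⟨fun y => ?_, fun x hx => ?_⟩
      · rw [← hA, ← hβ _ (e y).2]
        exact β.symm_apply_apply _
      · by_contra hlt
        obtain ⟨w, hw⟩ := L.exists_base (Nat.not_lt.mp hlt) e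
        have e1 : x = β (e w).1 := by rw [← hw]; exact (β.apply_symm_apply x).symm
        rw [e1, hβ _ (e w).2, hA, upperEquiv_col] at hx
        omega
    have hTA : ∀ β : Perm (Stair m), (∀ y, L.lev y < s → (stairCol m (β y) : ℕ)
          = 2 * L.lev y + L.bitA F (gP y)) → (∀ y, s ≤ L.lev y → β y = L.baseA y) →
        tabInt m (L.baseA * a.extendDomain e * (gP * g'.extendDomain e) * (β * (b.extendDomain e)⁻¹)⁻¹)
          = (Perm.sign (L.permA (L.evenSum_comp hf hg) * gP * β⁻¹) : ℤ) *
              tabInt (m - 2 * s) (a * g' * b) := fun β hβ1 hβ2 => by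
      obtain ⟨hq, hlow⟩ := hpreimage β hβ2
      refine tabInt_split (fun y => ?_) (fun x hx => ?_) (fun x => ?_) (fun y => ?_)
      · simp only [mul_inv_rev, inv_inv, Perm.mul_apply, hq, Perm.extendDomain_apply_image,
          hfix _ (e _).2, hA]
      · have hy := hlow x hx
        simp only [mul_inv_rev, inv_inv, Perm.mul_apply, L.extend_pair _ hy,
          L.extend_pair _ (show L.lev (gP (β⁻¹ x)) < s by rw [hg']; exact hy)]
        rfl
      · by_cases hx : L.lev (β⁻¹ x) < s
        · refine Fin.ext ?_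
          have e1 := hβ1 _ hx
          rw [show β (β⁻¹ x) = x from β.apply_symm_apply x] at e1
          show 2 * L.lev (gP (β⁻¹ x)) + L.bitA F (gP (β⁻¹ x)) = _
          rw [hg', e1]
        · rw [Perm.mul_apply, Perm.mul_apply, hfix _ (Nat.not_lt.mp hx), hpA _ (Nat.not_lt.mp hx),
            ← hβ2 _ (Nat.not_lt.mp hx), show β (β⁻¹ x) = x from β.apply_symm_apply x]
      · rw [Perm.mul_apply, Perm.mul_apply, hq, hfix _ (e y).2, hpA _ (e y).2, hA]
    have hTB : ∀ β : Perm (Stair m), (∀ y, L.lev y < s → (stairCol m (β y) : ℕ)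
          = 2 * L.lev y + L.bitB F (gP y)) → (∀ y, s ≤ L.lev y → β y = L.baseA y) →
        tabInt m (L.baseB * L.fixB s * a₂.extendDomain e * (gP * g'.extendDomain e) *
            (β * (b₂.extendDomain e)⁻¹)⁻¹)
          = (Perm.sign (L.permB F * L.fixB s * gP * β⁻¹) : ℤ) *
              tabInt (m - 2 * s) (a₂ * g' * b₂) := fun β hβ1 hβ2 => by
      obtain ⟨hq, hlow⟩ := hpreimage β hβ2
      refine tabInt_split (fun y => ?_) (fun x hx => ?_) (fun x => ?_) (fun y => ?_)
      · simp only [mul_inv_rev, inv_inv, Perm.mul_apply, hq, Perm.extendDomain_apply_image,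
          hfix _ (e _).2, L.baseB_fixB (e _).2, hA]
      · have hy := hlow x hx
        simp only [mul_inv_rev, inv_inv, Perm.mul_apply, L.extend_pair _ hy,
          L.extend_pair _ (show L.lev (gP (β⁻¹ x)) < s by rw [hg']; exact hy)]
        rfl
      · by_cases hx : L.lev (β⁻¹ x) < s
        · refine Fin.ext ?_
          have e1 := hβ1 _ hx
          rw [show β (β⁻¹ x) = x from β.apply_symm_apply x] at e1
          rw [Perm.mul_apply, Perm.mul_apply, Perm.mul_apply,
            L.fixB_pair (show L.lev (gP (β⁻¹ x)) < s by rw [hg']; exact hx)]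
          show 2 * L.lev (gP (β⁻¹ x)) + L.bitB F (gP (β⁻¹ x)) = _
          rw [hg', e1]
        · have hx' := Nat.not_lt.mp hx
          rw [Perm.mul_apply, Perm.mul_apply, Perm.mul_apply, hfix _ hx', hpB _ (hR _ hx'),
            L.baseB_fixB hx', ← hβ2 _ hx', show β (β⁻¹ x) = x from β.apply_symm_apply x]
      · rw [Perm.mul_apply, Perm.mul_apply, Perm.mul_apply, hq, hfix _ (e y).2,
          hpB _ (hR _ (e y).2), L.baseB_fixB (e y).2, hA]
    have hb : ∀ y, L.lev y < s →
        ((τ₀ y).1 : ℕ) = L.bitA F (gP y) ∧ ((τ₀ y).2 : ℕ) = L.bitB F (gP y) := fun y hy => by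
      simp [τ₀, hy]
    rw [hTA _ (fun y hy => (((h.choose_spec y).1 hy).1).trans (by rw [(hb y hy).1]))
        (fun y hy => ((h.choose_spec y).2 hy).2.1),
      hTB _ (fun y hy => (((h.choose_spec y).1 hy).2).trans (by rw [(hb y hy).2]))
        (fun y hy => ((h.choose_spec y).2 hy).2.2)]
    have hω : ∀ y, omega (f y) (τ₀ y) = (-1) ^ ((f y).2 * L.bitA F (gP y)) := fun y => by
      rcases Nat.lt_or_ge (L.lev y) s with hy | hy
      · rw [omega, if_pos, (hb y hy).1]
        rw [(hb y hy).1, (hb y hy).2]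
        have := L.bit_parity F (gP y)
        rw [hF, Function.comp_apply, hgi] at this
        exact this
      · simp [omega, hf0 y hy, τ₀, Nat.not_lt.mpr hy]
    rw [prod_congr rfl fun y _ => hω y, weight, ← Equiv.prod_comp gP (fun x =>
      (-1 : ℤ) ^ ((F x).2 * L.bitA F x))]
    simp only [Perm.sign_mul, Perm.sign_inv, Units.val_mul, hF, Function.comp_apply, hgi]
    generalize ∏ x, (-1 : ℤ) ^ ((f x).2 * L.bitA (f ∘ ⇑gP⁻¹) (gP x)) = P
    rcases Int.units_eq_one_or (Perm.sign gP) with e1 | e1 <;>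
      rcases Int.units_eq_one_or (Perm.sign h.choose.1) with e2 | e2 <;>
        rcases Int.units_eq_one_or (Perm.sign h.choose.2) with e3 | e3 <;>
          simp [e1, e2, e3] <;> ring
  · intro τ _ hτ
    by_contra hne
    obtain ⟨-, hbit⟩ := L.glueTerm_ne_zero hA hab hne
    refine hτ (funext fun y => ?_)
    rcases Nat.lt_or_ge (L.lev y) s with hy | hy
    · have hgy : (gP * g'.extendDomain e) y = gP y := by rw [Perm.mul_apply, L.extend_pair _ hy]
      have hFeq : f ∘ ⇑(gP * g'.extendDomain e)⁻¹ = F := funext fun z => by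
        show f ((gP * g'.extendDomain e)⁻¹ z) = f (gP⁻¹ z)
        rw [mul_inv_rev, Perm.mul_apply, Perm.extendDomain_inv]
        rcases Nat.lt_or_ge (L.lev (gP⁻¹ z)) s with hz | hz
        · rw [L.extend_pair _ hz]
        · obtain ⟨w, hw⟩ := L.exists_base hz e
          rw [hf0 _ hz, hw, Perm.extendDomain_apply_image, hf0 _ (e _).2]
      obtain ⟨h1, h2⟩ := (hbit y).1 hy
      rw [hgy, hFeq] at h1 h2
      simp only [τ₀, if_pos hy]
      exact Prod.ext (Fin.ext h1) (Fin.ext h2)
    · simp only [τ₀, if_neg (Nat.not_lt.mpr hy)]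
      exact (hbit y).2 hy
  · exact fun h => absurd (mem_univ _) h

end Layout

end Vale.Agent.P197.Saxl
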