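import Vale.Agent.P197.Saxl.Defs

/-!
# P197: Saxl's conjecture with named actions

The Specht module of the staircase, its tensor square and the actions get names of their own, so
that the statement prints briefly.
-/

namespace Vale.Agent.P197.Saxl.Goal

open scoped TensorProduct

/-- A permutation acting on a Specht module. -/
noncomputable def spMap {α ι κ : Type} [Fintype α] [DecidableEq α] [DecidableEq ι] [DecidableEq κ]
    (row : α → ι) (col : α → κ) (g : Equiv.Perm α) : specht row col →ₗ[ℂ] specht row col :=
  (tabRep α ι g).restrict (tabRep_mem_specht row col g)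

/-- The Specht module of the staircase. -/
def StairV (m : ℕ) : Type := specht (stairRow m) (stairCol m)

noncomputable instance instStairVGroup (m : ℕ) : AddCommGroup (StairV m) :=
  Submodule.addCommGroup (specht (stairRow m) (stairCol m))

noncomputable instance instStairVModule (m : ℕ) : Module ℂ (StairV m) :=
  Submodule.module (specht (stairRow m) (stairCol m))

/-- The action on it. -/
noncomputable def stairAct (m : ℕ) (g : Equiv.Perm (Stair m)) : StairV m →ₗ[ℂ] StairV m :=
  spMap (stairRow m) (stairCol m) g

/-- The tensor square of the staircase Specht module. -/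
def SquareV (m : ℕ) : Type := StairV m ⊗[ℂ] StairV m

noncomputable instance instSquareVGroup (m : ℕ) : AddCommGroup (SquareV m) :=
  @TensorProduct.addCommGroup ℂ _ (StairV m) (StairV m) _ _ _ _

noncomputable instance instSquareVModule (m : ℕ) : Module ℂ (SquareV m) :=
  TensorProduct.instModule

/-- The diagonal action on it. -/
noncomputable def squareAct (m : ℕ) (g : Equiv.Perm (Stair m)) : SquareV m →ₗ[ℂ] SquareV m :=
  TensorProduct.map (stairAct m g) (stairAct m g)

/-- The vector moved by a group element. -/
def move {m : ℕ} {W : Type} [AddCommGroup W] [Module ℂ W]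
    (τ : Representation ℂ (Equiv.Perm (Stair m)) W) (g : Equiv.Perm (Stair m)) (z : W) : W :=
  τ g z

/-- Some nonzero linear map to the tensor square commutes with the actions. -/
def Occurs {m : ℕ} {W : Type} [AddCommGroup W] [Module ℂ W]
    (τ : Representation ℂ (Equiv.Perm (Stair m)) W) : Prop :=
  ∃ T : W →ₗ[ℂ] SquareV m, T ≠ 0 ∧ ∀ g w, T (move τ g w) = squareAct m g (T w)

/-- Saxl's conjecture: every nonzero representation, in particular every irreducible one, maps
nontrivially and equivariantly to the tensor square of the staircase Specht module. -/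
def SaxlConjecture : Prop :=
  ∀ (m : ℕ) (W : Type) [AddCommGroup W] [Module ℂ W] [Nontrivial W]
    (τ : Representation ℂ (Equiv.Perm (Stair m)) W), Occurs τ

theorem saxlConjecture_of_statement (h : SaxlStatement) : SaxlConjecture := by
  intro m W _ _ _ τ
  obtain ⟨T, hT0, hTg⟩ := h m W τ
  exact ⟨T, hT0, fun g w => LinearMap.congr_fun (hTg g) w⟩

end Vale.Agent.P197.Saxl.Goal
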