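import Vale.Agent.P197.Saxl.Char0.Defs

/-!
# P197, characteristic zero: symbol sequences along the zigzag paths

Level `t` runs along the top two antidiagonals of a staircase `ρ_{m - 2 t}`; the cell at position
`k` gets the labels `rlabel = k / 2` and `clabel = m - 2 t - 1 - (k + 1) / 2`.  A symbol sequence
`F = (σ, η)` with even `σ`-sum in every level determines bits `(bitA, bitB)` making both label maps
bijections onto the staircase, and the signed weight `weight` changes sign when two adjacent
different symbols are exchanged.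
-/

namespace Vale.Agent.P197.Saxl

open Finset Equiv

variable {m : ℕ}

/-- Levels with a numbering of each of them. -/
structure Layout (m : ℕ) where
  lev : Stair m → ℕ
  pos : Stair m → ℕ
  lt : ∀ x, pos x < (m - 2 * lev x) + (m - 2 * lev x - 1)
  inj : ∀ x y, lev x = lev y → pos x = pos y → x = y
  surj : ∀ t k, k < (m - 2 * t) + (m - 2 * t - 1) → ∃ x, lev x = t ∧ pos x = k

namespace Layout

variable (L : Layout m)

/-- The symbol sum before a position. -/
def pre (F : Stair m → ℕ × ℕ) (x : Stair m) : ℕ :=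
  ∑ z ∈ univ.filter (fun z => L.lev z = L.lev x ∧ L.pos z < L.pos x), (F z).1

/-- The incoming bit. -/
def inBit (F : Stair m → ℕ × ℕ) (x : Stair m) : ℕ := L.pos x + L.pre F x

/-- The first bit. -/
def bitA (F : Stair m → ℕ × ℕ) (x : Stair m) : ℕ :=
  if L.pos x % 2 = 0 then (L.inBit F x + (F x).1) % 2 else L.inBit F x % 2

/-- The second bit. -/
def bitB (F : Stair m → ℕ × ℕ) (x : Stair m) : ℕ :=
  if L.pos x % 2 = 0 then L.inBit F x % 2 else (L.inBit F x + (F x).1) % 2

/-- The row label. -/
def rlabel (x : Stair m) : ℕ := L.pos x / 2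

/-- The column label. -/
def clabel (x : Stair m) : ℕ := m - 2 * L.lev x - 1 - (L.pos x + 1) / 2

/-- Every level has even symbol sum. -/
def EvenSum (F : Stair m → ℕ × ℕ) : Prop := ∀ t, (∑ z ∈ block L.lev t, (F z).1) % 2 = 0

theorem pre_succ (F : Stair m → ℕ × ℕ) {x y : Stair m} (hl : L.lev y = L.lev x)
    (hp : L.pos y = L.pos x + 1) : L.pre F y = L.pre F x + (F x).1 := by
  have e : (univ.filter fun z => L.lev z = L.lev y ∧ L.pos z < L.pos y)
      = insert x (univ.filter fun z => L.lev z = L.lev x ∧ L.pos z < L.pos x) := by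
    ext z
    simp only [mem_filter, mem_univ, true_and, mem_insert, hl, hp]
    constructor
    · rintro ⟨h1, h2⟩
      rcases Nat.lt_succ_iff_lt_or_eq.mp h2 with h3 | h3
      · exact Or.inr ⟨h1, h3⟩
      · exact Or.inl (L.inj z x h1 h3)
    · rintro (rfl | ⟨h1, h2⟩)
      · exact ⟨rfl, Nat.lt_succ_self _⟩
      · exact ⟨h1, by omega⟩
  rw [pre, e, sum_insert (by simp), pre, add_comm]

theorem pre_eq_zero (F : Stair m → ℕ × ℕ) {x : Stair m} (h : L.pos x = 0) : L.pre F x = 0 := by
  refine sum_eq_zero fun z hz => ?_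
  have := (mem_filter.mp hz).2.2
  omega

theorem total_eq (F : Stair m → ℕ × ℕ) {x : Stair m}
    (h : L.pos x + 1 = (m - 2 * L.lev x) + (m - 2 * L.lev x - 1)) :
    ∑ z ∈ block L.lev (L.lev x), (F z).1 = L.pre F x + (F x).1 := by
  have e : block L.lev (L.lev x)
      = insert x (univ.filter fun z => L.lev z = L.lev x ∧ L.pos z < L.pos x) := by
    ext z
    simp only [mem_block, mem_filter, mem_univ, true_and, mem_insert]
    constructor
    · intro h1
      have h2 := L.lt z
      rw [h1] at h2
      rcases Nat.lt_succ_iff_lt_or_eq.mp (show L.pos z < L.pos x + 1 by omega) with h3 | h3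
      · exact Or.inr ⟨h1, h3⟩
      · exact Or.inl (L.inj z x h1 h3)
    · rintro (rfl | ⟨h1, -⟩)
      · rfl
      · exact h1
  rw [e, sum_insert (by simp), pre, add_comm]

theorem bitA_lt (F : Stair m → ℕ × ℕ) (x : Stair m) : L.bitA F x < 2 := by
  unfold bitA; split_ifs <;> omega

theorem bitB_lt (F : Stair m → ℕ × ℕ) (x : Stair m) : L.bitB F x < 2 := by
  unfold bitB; split_ifs <;> omega

theorem boundA {F : Stair m → ℕ × ℕ} (hF : L.EvenSum F) (x : Stair m) :
    L.rlabel x + (2 * L.lev x + L.bitA F x) < m := by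
  have h1 := L.lt x
  have h2 := L.bitA_lt F x
  unfold rlabel
  by_contra hge
  have hlast : L.pos x + 1 = (m - 2 * L.lev x) + (m - 2 * L.lev x - 1) := by omega
  have h3 := hF (L.lev x)
  rw [L.total_eq F hlast] at h3
  have h4 : L.bitA F x = 0 := by
    rw [bitA, if_pos (by omega), inBit]
    omega
  omega

theorem boundB (F : Stair m → ℕ × ℕ) (x : Stair m) :
    L.clabel x + (2 * L.lev x + L.bitB F x) < m := by
  have h1 := L.lt x
  have h2 := L.bitB_lt F x
  unfold clabel
  rcases Nat.eq_zero_or_pos (L.pos x) with h0 | h0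
  · have h4 : L.bitB F x = 0 := by
      rw [bitB, if_pos (by omega), inBit, L.pre_eq_zero F h0]
      omega
    omega
  · omega

theorem bitA_ne (F : Stair m → ℕ × ℕ) {x y : Stair m} (hl : L.lev y = L.lev x)
    (hp : L.pos y = L.pos x + 1) (he : L.pos x % 2 = 0) : L.bitA F x ≠ L.bitA F y := by
  rw [bitA, bitA, if_pos he, if_neg (by omega), inBit, inBit, L.pre_succ F hl hp, hp]
  omega

theorem bitB_ne (F : Stair m → ℕ × ℕ) {x y : Stair m} (hl : L.lev y = L.lev x)
    (hp : L.pos y = L.pos x + 1) (he : L.pos x % 2 = 1) : L.bitB F x ≠ L.bitB F y := by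
  rw [bitB, bitB, if_neg (by omega), if_pos (by omega), inBit, inBit, L.pre_succ F hl hp, hp]
  omega

/-- The cell of the first factor. -/
def cellA {F : Stair m → ℕ × ℕ} (hF : L.EvenSum F) (x : Stair m) : Stair m :=
  ⟨(⟨L.rlabel x, by have := L.boundA hF x; omega⟩,
    ⟨2 * L.lev x + L.bitA F x, by have := L.boundA hF x; omega⟩), L.boundA hF x⟩

/-- The cell of the second factor. -/
def cellB (F : Stair m → ℕ × ℕ) (x : Stair m) : Stair m :=
  ⟨(⟨L.clabel x, by have := L.boundB F x; omega⟩,
    ⟨2 * L.lev x + L.bitB F x, by have := L.boundB F x; omega⟩), L.boundB F x⟩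

theorem cellA_injective {F : Stair m → ℕ × ℕ} (hF : L.EvenSum F) :
    Function.Injective (L.cellA hF) := by
  intro x y h
  have e1 : L.rlabel x = L.rlabel y := congrArg (fun z : Stair m => (z.1.1 : ℕ)) h
  have e2 : 2 * L.lev x + L.bitA F x = 2 * L.lev y + L.bitA F y :=
    congrArg (fun z : Stair m => (z.1.2 : ℕ)) h
  have h1 := L.bitA_lt F x
  have h2 := L.bitA_lt F y
  have hl : L.lev x = L.lev y := by omega
  unfold rlabel at e1
  rcases Nat.lt_trichotomy (L.pos x) (L.pos y) with hlt | heq | hgt
  · exact absurd (by omega) (L.bitA_ne F hl.symm (show L.pos y = L.pos x + 1 by omega) (by omega))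
  · exact L.inj x y hl heq
  · exact absurd (by omega) (L.bitA_ne F hl (show L.pos x = L.pos y + 1 by omega) (by omega))

theorem cellB_injective (F : Stair m → ℕ × ℕ) : Function.Injective (L.cellB F) := by
  intro x y h
  have e1 : L.clabel x = L.clabel y := congrArg (fun z : Stair m => (z.1.1 : ℕ)) h
  have e2 : 2 * L.lev x + L.bitB F x = 2 * L.lev y + L.bitB F y :=
    congrArg (fun z : Stair m => (z.1.2 : ℕ)) h
  have h1 := L.bitB_lt F x
  have h2 := L.bitB_lt F y
  have hl : L.lev x = L.lev y := by omega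
  have h3 := L.lt x
  have h4 := L.lt y
  rw [clabel, clabel, hl] at e1
  rw [hl] at h3
  rcases Nat.lt_trichotomy (L.pos x) (L.pos y) with hlt | heq | hgt
  · exact absurd (by omega) (L.bitB_ne F hl.symm (show L.pos y = L.pos x + 1 by omega) (by omega))
  · exact L.inj x y hl heq
  · exact absurd (by omega) (L.bitB_ne F hl (show L.pos x = L.pos y + 1 by omega) (by omega))

/-- The first permutation. -/
noncomputable def permA {F : Stair m → ℕ × ℕ} (hF : L.EvenSum F) : Perm (Stair m) :=
  Equiv.ofBijective _ (Finite.injective_iff_bijective.mp (L.cellA_injective hF))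

/-- The second permutation. -/
noncomputable def permB (F : Stair m → ℕ × ℕ) : Perm (Stair m) :=
  Equiv.ofBijective _ (Finite.injective_iff_bijective.mp (L.cellB_injective F))

/-- The weight of a symbol sequence. -/
noncomputable def weight {F : Stair m → ℕ × ℕ} (hF : L.EvenSum F) : ℤ :=
  (Perm.sign (L.permA hF) : ℤ) * (Perm.sign (L.permB F) : ℤ)
    * ∏ x, (-1 : ℤ) ^ ((F x).2 * L.bitA F x)

theorem weight_ne_zero {F : Stair m → ℕ × ℕ} (hF : L.EvenSum F) : L.weight hF ≠ 0 := by
  refine mul_ne_zero (mul_ne_zero (Units.ne_zero _) (Units.ne_zero _))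
    (prod_ne_zero_iff.mpr fun x _ => pow_ne_zero _ (by norm_num))

theorem weight_congr {F G : Stair m → ℕ × ℕ} (h : G = F) (hF : L.EvenSum F) (hG : L.EvenSum G) :
    L.weight hG = L.weight hF := by
  subst h; rfl

theorem evenSum_comp {F : Stair m → ℕ × ℕ} (hF : L.EvenSum F) {π : Perm (Stair m)}
    (hπ : ∀ x, L.lev (π x) = L.lev x) : L.EvenSum (F ∘ π) := fun t => by
  rw [show (∑ z ∈ block L.lev t, ((F ∘ π) z).1) = ∑ z ∈ block L.lev t, (F z).1 from
    sum_equiv π (fun z => by simp [mem_block, hπ]) (fun z _ => rfl)]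
  exact hF t

/-- Exchanging two adjacent different symbols changes the sign of the weight. -/
theorem weight_swap {F : Stair m → ℕ × ℕ} (hF : L.EvenSum F) {y z : Stair m}
    (hl : L.lev z = L.lev y) (hp : L.pos z = L.pos y + 1) (hne : F y ≠ F z)
    (hy : (F y).1 < 2 ∧ (F y).2 < 2) (hz : (F z).1 < 2 ∧ (F z).2 < 2)
    (hF' : L.EvenSum (F ∘ swap y z)) :
    L.weight hF' = - L.weight hF := by
  have hyz : y ≠ z := fun h => by rw [h] at hp; omega
  have hpre_y : L.pre (F ∘ swap y z) y = L.pre F y := sum_congr rfl fun w hw => by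
    obtain ⟨-, h2⟩ := (mem_filter.mp hw).2
    rw [Function.comp_apply, swap_apply_of_ne_of_ne (fun e => by rw [e] at h2; omega)
      (fun e => by rw [e] at h2; omega)]
  have hpre : ∀ x, x ≠ z → L.pre (F ∘ swap y z) x = L.pre F x := by
    intro x hx
    by_cases hcase : L.lev x = L.lev y ∧ L.pos z < L.pos x
    · refine sum_equiv (swap y z) (fun w => ?_) (fun w _ => rfl)
      simp only [mem_filter, mem_univ, true_and]
      rcases eq_or_ne w y with rfl | h1
      · rw [swap_apply_left, hl]; omega
      rcases eq_or_ne w z with rfl | h2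
      · rw [swap_apply_right, hl]; omega
      · rw [swap_apply_of_ne_of_ne h1 h2]
    · refine sum_congr rfl fun w hw => ?_
      obtain ⟨h1, h2⟩ := (mem_filter.mp hw).2
      rw [Function.comp_apply]
      rcases eq_or_ne w y with rfl | hwy
      · refine absurd ⟨h1.symm, ?_⟩ hcase
        rcases Nat.lt_succ_iff_lt_or_eq.mp (show L.pos z < L.pos x + 1 by omega) with h | h
        · exact h
        · exact absurd (L.inj x z (by omega) h.symm) hx
      rcases eq_or_ne w z with rfl | hwz
      · exact absurd ⟨by omega, h2⟩ hcase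
      · rw [swap_apply_of_ne_of_ne hwy hwz]
  have hpz : L.pre F z = L.pre F y + (F y).1 := L.pre_succ F hl hp
  have hpz' : L.pre (F ∘ swap y z) z = L.pre F y + (F z).1 := by
    rw [L.pre_succ _ hl hp, hpre_y, Function.comp_apply, swap_apply_left]
  have hother : ∀ x, x ≠ y → x ≠ z → (F ∘ swap y z) x = F x := fun x h1 h2 => by
    rw [Function.comp_apply, swap_apply_of_ne_of_ne h1 h2]
  have hA : ∀ x, x ≠ y → x ≠ z → L.bitA (F ∘ swap y z) x = L.bitA F x := fun x h1 h2 => by
    simp only [bitA, inBit, hpre x h2, hother x h1 h2]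
  have hB : ∀ x, x ≠ y → x ≠ z → L.bitB (F ∘ swap y z) x = L.bitB F x := fun x h1 h2 => by
    simp only [bitB, inBit, hpre x h2, hother x h1 h2]
  have eAy : L.bitA (F ∘ swap y z) y = if L.pos y % 2 = 0 then
      (L.pos y + L.pre F y + (F z).1) % 2 else (L.pos y + L.pre F y) % 2 := by
    simp only [bitA, inBit, hpre_y, Function.comp_apply, swap_apply_left]
  have eAz : L.bitA (F ∘ swap y z) z = if L.pos z % 2 = 0 then
      (L.pos z + (L.pre F y + (F z).1) + (F y).1) % 2
      else (L.pos z + (L.pre F y + (F z).1)) % 2 := by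
    simp only [bitA, inBit, hpz', Function.comp_apply, swap_apply_right]
  have eBy : L.bitB (F ∘ swap y z) y = if L.pos y % 2 = 0 then
      (L.pos y + L.pre F y) % 2 else (L.pos y + L.pre F y + (F z).1) % 2 := by
    simp only [bitB, inBit, hpre_y, Function.comp_apply, swap_apply_left]
  have eBz : L.bitB (F ∘ swap y z) z = if L.pos z % 2 = 0 then
      (L.pos z + (L.pre F y + (F z).1)) % 2
      else (L.pos z + (L.pre F y + (F z).1) + (F y).1) % 2 := by
    simp only [bitB, inBit, hpz', Function.comp_apply, swap_apply_right]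
  have eAy0 : L.bitA F y = if L.pos y % 2 = 0 then
      (L.pos y + L.pre F y + (F y).1) % 2 else (L.pos y + L.pre F y) % 2 := rfl
  have eAz0 : L.bitA F z = if L.pos z % 2 = 0 then
      (L.pos z + (L.pre F y + (F y).1) + (F z).1) % 2
      else (L.pos z + (L.pre F y + (F y).1)) % 2 := by rw [bitA, inBit, hpz]
  have eBy0 : L.bitB F y = if L.pos y % 2 = 0 then
      (L.pos y + L.pre F y) % 2 else (L.pos y + L.pre F y + (F y).1) % 2 := rfl
  have eBz0 : L.bitB F z = if L.pos z % 2 = 0 then
      (L.pos z + (L.pre F y + (F y).1)) % 2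
      else (L.pos z + (L.pre F y + (F y).1) + (F z).1) % 2 := by rw [bitB, inBit, hpz]
  have hzc : L.pos z % 2 = 1 - L.pos y % 2 := by omega
  -- the two permutations
  have sA : (Perm.sign (L.permA hF') : ℤ) = (Perm.sign (L.permA hF) : ℤ) *
      if L.pos y % 2 = 0 ∧ (F y).1 ≠ (F z).1 then -1 else 1 := by
    split_ifs with hc
    · have e : L.permA hF' = L.permA hF * swap y z := Equiv.ext fun x => by
        refine Subtype.ext (Prod.ext (Fin.ext ?_) (Fin.ext ?_))
        · show L.rlabel x = L.rlabel (swap y z x)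
          rcases eq_or_ne x y with rfl | h1
          · rw [swap_apply_left, rlabel, rlabel]; omega
          rcases eq_or_ne x z with rfl | h2
          · rw [swap_apply_right, rlabel, rlabel]; omega
          · rw [swap_apply_of_ne_of_ne h1 h2]
        · show 2 * L.lev x + L.bitA (F ∘ swap y z) x
            = 2 * L.lev (swap y z x) + L.bitA F (swap y z x)
          rcases eq_or_ne x y with rfl | h1
          · rw [swap_apply_left, eAy, eAz0, if_pos hc.1, if_neg (by omega)]; omega
          rcases eq_or_ne x z with rfl | h2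
          · rw [swap_apply_right, eAz, eAy0, if_pos hc.1, if_neg (by omega)]; omega
          · rw [swap_apply_of_ne_of_ne h1 h2, hA x h1 h2]
      rw [e, Perm.sign_mul, Perm.sign_swap hyz]
      simp
    · have e : L.permA hF' = L.permA hF := Equiv.ext fun x => by
        refine Subtype.ext (Prod.ext (Fin.ext rfl) (Fin.ext ?_))
        show 2 * L.lev x + L.bitA (F ∘ swap y z) x = 2 * L.lev x + L.bitA F x
        rcases eq_or_ne x y with rfl | h1
        · rw [eAy, eAy0]; split_ifs <;> omega
        rcases eq_or_ne x z with rfl | h2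
        · rw [eAz, eAz0]; split_ifs <;> omega
        · rw [hA x h1 h2]
      rw [e, mul_one]
  have sB : (Perm.sign (L.permB (F ∘ swap y z)) : ℤ) = (Perm.sign (L.permB F) : ℤ) *
      if L.pos y % 2 = 1 ∧ (F y).1 ≠ (F z).1 then -1 else 1 := by
    split_ifs with hc
    · have e : L.permB (F ∘ swap y z) = L.permB F * swap y z := Equiv.ext fun x => by
        refine Subtype.ext (Prod.ext (Fin.ext ?_) (Fin.ext ?_))
        · show L.clabel x = L.clabel (swap y z x)
          rcases eq_or_ne x y with rfl | h1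
          · rw [swap_apply_left, clabel, clabel, hl]; omega
          rcases eq_or_ne x z with rfl | h2
          · rw [swap_apply_right, clabel, clabel, hl]; omega
          · rw [swap_apply_of_ne_of_ne h1 h2]
        · show 2 * L.lev x + L.bitB (F ∘ swap y z) x
            = 2 * L.lev (swap y z x) + L.bitB F (swap y z x)
          rcases eq_or_ne x y with rfl | h1
          · rw [swap_apply_left, eBy, eBz0, if_neg (by omega), if_pos (by omega)]; omega
          rcases eq_or_ne x z with rfl | h2
          · rw [swap_apply_right, eBz, eBy0, if_pos (by omega), if_neg (by omega)]; omega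
          · rw [swap_apply_of_ne_of_ne h1 h2, hB x h1 h2]
      rw [e, Perm.sign_mul, Perm.sign_swap hyz]
      simp
    · have e : L.permB (F ∘ swap y z) = L.permB F := Equiv.ext fun x => by
        refine Subtype.ext (Prod.ext (Fin.ext rfl) (Fin.ext ?_))
        show 2 * L.lev x + L.bitB (F ∘ swap y z) x = 2 * L.lev x + L.bitB F x
        rcases eq_or_ne x y with rfl | h1
        · rw [eBy, eBy0]; split_ifs <;> omega
        rcases eq_or_ne x z with rfl | h2
        · rw [eBz, eBz0]; split_ifs <;> omega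
        · rw [hB x h1 h2]
      rw [e, mul_one]
  have hsplit : ∀ G : Stair m → ℕ × ℕ, (∏ x, (-1 : ℤ) ^ ((G x).2 * L.bitA G x))
      = (-1 : ℤ) ^ ((G y).2 * L.bitA G y + (G z).2 * L.bitA G z)
        * ∏ x ∈ (univ.erase y).erase z, (-1 : ℤ) ^ ((G x).2 * L.bitA G x) := fun G => by
    rw [← mul_prod_erase univ _ (mem_univ y),
      ← mul_prod_erase (univ.erase y) _ (mem_erase.mpr ⟨hyz.symm, mem_univ z⟩), pow_add, mul_assoc]
  have hrest : ∏ x ∈ (univ.erase y).erase z,
        (-1 : ℤ) ^ (((F ∘ swap y z) x).2 * L.bitA (F ∘ swap y z) x)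
      = ∏ x ∈ (univ.erase y).erase z, (-1 : ℤ) ^ ((F x).2 * L.bitA F x) :=
    prod_congr rfl fun x hx => by
      obtain ⟨h2, h1, -⟩ := mem_erase.mp hx |>.imp_right mem_erase.mp
      rw [hother x h1 h2, hA x h1 h2]
  rw [weight, weight, sA, sB, hsplit, hrest, hsplit F, eAy, eAz, eAy0, eAz0,
    Function.comp_apply, Function.comp_apply, swap_apply_left, swap_apply_right]
  rcases hFy : F y with ⟨σy, ηy⟩
  rcases hFz : F z with ⟨σz, ηz⟩
  simp only [hFy, hFz] at hy hz hne ⊢
  generalize (Perm.sign (L.permA hF) : ℤ) = P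
  generalize (Perm.sign (L.permB F) : ℤ) = Q
  generalize (∏ x ∈ (univ.erase y).erase z, (-1 : ℤ) ^ ((F x).2 * L.bitA F x)) = R
  obtain ⟨hσy, hηy⟩ := hy
  obtain ⟨hσz, hηz⟩ := hz
  rcases Nat.mod_two_eq_zero_or_one (L.pos y) with hc | hc <;>
    rcases Nat.mod_two_eq_zero_or_one (L.pre F y) with hq | hq <;>
      interval_cases σy <;> interval_cases σz <;> interval_cases ηy <;> interval_cases ηz <;>
        simp [hc, hzc, hp, Nat.add_mod, hq] at hne ⊢

end Layout

end Vale.Agent.P197.Saxl
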